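import Vale.Agent.P141.H841.S3a

/-!
# P141, line (A): the half differences of the shifted slot applied to the shifted slot, one generation

No unsigned layer energies: the right sides are the end energy of the slot at the point and the
deviation number `B` of the slot.

* `El` : the signed energy of one layer, `end_eq` : orthogonality in `x₀`;
* `dev_movE` : the deviation of the shifted slot applied to vectors close to the slot;
* `S3e` : one point; `S3s` : summed over the root cell, live scales, small fibres.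
-/

namespace Vale.Agent.P141.H841

open Finset Matrix
open Vale.Agent.P141.PL (iv ix hs mem_iv ix_ix card_iv)
open Vale.Agent.P141.H922 (ck iv_iv)
open Vale.Agent.P141.H43 (avv nsq nsq_nonneg)
open Vale.Agent.P141.H420 (Tr)
open Vale.Agent.P141.H483 (mT)
open Vale.Agent.P141.H876 (wn wt_cell near_root)

noncomputable section

variable {ι : Type*} [Fintype ι]

variable {Mx : ℕ → ℤ → Matrix ι ι ℝ} {o x1 T : ℤ} {s : ℕ → ℤ → ℤ → ℝ} {n : ℕ}

/-- the energy of a layer depends on the cell only -/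
theorem nsq_Lm_cell {i : ℕ} {x z : ℤ} (hxz : ix i x = ix i z) (p : ℤ) (v : ι → ℝ) :
    nsq (Lm Mx o x1 s i x p *ᵥ v) = nsq (Lm Mx o x1 s i z p *ᵥ v) := by
  unfold Lm
  rw [hxz]
  simp only [smul_mulVec, nsq_smul, mul_pow, sq (hs i _), PL.hs_mul_self]

/-- the signed energy of the layer `i + 1` at the point `y` -/
def El (Mx : ℕ → ℤ → Matrix ι ι ℝ) (o x1 : ℤ) (s : ℕ → ℤ → ℤ → ℝ) (n : ℕ) (T y : ℤ) (v : ι → ℝ)
    (i : ℕ) : ℝ :=
  ∑ x0 ∈ iv n T, nsq (Lm Mx o x1 s (i + 1) x0 y *ᵥ v)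

theorem El_nonneg {T y : ℤ} {v : ι → ℝ} (i : ℕ) : 0 ≤ El Mx o x1 s n T y v i :=
  sum_nonneg fun _ _ => nsq_nonneg _

/-- the difference of the slot at two times, signed layers -/
theorem Rm_difL {a b : ℕ} (hab : a ≤ b) (hb : b ≤ n) (x0 p : ℤ) (v : ι → ℝ) :
    nsq (Rm Mx o x1 s n a x0 p *ᵥ v - Rm Mx o x1 s n b x0 p *ᵥ v) ≤
      ((b - a : ℕ) : ℝ) * ∑ j ∈ Ico a b, nsq (Lm Mx o x1 s (j + 1) x0 p *ᵥ v) := by
  have e : Rm Mx o x1 s n a x0 p *ᵥ v - Rm Mx o x1 s n b x0 p *ᵥ v =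
      ∑ j ∈ Ico a b, Lm Mx o x1 s (j + 1) x0 p *ᵥ v := by
    unfold Rm
    rw [← sum_Ico_consecutive _ hab hb, add_mulVec, add_sub_cancel_right, Matrix.sum_mulVec]
  rw [e]
  have h1 := nsq_sum_le (Ico a b) (fun _ => (1 : ℝ)) (fun _ _ => one_pos)
    (fun j => Lm Mx o x1 s (j + 1) x0 p *ᵥ v)
  simp only [inv_one, one_pow, one_mul, sum_const, nsmul_eq_mul, mul_one, Nat.card_Ico] at h1
  exact h1

/-- **Orthogonality of the layers in `x₀`.** -/
theorem end_eq (y : ℤ) (v : ι → ℝ) :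
    ∑ x0 ∈ iv n T, nsq (Rm Mx o x1 s n 0 x0 y *ᵥ v) =
      ∑ i ∈ range n, El Mx o x1 s n T y v i := by
  have step : ∀ j < n, ∑ x0 ∈ iv n T, nsq (Rm Mx o x1 s n j x0 y *ᵥ v) =
      ∑ x0 ∈ iv n T, nsq (Rm Mx o x1 s n (j + 1) x0 y *ᵥ v) + El Mx o x1 s n T y v j := by
    intro j hj
    have e1 : ∀ x0, nsq (Rm Mx o x1 s n j x0 y *ᵥ v) =
        nsq (Rm Mx o x1 s n (j + 1) x0 y *ᵥ v) + nsq (Lm Mx o x1 s (j + 1) x0 y *ᵥ v) +
        hs (j + 1) x0 * (2 * ((Rm Mx o x1 s n (j + 1) x0 y *ᵥ v) ⬝ᵥ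
          ((s (j + 1) (ix (j + 1) x0) (ix (j + 1) y) * hs (j + 1) y) •
            (Mx (j + 1) (ck o x1 y (j + 1) - ix (j + 1) x0) *ᵥ v)))) := by
      intro x0
      rw [Rm_succ hj, add_comm (Lm _ _ _ _ _ _ _), add_mulVec, H43.nsq_add]
      have e2 : Lm Mx o x1 s (j + 1) x0 y *ᵥ v = hs (j + 1) x0 •
          ((s (j + 1) (ix (j + 1) x0) (ix (j + 1) y) * hs (j + 1) y) •
            (Mx (j + 1) (ck o x1 y (j + 1) - ix (j + 1) x0) *ᵥ v)) := by
        unfold Lm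
        rw [smul_mulVec, smul_smul]
        congr 1
        ring
      rw [e2, dotProduct_smul, smul_eq_mul]
      ring
    have e3 : ∑ x0 ∈ iv n T, hs (j + 1) x0 * (2 * ((Rm Mx o x1 s n (j + 1) x0 y *ᵥ v) ⬝ᵥ
          ((s (j + 1) (ix (j + 1) x0) (ix (j + 1) y) * hs (j + 1) y) •
            (Mx (j + 1) (ck o x1 y (j + 1) - ix (j + 1) x0) *ᵥ v)))) = 0 := by
      rw [← iv_iv (Nat.succ_le_of_lt hj)]
      refine sum_eq_zero fun m _ => ?_
      have e4 : ∀ x0 ∈ iv (j + 1) m, hs (j + 1) x0 * (2 * ((Rm Mx o x1 s n (j + 1) x0 y *ᵥ v) ⬝ᵥ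
          ((s (j + 1) (ix (j + 1) x0) (ix (j + 1) y) * hs (j + 1) y) •
            (Mx (j + 1) (ck o x1 y (j + 1) - ix (j + 1) x0) *ᵥ v)))) =
          hs (j + 1) x0 * (2 * ((Rm Mx o x1 s n (j + 1) (2 ^ (j + 1) * m) y *ᵥ v) ⬝ᵥ
          ((s (j + 1) m (ix (j + 1) y) * hs (j + 1) y) •
            (Mx (j + 1) (ck o x1 y (j + 1) - m) *ᵥ v)))) := by
        intro x0 hx
        rw [mem_iv] at hx
        rw [Rm_ix0 (hx.trans (ix_two' (j + 1) m).symm), hx]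
      rw [sum_congr rfl e4, ← sum_mul, H922.iv_succ_sum]
      have a1 : ∑ x ∈ iv j (2 * m), hs (j + 1) x = 2 ^ j := by
        have : ∀ x ∈ iv j (2 * m), hs (j + 1) x = 1 := by
          intro x hx
          rw [mem_iv] at hx
          unfold PL.hs
          rw [Nat.add_sub_cancel, hx, if_pos (by omega)]
        rw [sum_congr rfl this, sum_const, card_iv, nsmul_eq_mul]
        push_cast
        ring
      have a2 : ∑ x ∈ iv j (2 * m + 1), hs (j + 1) x = -2 ^ j := by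
        have : ∀ x ∈ iv j (2 * m + 1), hs (j + 1) x = -1 := by
          intro x hx
          rw [mem_iv] at hx
          unfold PL.hs
          rw [Nat.add_sub_cancel, hx, if_neg (by omega)]
        rw [sum_congr rfl this, sum_const, card_iv, nsmul_eq_mul]
        push_cast
        ring
      rw [a1, a2]
      ring
    rw [sum_congr rfl fun x0 _ => e1 x0, sum_add_distrib, sum_add_distrib, e3, add_zero]
    rfl
  have all : ∀ d ≤ n, ∑ x0 ∈ iv n T, nsq (Rm Mx o x1 s n (n - d) x0 y *ᵥ v) =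
      ∑ i ∈ Ico (n - d) n, El Mx o x1 s n T y v i := by
    intro d
    induction d with
    | zero =>
      intro _
      rw [Nat.sub_zero, Ico_self, sum_empty]
      refine sum_eq_zero fun x0 _ => ?_
      rw [Rm_top, zero_mulVec, nsq_zero]
    | succ d ih =>
      intro hd
      have h1 := ih (by omega)
      have e : n - d = n - (d + 1) + 1 := by omega
      have h2 := step (n - (d + 1)) (by omega)
      rw [← e] at h2
      rw [sum_eq_sum_Ico_succ_bot (by omega : n - (d + 1) < n), ← e]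
      linarith
  have := all n le_rfl
  rwa [Nat.sub_self, ← range_eq_Ico] at this

open scoped Classical in
/-- **The deviation of the shifted slot on vectors close to the slot.** -/
theorem dev_movE [DecidableEq ι] {l : ℝ} {G K : ℕ → ℤ → Matrix ι ι ℝ} (h : Tr l n G K)
    (hM : ∀ k m a, Mx k m *ᵥ a = mT l K k m a) (ho : o = 1 ∨ o = -1)
    (hs1 : ∀ k a b, |s k a b| ≤ 1) {W : ℕ → ℤ → ℝ} {e : ℝ} (he : 0 ≤ e)
    (hW0 : ∀ k x0, 0 ≤ W k x0) (hW : ∀ k ≤ n, ∀ j, ∑ x0 ∈ iv k j, W k x0 ≤ e * 2 ^ k)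
    {θ : ℕ → ℤ → ℝ} (hθ0 : ∀ k m, 0 ≤ θ k m)
    (hθ : ∀ k m a, nsq (Mx k m *ᵥ a) ≤ θ k m * nsq a) (sh y : ℤ) (v : ι → ℝ)
    (w : ℕ → ℤ → ι → ℝ) {κ : ℝ} (hκ0 : 0 ≤ κ) (hw : ∀ k x0, nsq (w k x0) ≤ κ) (L : ℕ)
    {al : ℕ → Prop} (hal : ∀ k, ¬ al k → ∀ x0, W k x0 = 0) :
    ∑ k ∈ range (n + 1), ∑ x0 ∈ iv n T, W k x0 *
        nsq ((Rs Mx o x1 s n sh k x0 (ix k (y - sh)) - Rm Mx o x1 s n k x0 y) *ᵥ w k x0) ≤
      e * (3 * ((600 + 8 * (L : ℝ) ^ 3) * 20000 *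
          ∑ x0 ∈ iv n T, nsq (Rm Mx o x1 s n 0 x0 y *ᵥ v)) +
        6 * ((600 + 8 * (L : ℝ) ^ 5) * ∑ x0 ∈ iv n T, nsq (Rm Mx o x1 s n 0 x0 y *ᵥ v)) +
        2 * (κ * fr n L (ep θ n T x1 (ix n y)) al sh y)) +
      6 * ((8 + 8 * (L : ℝ) ^ 3) * ∑ k ∈ range (n + 1), ∑ x0 ∈ iv n T, W k x0 *
        nsq (Rm Mx o x1 s n k x0 y *ᵥ v - w k x0)) := by
  set M3 := ix n y with hM3
  set V : ℕ → ℤ → ι → ℝ := fun k x0 => Rm Mx o x1 s n k x0 y *ᵥ v with hV
  set A : ℕ → ℕ → ℤ → ℝ := fun k i x0 => Nn Mx o x1 (i + 1) x0 (st sh k y) (V (i + 1) x0) +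
    Nn Mx o x1 (i + 1) x0 (st sh k y + 2 ^ k) (V (i + 1) x0) with hA
  have hA0 : ∀ k i x0, 0 ≤ A k i x0 := fun _ _ _ =>
    add_nonneg (Nn_nonneg _ _ _ _ _ _ _) (Nn_nonneg _ _ _ _ _ _ _)
  have hC : ∀ i < n, ∀ (m : ℤ) (a : ι → ℝ), nsq (Mx (i + 1) m *ᵥ a) ≤ nsq a := by
    intro i hi m a
    rw [hM]
    exact H483.mT_le h hi m a
  -- one layer, near
  have near1 : ∀ k i x0 p, i < n → Nn Mx o x1 (i + 1) x0 p (w k x0) ≤
      3 * Nn Mx o x1 (i + 1) x0 p (V (i + 1) x0) + 3 * nsq (V (i + 1) x0 - V k x0) +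
        3 * nsq (V k x0 - w k x0) := by
    intro k i x0 p hi
    have e1 : Mx (i + 1) (ck o x1 p (i + 1) - ix (i + 1) x0) *ᵥ w k x0 =
        Mx (i + 1) (ck o x1 p (i + 1) - ix (i + 1) x0) *ᵥ V (i + 1) x0 -
        Mx (i + 1) (ck o x1 p (i + 1) - ix (i + 1) x0) *ᵥ (V (i + 1) x0 - V k x0) -
        Mx (i + 1) (ck o x1 p (i + 1) - ix (i + 1) x0) *ᵥ (V k x0 - w k x0) := by
      rw [← mulVec_sub, ← mulVec_sub]
      congr 1
      abel
    unfold Nn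
    rw [e1]
    have h1 := nsq3 (Mx (i + 1) (ck o x1 p (i + 1) - ix (i + 1) x0) *ᵥ V (i + 1) x0)
      (Mx (i + 1) (ck o x1 p (i + 1) - ix (i + 1) x0) *ᵥ (V (i + 1) x0 - V k x0))
      (Mx (i + 1) (ck o x1 p (i + 1) - ix (i + 1) x0) *ᵥ (V k x0 - w k x0))
    have h2 := hC i hi (ck o x1 p (i + 1) - ix (i + 1) x0) (V (i + 1) x0 - V k x0)
    have h3 := hC i hi (ck o x1 p (i + 1) - ix (i + 1) x0) (V k x0 - w k x0)
    linarith
  -- the far part, weights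
  have hroot : ∀ k ≤ n, (M3 - 1 ≤ ix n (st sh k y) ∧ ix n (st sh k y) ≤ M3 + 1) ∧
      (M3 - 1 ≤ ix n (st sh k y + 2 ^ k) ∧ ix n (st sh k y + 2 ^ k) ≤ M3 + 1) := by
    intro k hk
    obtain ⟨t1, t2⟩ := st_bd sh k y
    have h0 : (0 : ℤ) < 2 ^ k := by positivity
    exact ⟨near_root hk (by linarith) (by linarith), near_root hk (by linarith) (by linarith)⟩
  have far1 : ∀ k ≤ n, ∀ i < n, k ≤ i → ∀ p, M3 - 1 ≤ ix n p → ix n p ≤ M3 + 1 →
      ∑ x0 ∈ iv n T, W k x0 * Nn Mx o x1 (i + 1) x0 p (w k x0) ≤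
        e * (κ * ep θ n T x1 M3 i) := by
    intro k hk i hi hki p hp1 hp2
    have h1 := wt_fun (n := n) (T := T) (hW0 k) (hW k hk) (i := i + 1) (by omega)
      (f := fun x0 => κ * θ (i + 1) (ck o x1 p (i + 1) - ix (i + 1) x0))
      (fun x0 => mul_nonneg hκ0 (hθ0 _ _)) (fun x z hxz => by simp only [hxz])
    have e2 : k - (i + 1) = 0 := by omega
    rw [e2, pow_zero, mul_one] at h1
    refine (sum_le_sum fun x0 _ => mul_le_mul_of_nonneg_left ?_ (hW0 k x0)).trans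
      (h1.trans (mul_le_mul_of_nonneg_left ?_ he))
    · unfold Nn
      refine (hθ _ _ _).trans ?_
      rw [mul_comm κ]
      exact mul_le_mul_of_nonneg_left (hw k x0) (hθ0 _ _)
    · rw [← mul_sum]
      refine mul_le_mul_of_nonneg_left ?_ hκ0
      unfold ep
      rw [← iv_iv (show i + 1 ≤ n by omega)]
      have e3 : ∀ m ∈ iv (n - (i + 1)) T, ∑ x0 ∈ iv (i + 1) m,
          θ (i + 1) (ck o x1 p (i + 1) - ix (i + 1) x0) =
          2 ^ (i + 1) * θ (i + 1) (ck o x1 p (i + 1) - m) := by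
        intro m _
        have : ∀ x0 ∈ iv (i + 1) m, θ (i + 1) (ck o x1 p (i + 1) - ix (i + 1) x0) =
            θ (i + 1) (ck o x1 p (i + 1) - m) := by
          intro x0 hx
          rw [mem_iv] at hx
          rw [hx]
        rw [sum_congr rfl this, sum_const, card_iv, nsmul_eq_mul]
        push_cast
        ring
      rw [sum_congr rfl e3, ← mul_sum]
      refine mul_le_mul_of_nonneg_left ?_ (by positivity)
      rw [H922.biU_sum]
      have e4 : ∑ m ∈ iv (n - (i + 1)) T, θ (i + 1) (ck o x1 p (i + 1) - m) =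
          ∑ q ∈ (iv (n - (i + 1)) T).image (fun m => ck o x1 p (i + 1) - m), θ (i + 1) q := by
        rw [sum_image]
        intro a _ b _ hab
        simpa using hab
      rw [e4]
      refine sum_le_sum_of_subset_of_nonneg (fun q hq => ?_) fun q _ _ => hθ0 _ _
      obtain ⟨m, hm, rfl⟩ := mem_image.1 hq
      rw [mem_biUnion]
      exact ⟨_, H876.tie_mem ho (by omega) hp1 hp2 hm, mem_iv.2 rfl⟩
  -- the difference of two times, weights
  have lay1 : ∀ k ≤ n, ∀ i < n, ∑ x0 ∈ iv n T, W k x0 * nsq (V (i + 1) x0 - V k x0) ≤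
      e * (if i < k then ((k - i - 1 : ℕ) : ℝ) * 2 ^ (k - i - 1) *
          ∑ j ∈ Ico (i + 1) k, El Mx o x1 s n T y v j
        else ((i + 1 - k : ℕ) : ℝ) * ∑ j ∈ Ico k (i + 1), El Mx o x1 s n T y v j) := by
    intro k hk i hi
    have wt : ∀ j < n, ∑ x0 ∈ iv n T, W k x0 * nsq (Lm Mx o x1 s (j + 1) x0 y *ᵥ v) ≤
        e * 2 ^ (k - (j + 1)) * El Mx o x1 s n T y v j := by
      intro j hj
      exact wt_fun (n := n) (T := T) (hW0 k) (hW k hk) (i := j + 1) hj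
        (f := fun x0 => nsq (Lm Mx o x1 s (j + 1) x0 y *ᵥ v)) (fun x0 => nsq_nonneg _)
        fun x z hxz => nsq_Lm_cell hxz y v
    by_cases hik : i < k
    · rw [if_pos hik]
      have h1 : ∀ x0, nsq (V (i + 1) x0 - V k x0) ≤ ((k - (i + 1) : ℕ) : ℝ) *
          ∑ j ∈ Ico (i + 1) k, nsq (Lm Mx o x1 s (j + 1) x0 y *ᵥ v) := fun x0 =>
        Rm_difL (by omega) hk x0 y v
      refine (sum_le_sum fun x0 _ => mul_le_mul_of_nonneg_left (h1 x0) (hW0 k x0)).trans ?_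
      have e1 : ∑ x0 ∈ iv n T, W k x0 * (((k - (i + 1) : ℕ) : ℝ) *
          ∑ j ∈ Ico (i + 1) k, nsq (Lm Mx o x1 s (j + 1) x0 y *ᵥ v)) = ((k - (i + 1) : ℕ) : ℝ) *
          ∑ j ∈ Ico (i + 1) k, ∑ x0 ∈ iv n T, W k x0 *
            nsq (Lm Mx o x1 s (j + 1) x0 y *ᵥ v) := by
        rw [sum_comm, mul_sum]
        refine sum_congr rfl fun x0 _ => ?_
        rw [← mul_sum]
        ring
      rw [e1]
      have e2 : k - i - 1 = k - (i + 1) := by omega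
      rw [e2]
      have h2 : ∑ j ∈ Ico (i + 1) k, ∑ x0 ∈ iv n T, W k x0 *
          nsq (Lm Mx o x1 s (j + 1) x0 y *ᵥ v) ≤
          ∑ j ∈ Ico (i + 1) k, e * 2 ^ (k - (i + 1)) * El Mx o x1 s n T y v j := by
        refine sum_le_sum fun j hj => ?_
        rw [mem_Ico] at hj
        refine (wt j (by omega)).trans (mul_le_mul_of_nonneg_right
          (mul_le_mul_of_nonneg_left ?_ he) (El_nonneg _))
        exact pow_le_pow_right₀ (by norm_num) (by omega)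
      refine (mul_le_mul_of_nonneg_left h2 (Nat.cast_nonneg _)).trans (le_of_eq ?_)
      rw [← mul_sum]
      ring
    · rw [if_neg hik]
      have h1 : ∀ x0, nsq (V (i + 1) x0 - V k x0) ≤ ((i + 1 - k : ℕ) : ℝ) *
          ∑ j ∈ Ico k (i + 1), nsq (Lm Mx o x1 s (j + 1) x0 y *ᵥ v) := fun x0 => by
        have h3 := Rm_difL (Mx := Mx) (o := o) (x1 := x1) (s := s) (show k ≤ i + 1 by omega)
          (show i + 1 ≤ n by omega) x0 y v
        have e3 : V (i + 1) x0 - V k x0 = -(V k x0 - V (i + 1) x0) := by abel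
        have e4 : nsq (-(V k x0 - V (i + 1) x0)) = nsq (V k x0 - V (i + 1) x0) := by
          unfold H43.nsq
          rw [neg_dotProduct_neg]
        rw [e3, e4]
        exact h3
      refine (sum_le_sum fun x0 _ => mul_le_mul_of_nonneg_left (h1 x0) (hW0 k x0)).trans ?_
      have e1 : ∑ x0 ∈ iv n T, W k x0 * (((i + 1 - k : ℕ) : ℝ) *
          ∑ j ∈ Ico k (i + 1), nsq (Lm Mx o x1 s (j + 1) x0 y *ᵥ v)) = ((i + 1 - k : ℕ) : ℝ) *
          ∑ j ∈ Ico k (i + 1), ∑ x0 ∈ iv n T, W k x0 *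
            nsq (Lm Mx o x1 s (j + 1) x0 y *ᵥ v) := by
        rw [sum_comm, mul_sum]
        refine sum_congr rfl fun x0 _ => ?_
        rw [← mul_sum]
        ring
      rw [e1]
      have h2 : ∑ j ∈ Ico k (i + 1), ∑ x0 ∈ iv n T, W k x0 *
          nsq (Lm Mx o x1 s (j + 1) x0 y *ᵥ v) ≤
          ∑ j ∈ Ico k (i + 1), e * El Mx o x1 s n T y v j := by
        refine sum_le_sum fun j hj => ?_
        rw [mem_Ico] at hj
        have h4 := wt j (by omega)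
        have e5 : k - (j + 1) = 0 := by omega
        rwa [e5, pow_zero, mul_one] at h4
      refine (mul_le_mul_of_nonneg_left h2 (Nat.cast_nonneg _)).trans (le_of_eq ?_)
      rw [← mul_sum]
      ring
  -- the slot itself, weights
  have mov1 : ∀ k ≤ n, ∀ i < n, ∑ x0 ∈ iv n T, W k x0 * A k i x0 ≤
      e * 2 ^ (k - (i + 1)) * ∑ x0 ∈ iv n T, A k i x0 := by
    intro k hk i hi
    refine wt_fun (n := n) (T := T) (hW0 k) (hW k hk) (i := i + 1) (by omega)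
      (f := fun x0 => A k i x0) (fun x0 => hA0 k i x0) fun x z hxz => ?_
    simp only [hA, hV]
    unfold Nn
    rw [hxz, Rm_ix0 hxz]
  -- one scale
  have scale' : ∀ k ∈ range (n + 1), al k → ∑ x0 ∈ iv n T, W k x0 *
      nsq ((Rs Mx o x1 s n sh k x0 (ix k (y - sh)) - Rm Mx o x1 s n k x0 y) *ᵥ w k x0) ≤
      3 * (e * ∑ i ∈ range n, (if i + 1 ≤ k + L then om sh k i y * 2 ^ (k - (i + 1)) *
        ∑ x0 ∈ iv n T, A k i x0 else 0)) +
      6 * (e * ∑ i ∈ range n, (if i + 1 ≤ k + L then om sh k i y *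
        (if i < k then ((k - i - 1 : ℕ) : ℝ) * 2 ^ (k - i - 1) *
          ∑ j ∈ Ico (i + 1) k, El Mx o x1 s n T y v j
        else ((i + 1 - k : ℕ) : ℝ) * ∑ j ∈ Ico k (i + 1), El Mx o x1 s n T y v j) else 0)) +
      6 * ((∑ i ∈ range n, (if i + 1 ≤ k + L then om sh k i y else 0)) *
        ∑ x0 ∈ iv n T, W k x0 * nsq (V k x0 - w k x0)) +
      2 * (e * (κ * ∑ i ∈ range n, (if k + L ≤ i then om sh k i y * ep θ n T x1 M3 i else 0))) := by
    intro k hk _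
    rw [mem_range] at hk
    have hkn : k ≤ n := by omega
    have e1 : ∀ x0 ∈ iv n T, W k x0 *
        nsq ((Rs Mx o x1 s n sh k x0 (ix k (y - sh)) - Rm Mx o x1 s n k x0 y) *ᵥ w k x0) ≤
        ∑ i ∈ range n, om sh k i y * (W k x0 * Nn Mx o x1 (i + 1) x0 (st sh k y) (w k x0) +
          W k x0 * Nn Mx o x1 (i + 1) x0 (st sh k y + 2 ^ k) (w k x0)) := by
      intro x0 _
      refine (mul_le_mul_of_nonneg_left (dev_le hs1 n sh hkn x0 y (w k x0))
        (hW0 k x0)).trans (le_of_eq ?_)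
      rw [mul_sum]
      exact sum_congr rfl fun i _ => by ring
    refine (sum_le_sum e1).trans ?_
    rw [sum_comm]
    have e2 : ∀ i ∈ range n, ∑ x0 ∈ iv n T, om sh k i y *
        (W k x0 * Nn Mx o x1 (i + 1) x0 (st sh k y) (w k x0) +
          W k x0 * Nn Mx o x1 (i + 1) x0 (st sh k y + 2 ^ k) (w k x0)) ≤
        3 * (e * (if i + 1 ≤ k + L then om sh k i y * 2 ^ (k - (i + 1)) *
          ∑ x0 ∈ iv n T, A k i x0 else 0)) +
        6 * (e * (if i + 1 ≤ k + L then om sh k i y *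
          (if i < k then ((k - i - 1 : ℕ) : ℝ) * 2 ^ (k - i - 1) *
            ∑ j ∈ Ico (i + 1) k, El Mx o x1 s n T y v j
          else ((i + 1 - k : ℕ) : ℝ) * ∑ j ∈ Ico k (i + 1), El Mx o x1 s n T y v j) else 0)) +
        6 * ((if i + 1 ≤ k + L then om sh k i y else 0) *
          ∑ x0 ∈ iv n T, W k x0 * nsq (V k x0 - w k x0)) +
        2 * (e * (κ * (if k + L ≤ i then om sh k i y * ep θ n T x1 M3 i else 0))) := by
      intro i hi
      rw [mem_range] at hi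
      have om0 := om_nonneg sh k i y
      rw [← mul_sum, sum_add_distrib]
      by_cases hn : i + 1 ≤ k + L
      · rw [if_pos hn, if_pos hn, if_pos hn, if_neg (show ¬ k + L ≤ i by omega)]
        have g1 : ∑ x0 ∈ iv n T, W k x0 * Nn Mx o x1 (i + 1) x0 (st sh k y) (w k x0) +
            ∑ x0 ∈ iv n T, W k x0 * Nn Mx o x1 (i + 1) x0 (st sh k y + 2 ^ k) (w k x0) ≤
            3 * ∑ x0 ∈ iv n T, W k x0 * A k i x0 +
            6 * ∑ x0 ∈ iv n T, W k x0 * nsq (V (i + 1) x0 - V k x0) +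
            6 * ∑ x0 ∈ iv n T, W k x0 * nsq (V k x0 - w k x0) := by
          rw [mul_sum, mul_sum, mul_sum, ← sum_add_distrib, ← sum_add_distrib, ← sum_add_distrib]
          refine sum_le_sum fun x0 _ => ?_
          have n1 := mul_le_mul_of_nonneg_left (near1 k i x0 (st sh k y) hi) (hW0 k x0)
          have n2 := mul_le_mul_of_nonneg_left (near1 k i x0 (st sh k y + 2 ^ k) hi) (hW0 k x0)
          simp only [hA]
          linarith
        have g2 := mov1 k hkn i hi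
        have g3 := lay1 k hkn i hi
        have g4 : 3 * ∑ x0 ∈ iv n T, W k x0 * A k i x0 +
            6 * ∑ x0 ∈ iv n T, W k x0 * nsq (V (i + 1) x0 - V k x0) +
            6 * ∑ x0 ∈ iv n T, W k x0 * nsq (V k x0 - w k x0) ≤
            3 * (e * 2 ^ (k - (i + 1)) * ∑ x0 ∈ iv n T, A k i x0) +
            6 * (e * (if i < k then ((k - i - 1 : ℕ) : ℝ) * 2 ^ (k - i - 1) *
              ∑ j ∈ Ico (i + 1) k, El Mx o x1 s n T y v j
              else ((i + 1 - k : ℕ) : ℝ) * ∑ j ∈ Ico k (i + 1), El Mx o x1 s n T y v j)) +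
            6 * ∑ x0 ∈ iv n T, W k x0 * nsq (V k x0 - w k x0) := by
          linarith
        refine (mul_le_mul_of_nonneg_left (g1.trans g4) om0).trans (le_of_eq ?_)
        ring
      · rw [if_neg hn, if_neg hn, if_neg hn, if_pos (show k + L ≤ i by omega)]
        obtain ⟨r1, r2⟩ := hroot k hkn
        have f1 := far1 k hkn i hi (by omega) (st sh k y) r1.1 r1.2
        have f2 := far1 k hkn i hi (by omega) (st sh k y + 2 ^ k) r2.1 r2.2
        refine (mul_le_mul_of_nonneg_left (add_le_add f1 f2) om0).trans (le_of_eq ?_)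
        ring
    refine (sum_le_sum e2).trans (le_of_eq ?_)
    rw [sum_add_distrib, sum_add_distrib, sum_add_distrib]
    simp only [← mul_sum, ← sum_mul]
  have scale : ∀ k ∈ range (n + 1), ∑ x0 ∈ iv n T, W k x0 *
      nsq ((Rs Mx o x1 s n sh k x0 (ix k (y - sh)) - Rm Mx o x1 s n k x0 y) *ᵥ w k x0) ≤
      3 * (e * ∑ i ∈ range n, (if i + 1 ≤ k + L then om sh k i y * 2 ^ (k - (i + 1)) *
        ∑ x0 ∈ iv n T, A k i x0 else 0)) +
      6 * (e * ∑ i ∈ range n, (if i + 1 ≤ k + L then om sh k i y *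
        (if i < k then ((k - i - 1 : ℕ) : ℝ) * 2 ^ (k - i - 1) *
          ∑ j ∈ Ico (i + 1) k, El Mx o x1 s n T y v j
        else ((i + 1 - k : ℕ) : ℝ) * ∑ j ∈ Ico k (i + 1), El Mx o x1 s n T y v j) else 0)) +
      6 * ((∑ i ∈ range n, (if i + 1 ≤ k + L then om sh k i y else 0)) *
        ∑ x0 ∈ iv n T, W k x0 * nsq (V k x0 - w k x0)) +
      2 * (e * (κ * ∑ i ∈ range n,
        (if al k ∧ k + L ≤ i then om sh k i y * ep θ n T x1 M3 i else 0))) := by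
    intro k hk
    by_cases hak : al k
    · have := scale' k hk hak
      simp only [hak, true_and]
      exact this
    · have z1 : ∑ x0 ∈ iv n T, W k x0 *
          nsq ((Rs Mx o x1 s n sh k x0 (ix k (y - sh)) - Rm Mx o x1 s n k x0 y) *ᵥ w k x0) = 0 :=
        sum_eq_zero fun x0 _ => by rw [hal k hak x0, zero_mul]
      have z2 : ∑ x0 ∈ iv n T, W k x0 * nsq (V k x0 - w k x0) = 0 :=
        sum_eq_zero fun x0 _ => by rw [hal k hak x0, zero_mul]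
      have z3 : ∑ i ∈ range n, (if al k ∧ k + L ≤ i then om sh k i y * ep θ n T x1 M3 i
          else 0) = 0 := sum_eq_zero fun i _ => by rw [if_neg fun h' => hak h'.1]
      have z4 : 0 ≤ ∑ i ∈ range n, (if i + 1 ≤ k + L then om sh k i y * 2 ^ (k - (i + 1)) *
          ∑ x0 ∈ iv n T, A k i x0 else 0) := by
        refine sum_nonneg fun i _ => ?_
        split_ifs
        · exact mul_nonneg (mul_nonneg (om_nonneg _ _ _ _) (by positivity))
            (sum_nonneg fun _ _ => hA0 _ _ _)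
        · exact le_rfl
      have z5 : 0 ≤ ∑ i ∈ range n, (if i + 1 ≤ k + L then om sh k i y *
          (if i < k then ((k - i - 1 : ℕ) : ℝ) * 2 ^ (k - i - 1) *
            ∑ j ∈ Ico (i + 1) k, El Mx o x1 s n T y v j
          else ((i + 1 - k : ℕ) : ℝ) *
            ∑ j ∈ Ico k (i + 1), El Mx o x1 s n T y v j) else 0) := by
        refine sum_nonneg fun i _ => ?_
        split_ifs
        · exact mul_nonneg (om_nonneg _ _ _ _) (mul_nonneg (by positivity)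
            (sum_nonneg fun _ _ => El_nonneg _))
        · exact mul_nonneg (om_nonneg _ _ _ _) (mul_nonneg (by positivity)
            (sum_nonneg fun _ _ => El_nonneg _))
        · exact le_rfl
      rw [z1, z2, z3]
      have z6 := mul_nonneg he z4
      have z7 := mul_nonneg he z5
      linarith
  -- the sum over the scales
  refine (sum_le_sum scale).trans ?_
  rw [sum_add_distrib, sum_add_distrib, sum_add_distrib]
  simp only [← mul_sum]
  have s1 := near_mov (s := s) (x1 := x1) (T := T) h hM ho sh y v L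
  have s2 := H690.near_lay n L sh y (E := fun j => El Mx o x1 s n T y v j)
    fun j => El_nonneg _
  have s3 : ∑ k ∈ range (n + 1), (∑ i ∈ range n, (if i + 1 ≤ k + L then om sh k i y else 0)) *
      ∑ x0 ∈ iv n T, W k x0 * nsq (V k x0 - w k x0) ≤
      (8 + 8 * (L : ℝ) ^ 3) * ∑ k ∈ range (n + 1), ∑ x0 ∈ iv n T,
        W k x0 * nsq (V k x0 - w k x0) := by
    rw [mul_sum]
    refine sum_le_sum fun k hk => mul_le_mul_of_nonneg_right ?_
      (sum_nonneg fun x0 _ => mul_nonneg (hW0 _ _) (nsq_nonneg _))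
    rw [mem_range] at hk
    exact H690.near_om n L sh y (by omega)
  set E0 := ∑ x0 ∈ iv n T, nsq (Rm Mx o x1 s n 0 x0 y *ᵥ v) with hE0
  have s5 : ∑ j ∈ range n, El Mx o x1 s n T y v j = E0 := (end_eq y v).symm
  rw [s5] at s2
  have s6 : (600 + 8 * (L : ℝ) ^ 3) * (20000 * E0) ≤ (600 + 8 * (L : ℝ) ^ 3) * 20000 * E0 := by
    rw [mul_assoc]
  have t1 := mul_le_mul_of_nonneg_left (s1.trans s6) he
  have t2 := mul_le_mul_of_nonneg_left s2 he
  simp only [hA, hV] at t1 s3 ⊢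
  have rhs : e * (3 * ((600 + 8 * (L : ℝ) ^ 3) * 20000 * E0) +
        6 * ((600 + 8 * (L : ℝ) ^ 5) * E0) +
        2 * (κ * fr n L (ep θ n T x1 M3) al sh y)) =
      3 * (e * ((600 + 8 * (L : ℝ) ^ 3) * 20000 * E0)) +
        6 * (e * ((600 + 8 * (L : ℝ) ^ 5) * E0)) +
        2 * (e * (κ * fr n L (ep θ n T x1 M3) al sh y)) := by ring
  rw [rhs]
  unfold fr
  linarith

/-- **(S3) for one slot, one point: end energy and deviation number on the right.** -/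
theorem S3e [DecidableEq ι] {l : ℝ} {G K : ℕ → ℤ → Matrix ι ι ℝ} (h : Tr l n G K)
    (hM : ∀ k m a, Mx k m *ᵥ a = mT l K k m a) (ho : o = 1 ∨ o = -1)
    (hs1 : ∀ k a b, |s k a b| ≤ 1) {W : ℕ → ℤ → ℝ} {e : ℝ} (he : 0 ≤ e)
    (hW0 : ∀ k x0, 0 ≤ W k x0) (hW : ∀ k < n, ∀ j, ∑ x0 ∈ iv k j, W k x0 ≤ e * 2 ^ k)
    {θ : ℕ → ℤ → ℝ} (hθ0 : ∀ k m, 0 ≤ θ k m)
    (hθ : ∀ k m a, nsq (Mx k m *ᵥ a) ≤ θ k m * nsq a) {v : ι → ℝ}
    {κ : ℝ} (hκ0 : 0 ≤ κ) (hκ : ∀ x0 p, nsq (Rm Mx o x1 s n 0 x0 p *ᵥ v) ≤ κ * nsq v)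
    (al : ℕ → ℤ → Prop) (L : ℕ) (sh : ℤ) {y : ℤ} (hup : ∀ k < n, al k y → al (k + 1) y)
    (hal : ∀ k < n, ¬ al k y → ∀ x0, W k x0 = 0) {B : ℝ}
    (hB : ∑ k ∈ range n, ∑ x0 ∈ iv n T, W k x0 *
      nsq ((Rs Mx o x1 s n sh (k + 1) x0 (ix (k + 1) (y - sh)) -
        Rm Mx o x1 s n (k + 1) x0 y) *ᵥ v) ≤ B) :
    ∑ k ∈ range n, ∑ x0 ∈ iv n T, W k x0 *
        nsq ((Rs Mx o x1 s n sh k x0 (ix k (y - sh)) -
          Rs Mx o x1 s n sh (k + 1) x0 (ix (k + 1) (y - sh))) *ᵥ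
            (Rs Mx o x1 s n sh (k + 1) x0 (ix (k + 1) (y - sh)) *ᵥ v)) ≤
      e * (3 * 10 ^ 8 * (1 + (L : ℝ)) ^ 5 *
          ∑ x0 ∈ iv n T, nsq (Rm Mx o x1 s n 0 x0 y *ᵥ v) +
        12 * κ * (H444.FD.farA n L (ep θ n T x1 (ix n y)) al y * nsq v)) +
      450 * (1 + (L : ℝ)) ^ 3 * B := by
  set M3 := ix n y with hM3
  -- the weights, cut to the scales below n
  set W' : ℕ → ℤ → ℝ := fun k x0 => if k < n then W k x0 else 0 with hW'
  have hW0' : ∀ k x0, 0 ≤ W' k x0 := by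
    intro k x0
    simp only [hW']
    split_ifs
    · exact hW0 _ _
    · exact le_rfl
  have hWs' : ∀ k ≤ n, ∀ j, ∑ x0 ∈ iv k j, W' k x0 ≤ e * 2 ^ k := by
    intro k _ j
    by_cases hk : k < n
    · simp only [hW', if_pos hk]
      exact hW k hk j
    · simp only [hW', if_neg hk, sum_const_zero]
      positivity
  have hal' : ∀ k, ¬ al (min k n) y → ∀ x0, W' k x0 = 0 := by
    intro k hk x0
    by_cases hkn : k < n
    · simp only [hW', if_pos hkn]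
      rw [min_eq_left hkn.le] at hk
      exact hal k hkn hk x0
    · simp only [hW', if_neg hkn]
  have hmono : ∀ k, al (min k n) y → al (min (k + 1) n) y := by
    intro k hk
    by_cases hkn : k < n
    · rw [min_eq_left (by omega : k + 1 ≤ n)]
      rw [min_eq_left hkn.le] at hk
      exact hup k hkn hk
    · rw [min_eq_right (by omega : n ≤ k + 1)]
      rwa [min_eq_right (by omega : n ≤ k)] at hk
  have eW : ∀ D : ℕ → ℤ → ℝ, ∑ k ∈ range n, ∑ x0 ∈ iv n T, W k x0 * D k x0 =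
      ∑ k ∈ range n, ∑ x0 ∈ iv n T, W' k x0 * D k x0 := by
    intro D
    refine sum_congr rfl fun k hk => sum_congr rfl fun x0 _ => ?_
    rw [mem_range] at hk
    simp only [hW', if_pos hk]
  rw [eW] at hB
  rw [eW]
  set F := H444.FD.farA n L (ep θ n T x1 M3) al y with hF
  have hF0 : 0 ≤ F := H444.FD.farA_nonneg n L (ep_nonneg hθ0 n T x1 M3) al y
  have fr1 : fr n L (ep θ n T x1 M3) (fun k => al (min k n) y) sh y ≤ F :=
    fr_farA n L sh (ep_nonneg hθ0 n T x1 M3) al y fun k hk hk2 => by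
      rwa [min_eq_left hk] at hk2
  have fr2 : fr n L (ep θ n T x1 M3) (fun k => k ≠ 0 ∧ al (min (k - 1) n) y) sh y ≤ F :=
    fr_farA n L sh (ep_nonneg hθ0 n T x1 M3) al y fun k hk hk2 => by
      have h1 := hmono (k - 1) hk2.2
      rwa [Nat.sub_add_cancel (Nat.pos_of_ne_zero hk2.1), min_eq_left hk] at h1
  set E := ∑ x0 ∈ iv n T, nsq (Rm Mx o x1 s n 0 x0 y *ᵥ v) with hE
  have hE0 : 0 ≤ E := sum_nonneg fun _ _ => nsq_nonneg _
  set u : ℕ → ℤ → ι → ℝ := fun k x0 => Rs Mx o x1 s n sh k x0 (ix k (y - sh)) *ᵥ v with hu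
  set V : ℕ → ℤ → ι → ℝ := fun k x0 => Rm Mx o x1 s n k x0 y *ᵥ v with hV
  have hcap : ∀ k x0, nsq (u k x0) ≤ κ * nsq v := fun k x0 =>
    Rs_cap (hκ x0) sh k y
  have hκv : 0 ≤ κ * nsq v := mul_nonneg hκ0 (nsq_nonneg v)
  have b3 : ∑ k ∈ range n, ∑ x0 ∈ iv n T, W' k x0 * nsq (V (k + 1) x0 - u (k + 1) x0) ≤ B := by
    refine le_trans (le_of_eq ?_) hB
    refine sum_congr rfl fun k _ => sum_congr rfl fun x0 _ => ?_
    rw [nsq_comm, sub_mulVec]
  have b2 : ∑ k ∈ range (n + 1), ∑ x0 ∈ iv n T, sW W' k x0 * nsq (V k x0 - u k x0) ≤ B := by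
    rw [sum_range_succ']
    have z : ∑ x0 ∈ iv n T, sW W' 0 x0 * nsq (V 0 x0 - u 0 x0) = 0 :=
      sum_eq_zero fun x0 _ => by
        unfold sW
        rw [if_pos rfl, zero_mul]
    rw [z, add_zero]
    simp only [sW_succ]
    exact b3
  -- (b)
  have pb := dev_movE h hM ho hs1 he (sW_nonneg hW0') (sW_sum he hW0' hWs') hθ0 hθ sh y v u hκv
    hcap L (sW_al hal') (T := T) (x1 := x1)
  rw [← hM3, ← hE] at pb
  have pb' : ∑ k ∈ range n, ∑ x0 ∈ iv n T, W' k x0 *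
      nsq ((Rs Mx o x1 s n sh (k + 1) x0 (ix (k + 1) (y - sh)) - Rm Mx o x1 s n (k + 1) x0 y) *ᵥ
        u (k + 1) x0) ≤
      e * (3 * ((600 + 8 * (L : ℝ) ^ 3) * 20000 * E) + 6 * ((600 + 8 * (L : ℝ) ^ 5) * E) +
        2 * (κ * nsq v * F)) + 6 * ((8 + 8 * (L : ℝ) ^ 3) * B) := by
    refine (sum_sW (n := n) hW0' (D := fun k x0 =>
      nsq ((Rs Mx o x1 s n sh k x0 (ix k (y - sh)) - Rm Mx o x1 s n k x0 y) *ᵥ u k x0))
      (fun k x0 => nsq_nonneg _) (iv n T)).trans (pb.trans ?_)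
    have f1 := mul_le_mul_of_nonneg_left (mul_le_mul_of_nonneg_left fr2 hκv) he
    have f2 : (8 + 8 * (L : ℝ) ^ 3) * ∑ k ∈ range (n + 1), ∑ x0 ∈ iv n T,
        sW W' k x0 * nsq (Rm Mx o x1 s n k x0 y *ᵥ v - u k x0) ≤ (8 + 8 * (L : ℝ) ^ 3) * B :=
      mul_le_mul_of_nonneg_left b2 (by positivity)
    linarith
  -- (a)
  set w : ℕ → ℤ → ι → ℝ := fun k x0 => if k < n then u (k + 1) x0 else 0 with hw
  have wcap : ∀ k x0, nsq (w k x0) ≤ κ * nsq v := by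
    intro k x0
    simp only [hw]
    split_ifs
    · exact hcap _ _
    · rw [nsq_zero]
      exact hκv
  have pa := dev_movE h hM ho hs1 he hW0' hWs' hθ0 hθ sh y v w hκv wcap L hal' (T := T) (x1 := x1)
  rw [← hM3, ← hE] at pa
  have lay : ∑ k ∈ range n, ∑ x0 ∈ iv n T, W' k x0 * nsq (Lm Mx o x1 s (k + 1) x0 y *ᵥ v) ≤
      e * E := by
    rw [hE, end_eq, mul_sum]
    refine sum_le_sum fun k hk => ?_
    rw [mem_range] at hk
    have g := wt_fun (n := n) (T := T) (hW0' k) (hWs' k hk.le) (i := k + 1) hk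
      (f := fun x0 => nsq (Lm Mx o x1 s (k + 1) x0 y *ᵥ v)) (fun x0 => nsq_nonneg _)
      fun x z hxz => nsq_Lm_cell hxz y v
    have e2 : k - (k + 1) = 0 := by omega
    rw [e2, pow_zero, mul_one] at g
    exact g
  have ea : ∑ k ∈ range (n + 1), ∑ x0 ∈ iv n T, W' k x0 *
      nsq (Rm Mx o x1 s n k x0 y *ᵥ v - w k x0) ≤ 2 * B + 2 * (e * E) := by
    rw [sum_range_succ]
    have z : ∑ x0 ∈ iv n T, W' n x0 * nsq (Rm Mx o x1 s n n x0 y *ᵥ v - w n x0) = 0 := by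
      refine sum_eq_zero fun x0 _ => ?_
      simp only [hw, lt_irrefl, if_false]
      rw [Rm_top, zero_mulVec, sub_zero, nsq_zero, mul_zero]
    rw [z, add_zero]
    have g : ∀ k ∈ range n, ∀ x0 ∈ iv n T, W' k x0 *
        nsq (Rm Mx o x1 s n k x0 y *ᵥ v - w k x0) ≤
        2 * (W' k x0 * nsq (V (k + 1) x0 - u (k + 1) x0)) +
        2 * (W' k x0 * nsq (Lm Mx o x1 s (k + 1) x0 y *ᵥ v)) := by
      intro k hk x0 _
      rw [mem_range] at hk
      have g1 : Rm Mx o x1 s n k x0 y *ᵥ v - w k x0 =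
          (V (k + 1) x0 - u (k + 1) x0) + Lm Mx o x1 s (k + 1) x0 y *ᵥ v := by
        simp only [hw, if_pos hk, hV]
        rw [Rm_succ hk, add_mulVec]
        abel
      rw [g1]
      refine (mul_le_mul_of_nonneg_left (nsq_add_le (V (k + 1) x0 - u (k + 1) x0)
        (Lm Mx o x1 s (k + 1) x0 y *ᵥ v)) (hW0' k x0)).trans (le_of_eq ?_)
      ring
    refine (sum_le_sum fun k hk => sum_le_sum fun x0 hx => g k hk x0 hx).trans ?_
    simp only [sum_add_distrib, ← mul_sum]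
    linarith
  have pa' : ∑ k ∈ range n, ∑ x0 ∈ iv n T, W' k x0 *
      nsq ((Rs Mx o x1 s n sh k x0 (ix k (y - sh)) - Rm Mx o x1 s n k x0 y) *ᵥ
        u (k + 1) x0) ≤
      e * (3 * ((600 + 8 * (L : ℝ) ^ 3) * 20000 * E) + 6 * ((600 + 8 * (L : ℝ) ^ 5) * E) +
        2 * (κ * nsq v * F)) + 6 * ((8 + 8 * (L : ℝ) ^ 3) * (2 * B + 2 * (e * E))) := by
    have e1 : ∑ k ∈ range n, ∑ x0 ∈ iv n T, W' k x0 *
        nsq ((Rs Mx o x1 s n sh k x0 (ix k (y - sh)) - Rm Mx o x1 s n k x0 y) *ᵥ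
          u (k + 1) x0) = ∑ k ∈ range n, ∑ x0 ∈ iv n T, W' k x0 *
        nsq ((Rs Mx o x1 s n sh k x0 (ix k (y - sh)) - Rm Mx o x1 s n k x0 y) *ᵥ w k x0) := by
      refine sum_congr rfl fun k hk => sum_congr rfl fun x0 _ => ?_
      rw [mem_range] at hk
      simp only [hw, if_pos hk]
    rw [e1]
    refine (sum_W (n := n) hW0' (D := fun k x0 =>
      nsq ((Rs Mx o x1 s n sh k x0 (ix k (y - sh)) - Rm Mx o x1 s n k x0 y) *ᵥ w k x0))
      (fun k x0 => nsq_nonneg _) (iv n T)).trans (pa.trans ?_)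
    have f1 := mul_le_mul_of_nonneg_left (mul_le_mul_of_nonneg_left fr1 hκv) he
    have f2 := mul_le_mul_of_nonneg_left ea (by positivity : 0 ≤ 8 + 8 * (L : ℝ) ^ 3)
    linarith
  -- (c)
  have hC : ∀ k < n, ∀ (m : ℤ) (a : ι → ℝ), nsq (Mx (k + 1) m *ᵥ a) ≤ nsq a := by
    intro i hi m a
    rw [hM]
    exact H483.mT_le h hi m a
  have pc : ∑ k ∈ range n, ∑ x0 ∈ iv n T, W' k x0 *
      nsq (Lm Mx o x1 s (k + 1) x0 y *ᵥ u (k + 1) x0) ≤ 20000 * (e * E) + 2 * B := by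
    have g : ∀ k ∈ range n, ∑ x0 ∈ iv n T, W' k x0 *
        nsq (Lm Mx o x1 s (k + 1) x0 y *ᵥ u (k + 1) x0) ≤
        2 * (e * ∑ x0 ∈ iv n T, Nn Mx o x1 (k + 1) x0 y (V (k + 1) x0)) +
        2 * ∑ x0 ∈ iv n T, W' k x0 * nsq (V (k + 1) x0 - u (k + 1) x0) := by
      intro k hk
      rw [mem_range] at hk
      have g1 : ∀ x0 ∈ iv n T, W' k x0 * nsq (Lm Mx o x1 s (k + 1) x0 y *ᵥ u (k + 1) x0) ≤
          2 * (W' k x0 * Nn Mx o x1 (k + 1) x0 y (V (k + 1) x0)) +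
          2 * (W' k x0 * nsq (V (k + 1) x0 - u (k + 1) x0)) := by
        intro x0 _
        have c1 := Lm_le (Mx := Mx) (o := o) (x1 := x1) hs1 (k + 1) x0 y (u (k + 1) x0)
        have c2 : Nn Mx o x1 (k + 1) x0 y (u (k + 1) x0) ≤
            2 * Nn Mx o x1 (k + 1) x0 y (V (k + 1) x0) +
            2 * nsq (V (k + 1) x0 - u (k + 1) x0) := by
          have e1 : Mx (k + 1) (ck o x1 y (k + 1) - ix (k + 1) x0) *ᵥ u (k + 1) x0 =
              Mx (k + 1) (ck o x1 y (k + 1) - ix (k + 1) x0) *ᵥ V (k + 1) x0 -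
              Mx (k + 1) (ck o x1 y (k + 1) - ix (k + 1) x0) *ᵥ
                (V (k + 1) x0 - u (k + 1) x0) := by
            rw [← mulVec_sub]
            congr 1
            abel
          unfold Nn
          rw [e1]
          have h1 := nsq_sub_le (Mx (k + 1) (ck o x1 y (k + 1) - ix (k + 1) x0) *ᵥ V (k + 1) x0)
            (Mx (k + 1) (ck o x1 y (k + 1) - ix (k + 1) x0) *ᵥ (V (k + 1) x0 - u (k + 1) x0))
          have h2 := hC k hk (ck o x1 y (k + 1) - ix (k + 1) x0) (V (k + 1) x0 - u (k + 1) x0)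
          linarith
        refine (mul_le_mul_of_nonneg_left (c1.trans c2) (hW0' k x0)).trans (le_of_eq ?_)
        ring
      refine (sum_le_sum g1).trans ?_
      rw [sum_add_distrib, ← mul_sum, ← mul_sum]
      have g2 := wt_fun (n := n) (T := T) (hW0' k) (hWs' k hk.le) (i := k + 1) hk
        (f := fun x0 => Nn Mx o x1 (k + 1) x0 y (V (k + 1) x0))
        (fun x0 => Nn_nonneg _ _ _ _ _ _ _) (fun x z hxz => by
          simp only [hV]
          unfold Nn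
          rw [hxz, Rm_ix0 hxz])
      have e2 : k - (k + 1) = 0 := by omega
      rw [e2, pow_zero, mul_one] at g2
      linarith
    refine (sum_le_sum g).trans ?_
    rw [sum_add_distrib, ← mul_sum, ← mul_sum, ← mul_sum]
    have o1 := off_sum (s := s) (x1 := x1) (T := T) h hM ho y v (Nat.zero_le n)
      (fun _ => y) fun j _ _ => by rw [sub_self, abs_zero]; norm_num
    have o2 : ∑ k ∈ range n, ∑ x0 ∈ iv n T, Nn Mx o x1 (k + 1) x0 y (V (k + 1) x0) =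
        ∑ j ∈ Icc 1 (n - 0), ∑ x0 ∈ iv n T,
          Nn Mx o x1 j x0 y (Rm Mx o x1 s n j x0 y *ᵥ v) := by
      rw [range_eq_Ico, sum_Ico_add' (fun j => ∑ x0 ∈ iv n T,
          Nn Mx o x1 j x0 y (Rm Mx o x1 s n j x0 y *ᵥ v)) 0 n 1]
      rfl
    rw [o2]
    simp only [Nat.cast_zero, add_zero, one_pow, mul_one] at o1
    have o4 := mul_le_mul_of_nonneg_left o1 he
    linarith
  -- together
  have tot : ∑ k ∈ range n, ∑ x0 ∈ iv n T, W' k x0 *
        nsq ((Rs Mx o x1 s n sh k x0 (ix k (y - sh)) -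
          Rs Mx o x1 s n sh (k + 1) x0 (ix (k + 1) (y - sh))) *ᵥ u (k + 1) x0) ≤
      3 * ∑ k ∈ range n, ∑ x0 ∈ iv n T, W' k x0 *
        nsq ((Rs Mx o x1 s n sh k x0 (ix k (y - sh)) - Rm Mx o x1 s n k x0 y) *ᵥ
          u (k + 1) x0) +
      3 * ∑ k ∈ range n, ∑ x0 ∈ iv n T, W' k x0 *
        nsq ((Rs Mx o x1 s n sh (k + 1) x0 (ix (k + 1) (y - sh)) -
          Rm Mx o x1 s n (k + 1) x0 y) *ᵥ u (k + 1) x0) +
      3 * ∑ k ∈ range n, ∑ x0 ∈ iv n T, W' k x0 *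
        nsq (Lm Mx o x1 s (k + 1) x0 y *ᵥ u (k + 1) x0) := by
    rw [mul_sum, mul_sum, mul_sum, ← sum_add_distrib, ← sum_add_distrib]
    refine sum_le_sum fun k hk => ?_
    rw [mul_sum, mul_sum, mul_sum, ← sum_add_distrib, ← sum_add_distrib]
    refine sum_le_sum fun x0 _ => ?_
    rw [mem_range] at hk
    have e1 : (Rs Mx o x1 s n sh k x0 (ix k (y - sh)) -
        Rs Mx o x1 s n sh (k + 1) x0 (ix (k + 1) (y - sh))) *ᵥ u (k + 1) x0 =
        (Rs Mx o x1 s n sh k x0 (ix k (y - sh)) - Rm Mx o x1 s n k x0 y) *ᵥ u (k + 1) x0 -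
        (Rs Mx o x1 s n sh (k + 1) x0 (ix (k + 1) (y - sh)) -
          Rm Mx o x1 s n (k + 1) x0 y) *ᵥ u (k + 1) x0 +
        Lm Mx o x1 s (k + 1) x0 y *ᵥ u (k + 1) x0 := by
      rw [Rm_succ hk]
      simp only [sub_mulVec, add_mulVec]
      abel
    rw [e1]
    refine (mul_le_mul_of_nonneg_left (nsq3' _ _ _) (hW0' k x0)).trans (le_of_eq ?_)
    ring
  refine tot.trans ?_
  have hB0 : 0 ≤ B := le_trans (sum_nonneg fun k _ => sum_nonneg fun x0 _ =>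
    mul_nonneg (hW0' _ _) (nsq_nonneg _)) hB
  have sum1 : 3 * (e * (3 * ((600 + 8 * (L : ℝ) ^ 3) * 20000 * E) +
        6 * ((600 + 8 * (L : ℝ) ^ 5) * E) + 2 * (κ * nsq v * F)) +
        6 * ((8 + 8 * (L : ℝ) ^ 3) * (2 * B + 2 * (e * E)))) +
      3 * (e * (3 * ((600 + 8 * (L : ℝ) ^ 3) * 20000 * E) +
        6 * ((600 + 8 * (L : ℝ) ^ 5) * E) + 2 * (κ * nsq v * F)) +
        6 * ((8 + 8 * (L : ℝ) ^ 3) * B)) +
      3 * (20000 * (e * E) + 2 * B) ≤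
      e * (3 * 10 ^ 8 * (1 + (L : ℝ)) ^ 5 * E + 12 * κ * (F * nsq v)) +
        450 * (1 + (L : ℝ)) ^ 3 * B := by
    have hL : (0 : ℝ) ≤ L := Nat.cast_nonneg L
    have hx : 0 ≤ e * E := mul_nonneg he hE0
    have c1 : 3 * 10 ^ 8 * (1 + (L : ℝ)) ^ 5 - (6 * (3 * ((600 + 8 * (L : ℝ) ^ 3) * 20000)) +
        6 * (6 * (600 + 8 * (L : ℝ) ^ 5)) + 36 * (8 + 8 * (L : ℝ) ^ 3) + 60000) =
        83918112 + 1500000000 * (L : ℝ) + 3000000000 * (L : ℝ) ^ 2 +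
        2997119712 * (L : ℝ) ^ 3 + 1500000000 * (L : ℝ) ^ 4 + 299999712 * (L : ℝ) ^ 5 := by
      ring
    have c2 : 450 * (1 + (L : ℝ)) ^ 3 - (54 * (8 + 8 * (L : ℝ) ^ 3) + 6) =
        12 + 1350 * (L : ℝ) + 1350 * (L : ℝ) ^ 2 + 18 * (L : ℝ) ^ 3 := by ring
    have d1 : 0 ≤ (3 * 10 ^ 8 * (1 + (L : ℝ)) ^ 5 -
        (6 * (3 * ((600 + 8 * (L : ℝ) ^ 3) * 20000)) +
        6 * (6 * (600 + 8 * (L : ℝ) ^ 5)) + 36 * (8 + 8 * (L : ℝ) ^ 3) + 60000)) * (e * E) := by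
      rw [c1]
      positivity
    have d2 : 0 ≤ (450 * (1 + (L : ℝ)) ^ 3 - (54 * (8 + 8 * (L : ℝ) ^ 3) + 6)) * B := by
      rw [c2]
      positivity
    refine le_of_sub_nonneg (le_of_le_of_eq (add_nonneg d1 d2) ?_)
    ring
  refine le_trans ?_ sum1
  linarith

open scoped Classical in
/-- **(S3) for one slot, summed, small live fibres.** -/
theorem S3s {l : ℝ} {G K : ℕ → ℤ → Matrix ι ι ℝ} (h : Tr l n G K)
    (hM : ∀ k m a, Mx k m *ᵥ a = mT l K k m a) (ho : o = 1 ∨ o = -1)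
    (hs1 : ∀ k a b, |s k a b| ≤ 1) {M3 : ℤ}
    {W : ℕ → ℤ → ℤ → ℝ} {e : ℝ} (he : 0 ≤ e) (hW0 : ∀ k x0 y, 0 ≤ W k x0 y)
    (hW : ∀ k < n, ∀ j y, ∑ x0 ∈ iv k j, W k x0 y ≤ e * 2 ^ k)
    {θ : ℕ → ℤ → ℝ} (hθ0 : ∀ k m, 0 ≤ θ k m)
    (hθ : ∀ k m a, nsq (Mx k m *ᵥ a) ≤ θ k m * nsq a) {Θ : ℝ}
    (hΘ : ∑ i ∈ range n, ep θ n T x1 M3 i ≤ Θ * 2 ^ n) {al : ℕ → ℤ → Prop} {v : ℤ → ι → ℝ} {V : ℝ}
    (hV0 : 0 ≤ V) (hV : ∀ k ≤ n, ∀ y, al k y → ∑ y' ∈ iv k (ix k y), nsq (v y') ≤ V * 2 ^ k)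
    {κ : ℝ} (hκ0 : 0 ≤ κ)
    (hκ : ∀ y ∈ iv n M3, ∀ x0 p, nsq (Rm Mx o x1 s n 0 x0 p *ᵥ v y) ≤ κ * nsq (v y))
    (hup : ∀ y ∈ iv n M3, ∀ k < n, al k y → al (k + 1) y)
    (hal : ∀ y ∈ iv n M3, ∀ k < n, ¬ al k y → ∀ x0, W k x0 y = 0) (L : ℕ) (sh : ℤ) {E B : ℝ}
    (hE : ∑ y ∈ iv n M3, ∑ x0 ∈ iv n T, nsq (Rm Mx o x1 s n 0 x0 y *ᵥ v y) ≤ E)
    (hB : ∑ y ∈ iv n M3, ∑ k ∈ range n, ∑ x0 ∈ iv n T, W k x0 y *
      nsq ((Rs Mx o x1 s n sh (k + 1) x0 (ix (k + 1) (y - sh)) -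
        Rm Mx o x1 s n (k + 1) x0 y) *ᵥ v y) ≤ B) :
    ∑ y ∈ iv n M3, ∑ k ∈ range n, ∑ x0 ∈ iv n T, W k x0 y *
        nsq ((Rs Mx o x1 s n sh k x0 (ix k (y - sh)) -
          Rs Mx o x1 s n sh (k + 1) x0 (ix (k + 1) (y - sh))) *ᵥ
            (Rs Mx o x1 s n sh (k + 1) x0 (ix (k + 1) (y - sh)) *ᵥ v y)) ≤
      e * (3 * 10 ^ 8 * (1 + (L : ℝ)) ^ 5 * E +
        768 * κ * ((((L : ℝ) + 2) ^ 2 + 2) / 2 ^ L * (V * Θ * 4 ^ n))) +
      450 * (1 + (L : ℝ)) ^ 3 * B := by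
  have h1 : ∀ y ∈ iv n M3, _ := fun y hy => S3e (T := T) (x1 := x1) h hM ho hs1 he
    (fun k x => hW0 k x y) (fun k hk j => hW k hk j y) hθ0 hθ hκ0 (hκ y hy) al L sh
    (hup y hy) (hal y hy) le_rfl
  refine (sum_le_sum h1).trans ?_
  have h2 : ∀ y ∈ iv n M3, H444.FD.farA n L (ep θ n T x1 (ix n y)) al y * nsq (v y) =
      H444.FD.farA n L (ep θ n T x1 M3) al y * nsq (v y) := by
    intro y hy
    rw [mem_iv.1 hy]
  rw [sum_add_distrib, ← mul_sum, ← mul_sum, sum_add_distrib, ← mul_sum, ← mul_sum,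
    sum_congr rfl h2]
  have h3 := H876.far_all (M3 := M3) (x1 := x1) (T := T) hθ0 hΘ hV0 hV L
  have g1 := mul_le_mul_of_nonneg_left hE (by positivity : 0 ≤ 3 * 10 ^ 8 * (1 + (L : ℝ)) ^ 5)
  have g2 := mul_le_mul_of_nonneg_left h3 (by positivity : 0 ≤ 12 * κ)
  have g3 := mul_le_mul_of_nonneg_left hB (by positivity : 0 ≤ 450 * (1 + (L : ℝ)) ^ 3)
  refine (add_le_add (mul_le_mul_of_nonneg_left (add_le_add g1 g2) he) g3).trans (le_of_eq ?_)
  ring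

end

end Vale.Agent.P141.H841
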