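import Vale.Agent.P141.H64.SignC
import Vale.Agent.P141.H483.QSh
import Vale.Agent.P141.H677.SlotX
import Vale.Agent.P141.H58.EWn
import Vale.Agent.P141.H841.S3e

/-!
# P141, line (A): the numbers of one slot at one label point of the root

Fixed `x1`; `u` cut to the root in `x2` (`H483.uc`), any signs which live on the root.

* `Th1` : the trace number `(2 l)⁻¹ tr G`; `cJ`, `uJ` : the form of the root (`Qf_eq`, `cu_sum`);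
* `hypN_slot` : `H64.HypN` for a slot `SlotN`; `av_cut` : the averaged slot;
* `S1b`, `endB` : the blind forms of the deviation number and of the end energy;
* `NB_sum`, `Q_sumC`, `Th_sumC` : the sums over the label points of the root;
* `alF`, `fibF`, `upF` : live scales and small fibres for the data `FDs`.
-/

namespace Vale.Agent.P141.H841

open Finset Matrix
open Vale.Agent.P141.PL (Pt iv ix mem_iv ix_ix cx)
open Vale.Agent.P141.H43 (nsq nsq_nonneg)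
open Vale.Agent.P141.H677 (KT GT MT)
open Vale.Agent.P141.H483 (uc Qw Qw_hX)
open Vale.Agent.P141.H876 (En wn)
open Vale.Agent.P141.H64 (Qf)

noncomputable section

open scoped Classical

set_option linter.unusedSectionVars false

variable {ι : Type} [Fintype ι] [DecidableEq ι]

/-- the trace number of the label point -/
def Th1 (l : ℝ) (K : ℕ) (M2 : ℤ) (u : ℤ → ℤ → ι → ℝ) (x1 : ℤ) : ℝ :=
  (2 * l)⁻¹ * (GT u x1 K M2).trace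

theorem Th1_nonneg {l : ℝ} (hl : 0 < l) (K : ℕ) (M2 : ℤ) (u : ℤ → ℤ → ι → ℝ) (x1 : ℤ) :
    0 ≤ Th1 l K M2 u x1 :=
  mul_nonneg (by positivity) (H677.GT_psd u x1 K M2).trace_nonneg

/-- the constants of the form of the root -/
def cJ (l : ℝ) (K : ℕ) (M2 : ℤ) : {y : ℤ // y ∈ iv K M2} → ℝ := fun _ => (2 * l)⁻¹ * ((2 : ℝ) ^ K)⁻¹

/-- the vectors of the form of the root -/
def uJ (K : ℕ) (M2 : ℤ) (u : ℤ → ℤ → ι → ℝ) (x1 : ℤ) : {y : ℤ // y ∈ iv K M2} → ι → ℝ :=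
  fun y => u x1 y.1

theorem cJ_nonneg {l : ℝ} (hl : 0 < l) (K : ℕ) (M2 : ℤ) (j : {y : ℤ // y ∈ iv K M2}) :
    0 ≤ cJ l K M2 j := by
  unfold cJ
  positivity

theorem Qf_eq (l : ℝ) (K : ℕ) (M2 : ℤ) (u : ℤ → ℤ → ι → ℝ) (x1 : ℤ) (a : ι → ℝ) :
    Qf (cJ l K M2) (uJ K M2 u x1) a = (2 * l)⁻¹ * (a ⬝ᵥ GT u x1 K M2 *ᵥ a) := by
  rw [H677.GT_form]
  unfold H64.Qf cJ uJ
  rw [← mul_sum, mul_assoc]
  congr 2
  exact Finset.sum_coe_sort (iv K M2) fun y => (u x1 y ⬝ᵥ a) ^ 2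

theorem cu_sum (l : ℝ) (K : ℕ) (M2 : ℤ) (u : ℤ → ℤ → ι → ℝ) (x1 : ℤ) :
    ∑ j, cJ l K M2 j * nsq (uJ K M2 u x1 j) = Th1 l K M2 u x1 := by
  unfold Th1
  rw [H677.GT_trace]
  unfold cJ uJ
  rw [← mul_sum, mul_assoc]
  congr 2
  exact Finset.sum_coe_sort (iv K M2) fun y => u x1 y ⬝ᵥ u x1 y

/-- only the root counts in the window -/
theorem Qw_le {l : ℝ} (hl : 0 < l) (K : ℕ) (u : ℤ → ℤ → ι → ℝ) (M2 T x1 M3 : ℤ) (a : ι → ℝ) :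
    Qw l K (uc K M2 u) T x1 M3 a ≤ Qf (cJ l K M2) (uJ K M2 u x1) a := by
  rw [Qf_eq]
  unfold H483.Qw
  refine mul_le_mul_of_nonneg_left ?_ (by positivity)
  have h0 : 0 ≤ a ⬝ᵥ GT u x1 K M2 *ᵥ a := by
    have h := (H677.GT_psd u x1 K M2).dotProduct_mulVec_nonneg a
    simpa using h
  have h1 : ∀ R ∈ wn K T x1 M3, a ⬝ᵥ GT (uc K M2 u) x1 K R *ᵥ a =
      if R = M2 then a ⬝ᵥ GT u x1 K M2 *ᵥ a else 0 := by
    intro R _
    have e0 : ∀ x : ℤ, ix (K - K) x = x := fun x => by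
      rw [Nat.sub_self]
      exact H540.ix_zero x
    split_ifs with h
    · rw [h, H483.GT_cut le_rfl (e0 M2)]
    · rw [H483.GT_out le_rfl (by rw [e0]; exact h), zero_mulVec, dotProduct_zero]
  rw [sum_congr rfl h1, sum_ite_eq']
  split_ifs
  · exact le_rfl
  · exact h0

theorem hX1 {l : ℝ} (hl : 0 < l) (K : ℕ) (u : ℤ → ℤ → ι → ℝ) (M2 T x1 M3 : ℤ) (a : ι → ℝ) :
    ∑ i ∈ range K, En (MT l (KT l (uc K M2 u) x1)) K T x1 M3 (i + 1) a ≤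
      2 ^ K * Qf (cJ l K M2) (uJ K M2 u x1) a :=
  (Qw_hX hl K (uc K M2 u) T x1 M3 a).trans
    (mul_le_mul_of_nonneg_left (Qw_le hl K u M2 T x1 M3 a) (by positivity))

/-- the norms of the matrices -/
def thH (Mx : ℕ → ℤ → Matrix ι ι ℝ) (k : ℕ) (m : ℤ) : ℝ :=
  ∑ b : ι, nsq (Mx k m *ᵥ Pi.single b 1)

theorem thH_nonneg (Mx : ℕ → ℤ → Matrix ι ι ℝ) (k : ℕ) (m : ℤ) : 0 ≤ thH Mx k m :=
  sum_nonneg fun _ _ => nsq_nonneg _

theorem thH_le (Mx : ℕ → ℤ → Matrix ι ι ℝ) (k : ℕ) (m : ℤ) (a : ι → ℝ) :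
    nsq (Mx k m *ᵥ a) ≤ thH Mx k m * nsq a := H58.nsq_mulVec_le _ _

theorem hTh1 {l : ℝ} (hl : 0 < l) (K : ℕ) (u : ℤ → ℤ → ι → ℝ) (M2 T x1 M3 : ℤ) :
    ∑ i ∈ range K, ep (thH (MT l (KT l (uc K M2 u) x1))) K T x1 M3 i ≤
      Th1 l K M2 u x1 * 2 ^ K := by
  have e1 : ∀ i, ep (thH (MT l (KT l (uc K M2 u) x1))) K T x1 M3 i =
      ∑ b : ι, En (MT l (KT l (uc K M2 u) x1)) K T x1 M3 (i + 1) (Pi.single b 1) := by
    intro i
    unfold ep thH H876.En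
    rw [← mul_sum, sum_comm]
    congr 1
    refine sum_congr rfl fun R _ => ?_
    rw [sum_comm]
  simp only [e1]
  rw [sum_comm]
  refine (sum_le_sum fun b _ => hX1 hl K u M2 T x1 M3 (Pi.single b 1)).trans ?_
  rw [← mul_sum]
  have e2 : ∑ b : ι, Qf (cJ l K M2) (uJ K M2 u x1) (Pi.single b 1) = Th1 l K M2 u x1 := by
    rw [← cu_sum]
    unfold H64.Qf
    rw [sum_comm]
    refine sum_congr rfl fun j _ => ?_
    rw [← mul_sum]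
    congr 1
    unfold H43.nsq dotProduct
    refine sum_congr rfl fun b _ => ?_
    have h := dotProduct_single (uJ K M2 u x1 j) (1 : ℝ) b
    unfold dotProduct at h
    rw [h, mul_one, sq]
  rw [e2, mul_comm]

/-! ### The slot at one label point -/

/-- the label matrices, `u` cut to the root -/
def Mc (l : ℝ) (K : ℕ) (M2 : ℤ) (u : ℤ → ℤ → ι → ℝ) (x1 : ℤ) : ℕ → ℤ → Matrix ι ι ℝ :=
  MT l (KT l (uc K M2 u) x1)

theorem tr_Mc {l : ℝ} (hl : 0 < l) (K : ℕ) (M2 : ℤ) (u : ℤ → ℤ → ι → ℝ) (x1 : ℤ) :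
    H420.Tr l K (GT (uc K M2 u) x1) (KT l (uc K M2 u) x1) :=
  H677.tr_T hl K (uc K M2 u) x1

theorem Mc_mulVec (l : ℝ) (K : ℕ) (M2 : ℤ) (u : ℤ → ℤ → ι → ℝ) (x1 : ℤ) (k : ℕ) (m : ℤ)
    (a : ι → ℝ) : Mc l K M2 u x1 k m *ᵥ a = H483.mT l (KT l (uc K M2 u) x1) k m a :=
  H677.MT_mulVec l (KT l (uc K M2 u) x1) a k m

/-- signs which live on the nodes live on the root -/
theorem sgn_root {Al : ℕ → Pt → Prop} {o : ℤ} {K : ℕ} {M : Pt} {x1 : ℤ} {s : ℕ → ℤ → ℤ → ℝ}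
    (h : ∀ k a b, ((b, o - 2 - a - ix k x1 - b, ix k x1) : Pt) ∉ H677.sN Al o K M (2 ^ k * a) k →
      s k a b = 0) (k : ℕ) (a b : ℤ) (_ : k + 1 ≤ K)
    (hne : ix (K - (k + 1)) (o - 2 - a - ix (k + 1) x1 - b) ≠ M.2.1) : s (k + 1) a b = 0 := by
  refine h (k + 1) a b fun hm => hne ?_
  have h1 := H677.sN_sub _ _ _ _ _ _ hm
  unfold PL.H804.bx3 at h1
  exact mem_iv.1 (mem_product.1 (mem_product.1 (mem_filter.1 h1).1).2).1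

section slot

variable {Al : ℕ → Pt → Prop} {o : ℤ} {K : ℕ} {M : Pt} {l : ℝ} {u : ℤ → ℤ → ι → ℝ}
  {R : H677.Sk.Slt ι} {κ E : ℝ} {s : ℤ → ℕ → ℤ → ℤ → ℝ}

/-- **The data of the slot at one label point of the root.** -/
theorem hypN_slot (hl : 0 < l) (ho : o = 1 ∨ o = -1)
    (hs1 : ∀ x1 k a b, |s x1 k a b| ≤ 1)
    (hs0 : ∀ x1 k a b,
      ((b, o - 2 - a - ix k x1 - b, ix k x1) : Pt) ∉ H677.sN Al o K M (2 ^ k * a) k →
      s x1 k a b = 0)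
    (hR : ∀ x0 j z x1, R x0 j z x1 = Rm (MT l (KT l u x1)) o x1 (s x1) K j x0 z)
    (hE : 0 ≤ E)
    (hen : ∀ (T : Finset ℤ) (z : ℤ), ∀ x1 ∈ iv K M.1, ∀ w,
      ∑ t ∈ T, ∑ x0 ∈ iv K t, nsq (R x0 0 z x1 *ᵥ w) ≤ 2 ^ K * (E * nsq w))
    {x1 : ℤ} (hx1 : x1 ∈ iv K M.1) (T : ℤ) :
    H64.HypN (Mc l K M.2.1 u x1) o x1 T M.2.2 K (s x1) (cJ l K M.2.1) (uJ K M.2.1 u x1)
      (thH (Mc l K M.2.1 u x1)) (Th1 l K M.2.1 u x1) (Th1 l K M.2.1 u x1) E where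
  sgn := hs1 x1
  ori := ho
  c0 := cJ_nonneg hl K M.2.1
  u1 := (cu_sum l K M.2.1 u x1).le
  hX := hX1 hl K u M.2.1 T x1 M.2.2
  t0 := thH_nonneg _
  th := thH_le _
  T0 := Th1_nonneg hl K M.2.1 u x1
  Th := hTh1 hl K u M.2.1 T x1 M.2.2
  E0 := hE
  en := by
    intro f p _ _
    have h := hen {T} p x1 hx1 f
    rw [sum_singleton] at h
    refine le_trans (le_of_eq (sum_congr rfl fun x0 _ => ?_)) h
    rw [hR, H483.Rm_cut (M2 := M.2.1) (sgn_root (hs0 x1)) 0 x0 p]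
    rfl

/-- the averaged slot in the letters of the cut label functions -/
theorem av_cut
    (hs0 : ∀ x1 k a b,
      ((b, o - 2 - a - ix k x1 - b, ix k x1) : Pt) ∉ H677.sN Al o K M (2 ^ k * a) k →
      s x1 k a b = 0)
    (hR : ∀ x0 j z x1, R x0 j z x1 = Rm (MT l (KT l u x1)) o x1 (s x1) K j x0 z)
    (h x0 : ℤ) (k : ℕ) (z x : ℤ) :
    H677.Sk.av R h x0 k z x = Rs (Mc l K M.2.1 u x) o x (s x) K h k x0 (ix k (z - h)) := by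
  rw [H677.Sk.av_Rs hR, H483.Rs_cut (M2 := M.2.1) (sgn_root (hs0 x))]
  rfl

/-- the cap in the letters of the cut label functions -/
theorem cap_cut
    (hs0 : ∀ x1 k a b,
      ((b, o - 2 - a - ix k x1 - b, ix k x1) : Pt) ∉ H677.sN Al o K M (2 ^ k * a) k →
      s x1 k a b = 0)
    (hR : ∀ x0 j z x1, R x0 j z x1 = Rm (MT l (KT l u x1)) o x1 (s x1) K j x0 z)
    (hcap : ∀ x0, ∀ j ≤ K, ∀ z x1 w, nsq (R x0 j z x1 *ᵥ w) ≤ κ ^ 2 * nsq w)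
    (x1 x0 p : ℤ) (w : ι → ℝ) :
    nsq (Rm (Mc l K M.2.1 u x1) o x1 (s x1) K 0 x0 p *ᵥ w) ≤ κ ^ 2 * nsq w := by
  have h := hcap x0 0 (Nat.zero_le K) p x1 w
  rw [hR, H483.Rm_cut (M2 := M.2.1) (sgn_root (hs0 x1)) 0 x0 p] at h
  exact h

end slot

/-! ### The blind forms -/

section blind

variable {o : ℤ} {K : ℕ} {M2 M3 T x1 : ℤ} {l : ℝ} {u : ℤ → ℤ → ι → ℝ} {s : ℕ → ℤ → ℤ → ℝ}

/-- **(S1), any signs, no energy of the slot.** -/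
theorem S1b (hl : 0 < l) (ho : o = 1 ∨ o = -1) (hs1 : ∀ k a b, |s k a b| ≤ 1)
    {W : ℕ → ℤ → ℤ → ℝ} {e : ℝ} (he : 0 ≤ e) (hW0 : ∀ k x0 y, 0 ≤ W k x0 y)
    (hW : ∀ k ≤ K, ∀ j y, ∑ x0 ∈ iv k j, W k x0 y ≤ e * 2 ^ k)
    {al : ℕ → ℤ → Prop} {v : ℤ → ι → ℝ} {V : ℝ}
    (hV0 : 0 ≤ V) (hV : ∀ k ≤ K, ∀ y, al k y → ∑ y' ∈ iv k (ix k y), nsq (v y') ≤ V * 2 ^ k)
    (hal : ∀ y ∈ iv K M3, ∀ k ≤ K, ¬ al k y → ∀ x0, W k x0 y = 0) (L : ℕ) (sh : ℤ) :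
    ∑ y ∈ iv K M3, ∑ k ∈ range (K + 1), ∑ x0 ∈ iv K T, W k x0 y *
        nsq ((Rs (Mc l K M2 u x1) o x1 s K sh k x0 (ix k (y - sh)) -
          Rm (Mc l K M2 u x1) o x1 s K k x0 y) *ᵥ v y) ≤
      e * ((48 + 16 * (L : ℝ) ^ 3) *
          (2 ^ K * ∑ y ∈ iv K M3, Qf (cJ l K M2) (uJ K M2 u x1) (v y)) +
        128 * (((L : ℝ) + 2) ^ 2 + 2) / 2 ^ L * (V * Th1 l K M2 u x1 * 4 ^ K)) :=
  H876.S1a (s := s) hs1 ho (hX1 hl K u M2 T x1 M3) he hW0 hW (thH_nonneg _) (thH_le _)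
    (hTh1 hl K u M2 T x1 M3) hV0 hV hal L sh

/-- **The end energy, any signs.** -/
theorem endB (hl : 0 < l) (ho : o = 1 ∨ o = -1) (hs1 : ∀ k a b, |s k a b| ≤ 1)
    (v : ℤ → ι → ℝ) :
    ∑ y ∈ iv K M3, ∑ x0 ∈ iv K T, nsq (Rm (Mc l K M2 u x1) o x1 s K 0 x0 y *ᵥ v y) ≤
      2 ^ K * ∑ y ∈ iv K M3, Qf (cJ l K M2) (uJ K M2 u x1) (v y) := by
  rw [mul_sum]
  refine sum_le_sum fun y hy => ?_
  have h1 := end_sum (n := K) (T := T) (Mx := Mc l K M2 u x1) (x1 := x1) hs1 ho y (v y)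
  rw [mem_iv.1 hy] at h1
  exact h1.trans (hX1 hl K u M2 T x1 M3 (v y))

end blind

/-! ### The sums over the label points of the root, class data -/

section cls

variable {K : ℕ} {x : Pt} {s r P : ℝ} {U : PL.H315.Tri} {g : ℤ → ℤ → ℝ} {u v : ℤ → ℤ → ι → ℝ}
  {l : ℝ}

/-- the trace numbers, summed -/
theorem Th_sumC (C : H305.Cls K x s r P U g u v) (hl : 0 < l) :
    ∑ x1 ∈ iv K (cx K x).1, Th1 l K (cx K x).2.1 u x1 ≤ (2 * l)⁻¹ * (s * 2 ^ K) := by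
  unfold Th1
  rw [← mul_sum]
  refine mul_le_mul_of_nonneg_left ?_ (by positivity)
  have h1 : ∑ x1 ∈ iv K (cx K x).1, (GT u x1 K (cx K x).2.1).trace =
      ((2 : ℝ) ^ K)⁻¹ * ∑ z ∈ iv K (cx K x).1, ∑ y ∈ iv K (cx K x).2.1, u z y ⬝ᵥ u z y := by
    rw [mul_sum]
    exact sum_congr rfl fun z _ => H677.GT_trace u z K _
  rw [h1]
  have h2 := mul_le_mul_of_nonneg_left (H58.mass_u C) (by positivity : (0 : ℝ) ≤ ((2 : ℝ) ^ K)⁻¹)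
  refine h2.trans (le_of_eq ?_)
  have h4 : (4 : ℝ) ^ K = 2 ^ K * 2 ^ K := by rw [← mul_pow]; norm_num
  rw [h4]
  have h5 : (2 : ℝ) ^ K ≠ 0 := by positivity
  field_simp

/-- the masses of the end, summed -/
theorem Q_sumC (C : H305.Cls K x s r P U g u v) (hl : 0 < l) (hP : 0 ≤ P) {v' : ℤ → ℤ → ι → ℝ}
    (hv : ∀ x' z, v' x' z ⬝ᵥ v' x' z ≤ v x' z ⬝ᵥ v x' z) :
    ∑ x1 ∈ iv K (cx K x).1, ∑ z ∈ iv K (cx K x).2.2,
        Qf (cJ l K (cx K x).2.1) (uJ K (cx K x).2.1 u x1) (v' x1 z) ≤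
      (2 * l)⁻¹ * P * (s * 4 ^ K) := by
  have h2 : ∀ x1 ∈ iv K (cx K x).1, ∀ z ∈ iv K (cx K x).2.2,
      Qf (cJ l K (cx K x).2.1) (uJ K (cx K x).2.1 u x1) (v' x1 z) ≤
      (2 * l)⁻¹ * P * (v x1 z ⬝ᵥ v x1 z) := by
    intro x1 hx1 z _
    rw [Qf_eq, H677.GT_form, mul_assoc]
    refine mul_le_mul_of_nonneg_left ((H58.pot_u C x1 hx1 _).trans ?_) (by positivity)
    exact mul_le_mul_of_nonneg_left (hv x1 z) hP
  refine (sum_le_sum fun x1 hx1 => sum_le_sum fun z hz => h2 x1 hx1 z hz).trans ?_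
  simp only [← mul_sum]
  refine mul_le_mul_of_nonneg_left ?_ (mul_nonneg (by positivity) hP)
  have h3 := H58.mass_v C
  rwa [sum_comm] at h3

theorem mass_C (C : H305.Cls K x s r P U g u v) {v' : ℤ → ℤ → ι → ℝ}
    (hv : ∀ x' z, v' x' z ⬝ᵥ v' x' z ≤ v x' z ⬝ᵥ v x' z) :
    ∑ x1 ∈ iv K (cx K x).1, ∑ z ∈ iv K (cx K x).2.2, nsq (v' x1 z) ≤ s * 4 ^ K := by
  have h3 := H58.mass_v C
  rw [sum_comm] at h3
  exact (sum_le_sum fun x1 _ => sum_le_sum fun z _ => hv x1 z).trans h3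

/-- **The signed numbers, summed.** -/
theorem NB_sum (C : H305.Cls K x s r P U g u v) (hl : 0 < l) {v' : ℤ → ℤ → ι → ℝ}
    (hv : ∀ x' z, v' x' z ⬝ᵥ v' x' z ≤ v x' z ⬝ᵥ v x' z) {Θ V E δ : ℝ} (hV : 0 ≤ V) (hE : 0 ≤ E)
    (hδ : 0 < δ)
    (hΘ : ∀ x1 ∈ iv K (cx K x).1, Th1 l K (cx K x).2.1 u x1 ≤ Θ) (L : ℕ) :
    ∑ x1 ∈ iv K (cx K x).1, H64.NB K L (∑ z ∈ iv K (cx K x).2.2, nsq (v' x1 z)) V
        (Th1 l K (cx K x).2.1 u x1) (Th1 l K (cx K x).2.1 u x1) E δ ≤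
      s * 8 ^ K * (δ + V / (2 * l) * (E / δ + (1 + Θ / δ) / 2 ^ L)) := by
  set M2 := (cx K x).2.1
  have h1 : ∀ x1 ∈ iv K (cx K x).1, H64.NB K L (∑ z ∈ iv K (cx K x).2.2, nsq (v' x1 z)) V
        (Th1 l K M2 u x1) (Th1 l K M2 u x1) E δ ≤
      δ * 2 ^ K * (∑ z ∈ iv K (cx K x).2.2, nsq (v' x1 z)) +
        V * 4 ^ K * ((E / δ + (1 + Θ / δ) / 2 ^ L) * Th1 l K M2 u x1) := by
    intro x1 hx1
    unfold H64.NB
    refine add_le_add le_rfl (mul_le_mul_of_nonneg_left ?_ (by positivity))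
    have t0 := Th1_nonneg hl K M2 u x1
    have t1 := hΘ x1 hx1
    have t2 : Th1 l K M2 u x1 ^ 2 ≤ Θ * Th1 l K M2 u x1 := by
      rw [sq]
      exact mul_le_mul_of_nonneg_right t1 t0
    have t3 : (Th1 l K M2 u x1 + Th1 l K M2 u x1 ^ 2 / δ) / 2 ^ L ≤
        (Th1 l K M2 u x1 + Θ * Th1 l K M2 u x1 / δ) / 2 ^ L := by
      refine div_le_div_of_nonneg_right (add_le_add le_rfl ?_) (by positivity)
      exact div_le_div_of_nonneg_right t2 hδ.le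
    refine (add_le_add le_rfl t3).trans (le_of_eq ?_)
    field_simp
  refine (sum_le_sum h1).trans ?_
  rw [sum_add_distrib, ← mul_sum, ← mul_sum, ← mul_sum]
  have h2 := mass_C C hv
  have h3 := Th_sumC C hl
  have hx0 : 0 ≤ E / δ + (1 + Θ / δ) / 2 ^ L := by
    by_cases hne : (iv K (cx K x).1).Nonempty
    · obtain ⟨y, hy⟩ := hne
      have hΘ0 : 0 ≤ Θ := (Th1_nonneg hl K M2 u y).trans (hΘ y hy)
      positivity
    · exfalso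
      apply hne
      refine ⟨2 ^ K * (cx K x).1, ?_⟩
      unfold PL.iv
      rw [mem_Ico]
      have : (0 : ℤ) < 2 ^ K := by positivity
      constructor <;> linarith
  have h4 := mul_le_mul_of_nonneg_left h2 (by positivity : 0 ≤ δ * 2 ^ K)
  have h5 := mul_le_mul_of_nonneg_left (mul_le_mul_of_nonneg_left h3 hx0)
    (by positivity : 0 ≤ V * 4 ^ K)
  refine (add_le_add h4 h5).trans (le_of_eq ?_)
  have e8 : (8 : ℝ) ^ K = 2 ^ K * 4 ^ K := by rw [← mul_pow]; norm_num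
  rw [e8]
  field_simp

end cls

/-! ### Live scales and small fibres for the data of the flow part -/

section fd

variable {q : H401.Num} {n : ℕ} {ez : ℝ} {F1 F2 F3 : ℕ → Pt → ℝ} {K : ℕ} {x : Pt} {s r : ℝ}
  {U : PL.H315.Tri} {g : ℤ → ℤ → ℝ} {u v : ℤ → ℤ → ι → ℝ} {A : H677.Sk.FamA}
  {b C : H677.Sk.FamV ι} {Q1 Q2 Q3 : ℕ → Pt → Prop} {v' : ℤ → ℤ → ι → ℝ}

/-- the live scales of the point `(x1, y)` of the root -/
def alF (q : H401.Num) (K : ℕ) (x : Pt) (U : PL.H315.Tri) (x1 : ℤ) (k : ℕ) (y : ℤ) : Prop :=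
  ix K y = ix K x.2.2 ∧ ¬ H48.sst q.Lm U.2.1 K k x1 y

theorem fibF (D : H677.Sk.FDs q n ez F1 F2 F3 K x s r U g u v A b C Q1 Q2 Q3 v') {x1 : ℤ}
    (hx1 : x1 ∈ iv K (ix K x.1)) :
    ∀ k ≤ K, ∀ y, alF q K x U x1 k y →
      ∑ y' ∈ iv k (ix k y), nsq (v' x1 y') ≤ H677.Sk.lam1 q s r * 2 ^ k :=
  fun k hk y hy => D.fib k hk x1 hx1 y (mem_iv.2 hy.1) hy.2

theorem v'_le (D : H677.Sk.FDs q n ez F1 F2 F3 K x s r U g u v A b C Q1 Q2 Q3 v') :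
    ∀ x' z, v' x' z ⬝ᵥ v' x' z ≤ v x' z ⬝ᵥ v x' z := by
  intro x' z
  rcases D.v_or x' z with h1 | h1
  · rw [h1]
  · rw [h1, dotProduct_zero]
    exact H922.dot_self_nonneg _

/-- live scales are closed upwards -/
theorem upF (q : H401.Num) (K : ℕ) (x : Pt) (U : PL.H315.Tri) (x1 : ℤ) :
    ∀ y ∈ iv K (ix K x.2.2), ∀ k < K, alF q K x U x1 k y → alF q K x U x1 (k + 1) y :=
  fun _ _ k hk h => ⟨h.1, fun h2 => h.2 ((H444.FD.stP_sst _ _ K).mono k hk _ _ h2)⟩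

/-- the trace numbers are bounded -/
theorem Th_le {κ0 P : ℝ} (C' : H305.ClsM K x s r P κ0 U g u v) {l t : ℝ} (ht : 0 < t)
    (hl : 0 < l) (hlr : r * √s ≤ l * (r / t) ^ 2) :
    ∀ x1 ∈ iv K (cx K x).1, Th1 l K (cx K x).2.1 u x1 ≤ (r / t) ^ 2 / 2 := by
  intro x1 hx1
  have hx : x1 ∈ PL.H315.iv K x.1 := by
    rw [H769.iv_pt]
    exact hx1
  have h1 : (GT u x1 K (cx K x).2.1).trace ≤ r * √s := by
    rw [H677.GT_trace, H677.Sk.mean_cell]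
    have h2 := C'.u_row x1 hx
    rw [H769.iv_pt] at h2
    exact h2
  unfold Th1
  have h3 := mul_le_mul_of_nonneg_left (h1.trans hlr) (by positivity : (0 : ℝ) ≤ (2 * l)⁻¹)
  refine h3.trans (le_of_eq ?_)
  field_simp

end fd

end

end Vale.Agent.P141.H841
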