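import Vale.Agent.P141.H922.MovR
import Vale.Agent.P141.H43.MidR

/-!
# P141, line (A): the moving slot on a shifted grid, one point

`Lm` : one layer of the slot, `Rm` : the slot on the standard grid, `Rs` : its averages over the
cells of the grid shifted by `sh`.

* `lay_sum` : the sum of a Haar layer over an interval lives in the two cut end cells;
* `dev_le` : `|(Rs - Rm) w|²` is at most the sum over the layers of `om` times the squares at the
  two ends of the shifted cell.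
-/

namespace Vale.Agent.P141.H841

open Finset Matrix
open Vale.Agent.P141.PL (iv ix hs mem_iv ix_ix)
open Vale.Agent.P141.H922 (ck)
open Vale.Agent.P141.H43 (avv nsq nsq_nonneg)

noncomputable section

variable {ι : Type*} [Fintype ι]

/-! ### Squares -/

theorem nsq_add_le (a b : ι → ℝ) : nsq (a + b) ≤ 2 * nsq a + 2 * nsq b := by
  have h := nsq_nonneg (a - b)
  rw [H43.nsq_sub] at h
  rw [H43.nsq_add]
  linarith

theorem nsq_sub_le (a b : ι → ℝ) : nsq (a - b) ≤ 2 * nsq a + 2 * nsq b := by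
  have h := nsq_nonneg (a + b)
  rw [H43.nsq_add] at h
  rw [H43.nsq_sub]
  linarith

theorem nsq_smul (c : ℝ) (a : ι → ℝ) : nsq (c • a) = c ^ 2 * nsq a := by
  unfold nsq
  rw [smul_dotProduct, dotProduct_smul, smul_eq_mul, smul_eq_mul]
  ring

theorem nsq_zero : nsq (0 : ι → ℝ) = 0 := by
  unfold nsq
  rw [zero_dotProduct]

theorem nsq_eq (a : ι → ℝ) : nsq a = ∑ c, a c ^ 2 := by
  unfold nsq dotProduct
  exact sum_congr rfl fun c _ => (sq (a c)).symm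

/-- Cauchy-Schwarz with weights `1 / d` -/
theorem nsq_sum_le {J : Type*} (S : Finset J) (d : J → ℝ) (hd : ∀ i ∈ S, 0 < d i)
    (u : J → ι → ℝ) :
    nsq (∑ i ∈ S, u i) ≤ (∑ i ∈ S, (d i)⁻¹ ^ 2) * ∑ i ∈ S, d i ^ 2 * nsq (u i) := by
  rw [nsq_eq]
  have h1 : ∀ c, (∑ i ∈ S, u i) c ^ 2 ≤ (∑ i ∈ S, (d i)⁻¹ ^ 2) * ∑ i ∈ S, d i ^ 2 * u i c ^ 2 := by
    intro c
    have h := sum_mul_sq_le_sq_mul_sq S (fun i => (d i)⁻¹) (fun i => d i * u i c)
    have e1 : ∑ i ∈ S, (d i)⁻¹ * (d i * u i c) = (∑ i ∈ S, u i) c := by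
      rw [Finset.sum_apply]
      refine sum_congr rfl fun i hi => ?_
      rw [← mul_assoc, inv_mul_cancel₀ (hd i hi).ne', one_mul]
    rw [e1] at h
    refine h.trans (le_of_eq ?_)
    simp only [mul_pow]
  refine (sum_le_sum fun c _ => h1 c).trans (le_of_eq ?_)
  rw [← mul_sum, sum_comm]
  congr 1
  refine sum_congr rfl fun i _ => ?_
  rw [nsq_eq, mul_sum]

theorem sum_inv_sq (N : ℕ) : ∑ i ∈ range N, ((i : ℝ) + 1)⁻¹ ^ 2 ≤ 2 := by
  have h : ∀ N : ℕ, ∑ i ∈ range (N + 1), ((i : ℝ) + 1)⁻¹ ^ 2 ≤ 2 - ((N : ℝ) + 1)⁻¹ := by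
    intro N
    induction N with
    | zero => norm_num
    | succ N ih =>
      rw [sum_range_succ]
      have h1 : (0 : ℝ) < (N : ℝ) + 1 := by positivity
      have h2 : (0 : ℝ) < (N : ℝ) + 1 + 1 := by positivity
      have h3 : (((N + 1 : ℕ) : ℝ) + 1)⁻¹ ^ 2 ≤ ((N : ℝ) + 1)⁻¹ - (((N + 1 : ℕ) : ℝ) + 1)⁻¹ := by
        push_cast
        rw [inv_pow, inv_eq_one_div, inv_eq_one_div, inv_eq_one_div, div_sub_div _ _ h1.ne' h2.ne',
          div_le_div_iff₀ (by positivity) (by positivity)]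
        nlinarith
      linarith
  rcases N with _ | N
  · simp
  · have := h N
    have h1 : (0 : ℝ) ≤ ((N : ℝ) + 1)⁻¹ := by positivity
    linarith

/-! ### One Haar layer -/

/-- the tent function of the cells of scale `i` -/
def tent (i : ℕ) (b : ℤ) : ℝ :=
  if ix (i - 1) b % 2 = 0 then ((b - 2 ^ i * ix i b : ℤ) : ℝ)
    else ((2 ^ i * (ix i b + 1) - b : ℤ) : ℝ)

theorem ix_bd (k : ℕ) (x : ℤ) : 2 ^ k * ix k x ≤ x ∧ x < 2 ^ k * ix k x + 2 ^ k := by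
  have h := (mem_iv (k := k) (m := ix k x) (x := x)).2 rfl
  unfold PL.iv at h
  rw [mem_Ico] at h
  exact h

theorem ix_of {k : ℕ} {x m : ℤ} (h1 : 2 ^ k * m ≤ x) (h2 : x < 2 ^ k * m + 2 ^ k) : ix k x = m := by
  rw [← mem_iv]
  unfold PL.iv
  rw [mem_Ico]
  exact ⟨h1, h2⟩

theorem ix_half (j : ℕ) (x : ℤ) : ix (j + 1) x = ix j x / 2 := by
  rw [← ix_ix j 1 x]
  unfold ix
  norm_num

theorem tent_bd (j : ℕ) (b : ℤ) : 0 ≤ tent (j + 1) b ∧ tent (j + 1) b ≤ 2 ^ j := by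
  obtain ⟨h1, h2⟩ := ix_bd j b
  have e := ix_half j b
  have hp : (0 : ℤ) < 2 ^ j := by positivity
  unfold tent
  rw [Nat.add_sub_cancel, pow_succ]
  split_ifs with h
  · have e2 : ix j b = 2 * ix (j + 1) b := by omega
    have h3 : (0 : ℤ) ≤ b - 2 ^ j * 2 * ix (j + 1) b := by
      rw [mul_assoc, ← e2]; linarith
    have h4 : b - 2 ^ j * 2 * ix (j + 1) b ≤ 2 ^ j := by
      rw [mul_assoc, ← e2]; linarith
    constructor
    · exact_mod_cast h3
    · exact_mod_cast h4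
  · have e2 : ix j b = 2 * ix (j + 1) b + 1 := by omega
    have h3 : (0 : ℤ) ≤ 2 ^ j * 2 * (ix (j + 1) b + 1) - b := by
      have : (2 : ℤ) ^ j * 2 * (ix (j + 1) b + 1) = 2 ^ j * ix j b + 2 ^ j := by rw [e2]; ring
      rw [this]; linarith
    have h4 : 2 ^ j * 2 * (ix (j + 1) b + 1) - b ≤ 2 ^ j := by
      have : (2 : ℤ) ^ j * 2 * (ix (j + 1) b + 1) = 2 ^ j * ix j b + 2 ^ j := by rw [e2]; ring
      rw [this]; linarith
    constructor
    · exact_mod_cast h3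
    · exact_mod_cast h4

omit [Fintype ι] in
/-- one step of the tent -/
theorem tent_step (j : ℕ) (b : ℤ) (g : ℤ → ι → ℝ) :
    tent (j + 1) (b + 1) • g (ix (j + 1) (b + 1)) =
      tent (j + 1) b • g (ix (j + 1) b) + hs (j + 1) b • g (ix (j + 1) b) := by
  obtain ⟨h1, h2⟩ := ix_bd j b
  have e := ix_half j b
  have e' := ix_half j (b + 1)
  have hp : (0 : ℤ) < 2 ^ j := by positivity
  by_cases hc : b + 1 < 2 ^ j * ix j b + 2 ^ j
  · have e3 : ix j (b + 1) = ix j b := ix_of (by linarith) hc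
    have e4 : ix (j + 1) (b + 1) = ix (j + 1) b := by rw [e', e, e3]
    rw [e4, ← add_smul]
    congr 1
    unfold tent PL.hs
    rw [Nat.add_sub_cancel, e3, e4]
    split_ifs
    · push_cast; ring
    · push_cast; ring
  · have e3 : b + 1 = 2 ^ j * (ix j b + 1) := by linarith
    have e4 : ix j (b + 1) = ix j b + 1 := ix_of (by linarith) (by linarith)
    by_cases hq : ix j b % 2 = 0
    · have q1 : ix j b = 2 * ix (j + 1) b := by omega
      have e5 : ix (j + 1) (b + 1) = ix (j + 1) b := by omega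
      rw [e5, ← add_smul]
      congr 1
      unfold tent PL.hs
      rw [Nat.add_sub_cancel, e4, e5, if_pos hq, if_neg (by omega), if_pos hq]
      have : (2 : ℤ) ^ (j + 1) * (ix (j + 1) b + 1) - (b + 1) = b - 2 ^ (j + 1) * ix (j + 1) b + 1 := by
        rw [pow_succ]
        rw [q1] at e3
        linarith
      rw [this]
      push_cast
      ring
    · have q1 : ix j b = 2 * ix (j + 1) b + 1 := by omega
      have e5 : ix (j + 1) (b + 1) = ix (j + 1) b + 1 := by omega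
      have z1 : tent (j + 1) (b + 1) = 0 := by
        unfold tent
        rw [Nat.add_sub_cancel, e4, e5, if_pos (by omega)]
        have : b + 1 - (2 : ℤ) ^ (j + 1) * (ix (j + 1) b + 1) = 0 := by
          rw [pow_succ]
          rw [q1] at e3
          linarith
        rw [this]
        simp
      have z2 : tent (j + 1) b + hs (j + 1) b = 0 := by
        unfold tent PL.hs
        rw [Nat.add_sub_cancel, if_neg hq, if_neg hq]
        have : (2 : ℤ) ^ (j + 1) * (ix (j + 1) b + 1) - b = 1 := by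
          rw [pow_succ]
          rw [q1] at e3
          linarith
        rw [this]
        simp
      rw [z1, zero_smul, ← add_smul, z2, zero_smul]

omit [Fintype ι] in
/-- **The sum of a Haar layer over an interval.** -/
theorem lay_sum (j : ℕ) (a : ℤ) (N : ℕ) (g : ℤ → ι → ℝ) :
    ∑ p ∈ Ico a (a + N), hs (j + 1) p • g (ix (j + 1) p) =
      tent (j + 1) (a + N) • g (ix (j + 1) (a + N)) - tent (j + 1) a • g (ix (j + 1) a) := by
  induction N with
  | zero => simp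
  | succ N ih =>
    have e : Ico a (a + ((N + 1 : ℕ) : ℤ)) = insert (a + N) (Ico a (a + N)) := by
      ext x
      rw [mem_insert, mem_Ico, mem_Ico]
      push_cast
      omega
    rw [e, sum_insert (by simp), ih]
    have h := tent_step j (a + N) g
    push_cast
    rw [← add_assoc, h]
    abel

/-- the start of the cell of `y` on the shifted grid -/
def st (sh : ℤ) (k : ℕ) (y : ℤ) : ℤ := 2 ^ k * ix k (y - sh) + sh

theorem st_bd (sh : ℤ) (k : ℕ) (y : ℤ) : st sh k y ≤ y ∧ y < st sh k y + 2 ^ k := by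
  obtain ⟨h1, h2⟩ := ix_bd k (y - sh)
  unfold st
  constructor <;> linarith

theorem avv_st {E : Type*} [AddCommGroup E] [Module ℝ E] (sh : ℤ) (k : ℕ) (y : ℤ) (f : ℤ → E) :
    avv k (ix k (y - sh)) (fun p => f (p + sh)) =
      ((2 : ℝ) ^ k)⁻¹ • ∑ p ∈ Ico (st sh k y) (st sh k y + 2 ^ k), f p := by
  unfold H43.avv
  congr 1
  refine sum_nbij' (fun p => p + sh) (fun p => p - sh) ?_ ?_ ?_ ?_ ?_
  · intro p hp
    unfold PL.iv at hp
    rw [mem_Ico] at hp ⊢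
    unfold st
    constructor <;> linarith [hp.1, hp.2, mul_add (2 ^ k) (ix k (y - sh)) 1, mul_one ((2 : ℤ) ^ k)]
  · intro p hp
    unfold PL.iv
    rw [mem_Ico] at hp ⊢
    unfold st at hp
    constructor <;> linarith [hp.1, hp.2, mul_add (2 ^ k) (ix k (y - sh)) 1, mul_one ((2 : ℤ) ^ k)]
  · intro p _; ring
  · intro p _; ring
  · intro p _; rfl

/-- Jensen for the average over the shifted cell -/
theorem nsq_avg_le (k : ℕ) (a : ℤ) (u : ℤ → ι → ℝ) {b : ℝ}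
    (h : ∀ p ∈ Ico a (a + 2 ^ k), nsq (u p) ≤ b) :
    nsq (((2 : ℝ) ^ k)⁻¹ • ∑ p ∈ Ico a (a + 2 ^ k), u p) ≤ b := by
  have hc : ((Ico a (a + 2 ^ k)).card : ℝ) = 2 ^ k := by
    rw [Int.card_Ico, add_sub_cancel_left]
    have : ((2 : ℤ) ^ k).toNat = 2 ^ k := by
      have e : ((2 : ℤ) ^ k) = ((2 ^ k : ℕ) : ℤ) := by push_cast; rfl
      rw [e, Int.toNat_natCast]
    rw [this]
    push_cast
    rfl
  have h1 := nsq_sum_le (Ico a (a + 2 ^ k)) (fun _ => (1 : ℝ)) (fun _ _ => one_pos) u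
  simp only [inv_one, one_pow, one_mul, sum_const, nsmul_eq_mul, mul_one, hc] at h1
  rw [nsq_smul]
  have hp : (0 : ℝ) < 2 ^ k := by positivity
  have h2 : ∑ p ∈ Ico a (a + 2 ^ k), nsq (u p) ≤ 2 ^ k * b := by
    have := sum_le_sum h
    rw [sum_const, nsmul_eq_mul, hc] at this
    exact this
  calc ((2 : ℝ) ^ k)⁻¹ ^ 2 * nsq (∑ p ∈ Ico a (a + 2 ^ k), u p)
      ≤ ((2 : ℝ) ^ k)⁻¹ ^ 2 * (2 ^ k * (2 ^ k * b)) := by
        refine mul_le_mul_of_nonneg_left (h1.trans ?_) (by positivity)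
        exact mul_le_mul_of_nonneg_left h2 hp.le
    _ = b := by field_simp

/-- a fine layer, averaged over the shifted cell -/
theorem lay_fine {j k : ℕ} (hjk : j < k) (a : ℤ) (g : ℤ → ι → ℝ) :
    nsq (((2 : ℝ) ^ k)⁻¹ • ∑ p ∈ Ico a (a + 2 ^ k), hs (j + 1) p • g (ix (j + 1) p)) ≤
      2 * ((4 : ℝ) ^ (k - j))⁻¹ *
        (nsq (g (ix (j + 1) a)) + nsq (g (ix (j + 1) (a + 2 ^ k)))) := by
  have h := lay_sum j a (2 ^ k) g
  push_cast at h
  rw [h, nsq_smul]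
  have h1 := nsq_sub_le (tent (j + 1) (a + 2 ^ k) • g (ix (j + 1) (a + 2 ^ k)))
    (tent (j + 1) a • g (ix (j + 1) a))
  rw [nsq_smul, nsq_smul] at h1
  obtain ⟨t1, t2⟩ := tent_bd j (a + 2 ^ k)
  obtain ⟨t3, t4⟩ := tent_bd j a
  have h2 : tent (j + 1) (a + 2 ^ k) ^ 2 ≤ (2 ^ j) ^ 2 := pow_le_pow_left₀ t1 t2 2
  have h3 : tent (j + 1) a ^ 2 ≤ (2 ^ j) ^ 2 := pow_le_pow_left₀ t3 t4 2
  have n1 := nsq_nonneg (g (ix (j + 1) (a + 2 ^ k)))
  have n2 := nsq_nonneg (g (ix (j + 1) a))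
  have h4 := mul_le_mul_of_nonneg_right h2 n1
  have h5 := mul_le_mul_of_nonneg_right h3 n2
  have e : ((4 : ℝ) ^ (k - j))⁻¹ = ((2 : ℝ) ^ k)⁻¹ ^ 2 * (2 ^ j) ^ 2 := by
    have e1 : (2 : ℝ) ^ k = 2 ^ (k - j) * 2 ^ j := by
      rw [← pow_add, Nat.sub_add_cancel hjk.le]
    rw [e1, mul_inv, mul_pow, mul_assoc, ← mul_pow, inv_mul_cancel₀ (by positivity), one_pow,
      mul_one, inv_pow, ← pow_mul, mul_comm (k - j) 2, pow_mul]
    norm_num
  rw [e]
  have hp : (0 : ℝ) ≤ ((2 : ℝ) ^ k)⁻¹ ^ 2 := by positivity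
  nlinarith [mul_le_mul_of_nonneg_left h1 hp, mul_le_mul_of_nonneg_left h4 hp,
    mul_le_mul_of_nonneg_left h5 hp]

theorem ix_mid {k j : ℕ} (hkj : k ≤ j) {a p : ℤ} (h1 : a ≤ p) (h2 : p < a + 2 ^ k) :
    ix j p = ix j a ∨ ix j p = ix j (a + 2 ^ k) := by
  have hp : (0 : ℤ) < 2 ^ j := by positivity
  have hle : (2 : ℤ) ^ k ≤ 2 ^ j := pow_le_pow_right₀ (by norm_num) hkj
  obtain ⟨a1, a2⟩ := ix_bd j a
  obtain ⟨b1, b2⟩ := ix_bd j p
  by_cases h : ix j p = ix j a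
  · exact Or.inl h
  · right
    have h3 : ix j a + 1 ≤ ix j p := by
      have : ix j a ≤ ix j p := by
        unfold ix
        exact Int.ediv_le_ediv hp h1
      omega
    symm
    refine ix_of (by linarith) ?_
    have h4 : (2 : ℤ) ^ j * (ix j a + 1) ≤ 2 ^ j * ix j p := mul_le_mul_of_nonneg_left h3 hp.le
    rw [mul_add, mul_one] at h4
    linarith

/-- a coarse layer: average over the shifted cell against the value at a point -/
theorem lay_coarse {j k : ℕ} (hkj : k ≤ j) {a y : ℤ} (h1 : a ≤ y) (h2 : y < a + 2 ^ k)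
    (g : ℤ → ι → ℝ) :
    nsq (((2 : ℝ) ^ k)⁻¹ • ∑ p ∈ Ico a (a + 2 ^ k), hs (j + 1) p • g (ix (j + 1) p) -
        hs (j + 1) y • g (ix (j + 1) y)) ≤
      (if ix j a = ix j (a + 2 ^ k) then 0 else 2) *
        (nsq (g (ix (j + 1) a)) + nsq (g (ix (j + 1) (a + 2 ^ k)))) := by
  have val : ∀ p q : ℤ, ix j p = ix j q →
      hs (j + 1) p • g (ix (j + 1) p) = hs (j + 1) q • g (ix (j + 1) q) := by
    intro p q h
    have e : ix (j + 1) p = ix (j + 1) q := by rw [ix_half, ix_half, h]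
    have e2 : hs (j + 1) p = hs (j + 1) q := by
      unfold PL.hs
      rw [Nat.add_sub_cancel, h]
    rw [e, e2]
  have nv : ∀ p : ℤ, nsq (hs (j + 1) p • g (ix (j + 1) p)) = nsq (g (ix (j + 1) p)) := by
    intro p
    rw [nsq_smul, sq, PL.hs_mul_self, one_mul]
  have hcard : ((2 : ℝ) ^ k)⁻¹ • ∑ _p ∈ Ico a (a + 2 ^ k), hs (j + 1) y • g (ix (j + 1) y) =
      hs (j + 1) y • g (ix (j + 1) y) := by
    rw [sum_const, Int.card_Ico, add_sub_cancel_left]
    have : ((2 : ℤ) ^ k).toNat = 2 ^ k := by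
      have e : ((2 : ℤ) ^ k) = ((2 ^ k : ℕ) : ℤ) := by push_cast; rfl
      rw [e, Int.toNat_natCast]
    rw [this, ← Nat.cast_smul_eq_nsmul ℝ, smul_smul]
    push_cast
    rw [inv_mul_cancel₀ (by positivity), one_smul]
  rw [← hcard, ← smul_sub, ← sum_sub_distrib]
  refine nsq_avg_le k a _ fun p hp => ?_
  rw [mem_Ico] at hp
  have m1 := ix_mid hkj hp.1 hp.2
  have m2 := ix_mid hkj h1 h2
  have n1 := nsq_nonneg (g (ix (j + 1) a))
  have n2 := nsq_nonneg (g (ix (j + 1) (a + 2 ^ k)))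
  by_cases hc : ix j p = ix j y
  · rw [val p y hc, sub_self, nsq_zero]
    split_ifs
    · simp
    · positivity
  · have hne : ix j a ≠ ix j (a + 2 ^ k) := by
      intro h
      rcases m1 with m1 | m1 <;> rcases m2 with m2 | m2 <;> apply hc <;> rw [m1, m2] <;>
        first | rfl | exact h | exact h.symm
    rw [if_neg hne]
    refine (nsq_sub_le _ _).trans ?_
    rcases m1 with m1 | m1 <;> rcases m2 with m2 | m2
    · exact absurd (m1.trans m2.symm) hc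
    · rw [val p a m1, val y (a + 2 ^ k) m2, nv, nv]
      linarith
    · rw [val p (a + 2 ^ k) m1, val y a m2, nv, nv]
      linarith
    · exact absurd (m1.trans m2.symm) hc

/-! ### The slot -/

/-- one layer of the moving slot -/
def Lm (Mx : ℕ → ℤ → Matrix ι ι ℝ) (o x1 : ℤ) (s : ℕ → ℤ → ℤ → ℝ) (i : ℕ) (x0 p : ℤ) :
    Matrix ι ι ℝ :=
  (s i (ix i x0) (ix i p) * (hs i x0 * hs i p)) • Mx i (ck o x1 p i - ix i x0)

/-- the moving slot at the time `j`, standard grid -/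
def Rm (Mx : ℕ → ℤ → Matrix ι ι ℝ) (o x1 : ℤ) (s : ℕ → ℤ → ℤ → ℝ) (n j : ℕ) (x0 p : ℤ) :
    Matrix ι ι ℝ :=
  ∑ i ∈ Ico j n, Lm Mx o x1 s (i + 1) x0 p

/-- the average of the end slot over a cell of the grid shifted by `sh` -/
def Rs (Mx : ℕ → ℤ → Matrix ι ι ℝ) (o x1 : ℤ) (s : ℕ → ℤ → ℤ → ℝ) (n : ℕ) (sh : ℤ) (k : ℕ)
    (x0 m : ℤ) : Matrix ι ι ℝ :=
  avv k m fun p => Rm Mx o x1 s n 0 x0 (p + sh)

/-- the square of a layer at the point `p` -/
def Nn (Mx : ℕ → ℤ → Matrix ι ι ℝ) (o x1 : ℤ) (i : ℕ) (x0 p : ℤ) (w : ι → ℝ) : ℝ :=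
  nsq (Mx i (ck o x1 p i - ix i x0) *ᵥ w)

theorem Nn_nonneg (Mx : ℕ → ℤ → Matrix ι ι ℝ) (o x1 : ℤ) (i : ℕ) (x0 p : ℤ) (w : ι → ℝ) :
    0 ≤ Nn Mx o x1 i x0 p w := nsq_nonneg _

/-- the weight of the layer `i + 1` in the deviation at the scale `k` -/
def om (sh : ℤ) (k i : ℕ) (y : ℤ) : ℝ :=
  if i < k then 8 * ((k - i : ℕ) : ℝ) ^ 2 * ((4 : ℝ) ^ (k - i))⁻¹
  else if ix i (st sh k y) = ix i (st sh k y + 2 ^ k) then 0 else 8 * ((i + 1 - k : ℕ) : ℝ) ^ 2

theorem om_nonneg (sh : ℤ) (k i : ℕ) (y : ℤ) : 0 ≤ om sh k i y := by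
  unfold om
  split_ifs <;> positivity

variable {Mx : ℕ → ℤ → Matrix ι ι ℝ} {o x1 : ℤ} {s : ℕ → ℤ → ℤ → ℝ}

/-- the layer as a function of the cell of `p` -/
def gl (Mx : ℕ → ℤ → Matrix ι ι ℝ) (o x1 : ℤ) (s : ℕ → ℤ → ℤ → ℝ) (i : ℕ) (x0 : ℤ) (w : ι → ℝ)
    (m : ℤ) : ι → ℝ :=
  (s i (ix i x0) m * hs i x0) • (Mx i (o - 2 - ix i x1 - m - ix i x0) *ᵥ w)

theorem Lm_vec (i : ℕ) (x0 p : ℤ) (w : ι → ℝ) :
    Lm Mx o x1 s i x0 p *ᵥ w = hs i p • gl Mx o x1 s i x0 w (ix i p) := by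
  unfold Lm gl H922.ck
  rw [smul_mulVec, smul_smul]
  congr 1
  ring

theorem nsq_gl_le (hs1 : ∀ k a b, |s k a b| ≤ 1) (i : ℕ) (x0 p : ℤ) (w : ι → ℝ) :
    nsq (gl Mx o x1 s i x0 w (ix i p)) ≤ Nn Mx o x1 i x0 p w := by
  unfold gl Nn H922.ck
  rw [nsq_smul, mul_pow, sq (hs i x0), PL.hs_mul_self, mul_one]
  have h := hs1 i (ix i x0) (ix i p)
  have h2 : s i (ix i x0) (ix i p) ^ 2 ≤ 1 := by
    rw [← sq_abs]
    exact pow_le_one₀ (abs_nonneg _) h
  calc _ ≤ 1 * _ := mul_le_mul_of_nonneg_right h2 (nsq_nonneg _)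
    _ = _ := one_mul _

theorem Lm_le (hs1 : ∀ k a b, |s k a b| ≤ 1) (i : ℕ) (x0 p : ℤ) (w : ι → ℝ) :
    nsq (Lm Mx o x1 s i x0 p *ᵥ w) ≤ Nn Mx o x1 i x0 p w := by
  rw [Lm_vec, nsq_smul, sq, PL.hs_mul_self, one_mul]
  exact nsq_gl_le hs1 i x0 p w

theorem Rm_vec (n j : ℕ) (x0 p : ℤ) (w : ι → ℝ) :
    Rm Mx o x1 s n j x0 p *ᵥ w =
      ∑ i ∈ Ico j n, hs (i + 1) p • gl Mx o x1 s (i + 1) x0 w (ix (i + 1) p) := by
  unfold Rm
  rw [Matrix.sum_mulVec]
  exact sum_congr rfl fun i _ => Lm_vec _ _ _ _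

theorem Rs_vec (n : ℕ) (sh : ℤ) (k : ℕ) (x0 y : ℤ) (w : ι → ℝ) :
    Rs Mx o x1 s n sh k x0 (ix k (y - sh)) *ᵥ w =
      ∑ i ∈ range n, ((2 : ℝ) ^ k)⁻¹ • ∑ p ∈ Ico (st sh k y) (st sh k y + 2 ^ k),
        hs (i + 1) p • gl Mx o x1 s (i + 1) x0 w (ix (i + 1) p) := by
  unfold Rs
  rw [avv_st sh k y (fun p => Rm Mx o x1 s n 0 x0 p), smul_mulVec, Matrix.sum_mulVec]
  simp only [Rm_vec]
  rw [sum_comm, smul_sum, range_eq_Ico]

/-- **The deviation of the slot on the shifted grid, one point.** -/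
theorem dev_le (hs1 : ∀ k a b, |s k a b| ≤ 1) (n : ℕ) (sh : ℤ) {k : ℕ} (hk : k ≤ n) (x0 y : ℤ)
    (w : ι → ℝ) :
    nsq ((Rs Mx o x1 s n sh k x0 (ix k (y - sh)) - Rm Mx o x1 s n k x0 y) *ᵥ w) ≤
      ∑ i ∈ range n, om sh k i y * (Nn Mx o x1 (i + 1) x0 (st sh k y) w +
        Nn Mx o x1 (i + 1) x0 (st sh k y + 2 ^ k) w) := by
  set a := st sh k y with ha
  obtain ⟨hy1, hy2⟩ := st_bd sh k y
  rw [← ha] at hy1 hy2
  set A : ℕ → ι → ℝ := fun i => ((2 : ℝ) ^ k)⁻¹ • ∑ p ∈ Ico a (a + 2 ^ k),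
    hs (i + 1) p • gl Mx o x1 s (i + 1) x0 w (ix (i + 1) p) with hA
  set B : ℕ → ι → ℝ := fun i => hs (i + 1) y • gl Mx o x1 s (i + 1) x0 w (ix (i + 1) y) with hB
  set N : ℕ → ℝ := fun i => Nn Mx o x1 (i + 1) x0 a w + Nn Mx o x1 (i + 1) x0 (a + 2 ^ k) w with hN
  have hN0 : ∀ i, 0 ≤ N i := fun i => add_nonneg (Nn_nonneg _ _ _ _ _ _ _) (Nn_nonneg _ _ _ _ _ _ _)
  have e1 : (Rs Mx o x1 s n sh k x0 (ix k (y - sh)) - Rm Mx o x1 s n k x0 y) *ᵥ w =
      ∑ i ∈ range k, A i + ∑ i ∈ Ico k n, (A i - B i) := by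
    rw [sub_mulVec, Rs_vec, Rm_vec, sum_sub_distrib, ← add_sub_assoc]
    congr 1
    rw [range_eq_Ico, range_eq_Ico, sum_Ico_consecutive _ (Nat.zero_le k) hk]
  rw [e1]
  have f1 : nsq (∑ i ∈ range k, A i) ≤
      2 * ∑ i ∈ range k, ((k - i : ℕ) : ℝ) ^ 2 * (2 * ((4 : ℝ) ^ (k - i))⁻¹ * N i) := by
    refine (nsq_sum_le (range k) (fun i => ((k - i : ℕ) : ℝ)) (fun i hi => ?_) A).trans ?_
    · rw [mem_range] at hi
      have : 0 < k - i := by omega
      exact_mod_cast this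
    · have h1 : ∑ i ∈ range k, (((k - i : ℕ) : ℝ))⁻¹ ^ 2 ≤ 2 := by
        have h2 := sum_inv_sq k
        rw [← sum_range_reflect] at h2
        refine le_trans (le_of_eq (sum_congr rfl fun i hi => ?_)) h2
        rw [mem_range] at hi
        have : ((k - i : ℕ) : ℝ) = ((k - 1 - i : ℕ) : ℝ) + 1 := by
          have : k - i = k - 1 - i + 1 := by omega
          rw [this]; push_cast; ring
        rw [this]
      refine mul_le_mul h1 (sum_le_sum fun i hi => ?_) (sum_nonneg fun i _ =>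
        mul_nonneg (by positivity) (nsq_nonneg _)) (by norm_num)
      rw [mem_range] at hi
      refine mul_le_mul_of_nonneg_left ?_ (by positivity)
      refine (lay_fine hi a _).trans (mul_le_mul_of_nonneg_left ?_ (by positivity))
      exact add_le_add (nsq_gl_le hs1 _ _ _ _) (nsq_gl_le hs1 _ _ _ _)
  have f2 : nsq (∑ i ∈ Ico k n, (A i - B i)) ≤
      2 * ∑ i ∈ Ico k n, ((i + 1 - k : ℕ) : ℝ) ^ 2 *
        ((if ix i a = ix i (a + 2 ^ k) then 0 else 2) * N i) := by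
    refine (nsq_sum_le (Ico k n) (fun i => ((i + 1 - k : ℕ) : ℝ)) (fun i hi => ?_) _).trans ?_
    · rw [mem_Ico] at hi
      have : 0 < i + 1 - k := by omega
      exact_mod_cast this
    · have h1 : ∑ i ∈ Ico k n, (((i + 1 - k : ℕ) : ℝ))⁻¹ ^ 2 ≤ 2 := by
        have h2 := sum_inv_sq (n - k)
        rw [sum_Ico_eq_sum_range]
        refine le_trans (le_of_eq (sum_congr rfl fun i _ => ?_)) h2
        have : ((k + i + 1 - k : ℕ) : ℝ) = (i : ℝ) + 1 := by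
          have : k + i + 1 - k = i + 1 := by omega
          rw [this]; push_cast; ring
        rw [this]
      refine mul_le_mul h1 (sum_le_sum fun i hi => ?_) (sum_nonneg fun i _ =>
        mul_nonneg (by positivity) (nsq_nonneg _)) (by norm_num)
      rw [mem_Ico] at hi
      refine mul_le_mul_of_nonneg_left ?_ (by positivity)
      refine (lay_coarse hi.1 hy1 hy2 _).trans (mul_le_mul_of_nonneg_left ?_ ?_)
      · exact add_le_add (nsq_gl_le hs1 _ _ _ _) (nsq_gl_le hs1 _ _ _ _)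
      · split_ifs <;> norm_num
  refine (nsq_add_le _ _).trans ?_
  have e2 : ∑ i ∈ range n, om sh k i y * N i =
      ∑ i ∈ range k, om sh k i y * N i + ∑ i ∈ Ico k n, om sh k i y * N i := by
    rw [range_eq_Ico, range_eq_Ico, sum_Ico_consecutive _ (Nat.zero_le k) hk]
  refine le_trans ?_ (le_of_eq e2.symm)
  refine add_le_add ?_ ?_
  · calc 2 * nsq (∑ i ∈ range k, A i) ≤ 2 * (2 * ∑ i ∈ range k, ((k - i : ℕ) : ℝ) ^ 2 *
          (2 * ((4 : ℝ) ^ (k - i))⁻¹ * N i)) := by linarith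
      _ = ∑ i ∈ range k, om sh k i y * N i := by
        rw [mul_sum, mul_sum]
        refine sum_congr rfl fun i hi => ?_
        rw [mem_range] at hi
        unfold om
        rw [if_pos hi]
        ring
  · calc 2 * nsq (∑ i ∈ Ico k n, (A i - B i)) ≤ 2 * (2 * ∑ i ∈ Ico k n,
          ((i + 1 - k : ℕ) : ℝ) ^ 2 * ((if ix i a = ix i (a + 2 ^ k) then 0 else 2) * N i)) := by
            linarith
      _ = ∑ i ∈ Ico k n, om sh k i y * N i := by
        rw [mul_sum, mul_sum]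
        refine sum_congr rfl fun i hi => ?_
        have hi' := (mem_Ico.1 hi).1
        unfold om
        rw [if_neg (not_lt.2 hi'), ← ha]
        by_cases hc : ix i a = ix i (a + 2 ^ k)
        · rw [if_pos hc, if_pos hc]
          ring
        · rw [if_neg hc, if_neg hc]
          ring

end

end Vale.Agent.P141.H841
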