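import Vale.Agent.P141.H841.SlotB
import Vale.Agent.P141.H677.SlotR

/-!
# P141, line (A): the sums over the label points and the roots, any weights

* `Ctx` : class data, one slot, small fibres over the live scales `al` (a parameter);
* `S1t`, `S2t` : the signed sums of (S1), (S2); `S1tb`, `S2tb` : the blind sums, every weight.
-/

namespace Vale.Agent.P141.H841

open Finset Matrix
open Vale.Agent.P141.PL (Pt iv ix mem_iv ix_ix cx cb)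
open Vale.Agent.P141.H43 (nsq nsq_nonneg)
open Vale.Agent.P141.H677 (KT GT MT kF rt)
open Vale.Agent.P141.H677.Sk (Slt av FDs SlotN lam1 FamA FamV Raw)
open Vale.Agent.P141.H64 (Qf NB)

noncomputable section

open scoped Classical

set_option linter.unusedSectionVars false

variable {ι : Type} [Fintype ι] [DecidableEq ι]

/-- **Class data, one slot, live scales with small fibres.** -/
structure Ctx (K : ℕ) (x : Pt) (s r P l : ℝ) (U : PL.H315.Tri) (g : ℤ → ℤ → ℝ)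
    (u v v' : ℤ → ℤ → ι → ℝ) (Al : ℕ → Pt → Prop) (o : ℤ) (R : Slt ι) (κ E : ℝ)
    (sx : ℤ → ℕ → ℤ → ℤ → ℝ) (V Θ : ℝ) (al : ℤ → ℕ → ℤ → Prop) : Prop where
  cls : H305.Cls K x s r P U g u v
  l0 : 0 < l
  P0 : 0 ≤ P
  ori : o = 1 ∨ o = -1
  hv : ∀ x' z, v' x' z ⬝ᵥ v' x' z ≤ v x' z ⬝ᵥ v x' z
  s1 : ∀ x1 k a b, |sx x1 k a b| ≤ 1
  s0 : ∀ x1 k a b,
    ((b, o - 2 - a - ix k x1 - b, ix k x1) : Pt) ∉ H677.sN Al o K (cx K x) (2 ^ k * a) k →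
    sx x1 k a b = 0
  hR : ∀ x0 j z x1, R x0 j z x1 = Rm (MT l (KT l u x1)) o x1 (sx x1) K j x0 z
  cap : ∀ x0, ∀ j ≤ K, ∀ z x1 w, nsq (R x0 j z x1 *ᵥ w) ≤ κ ^ 2 * nsq w
  en : ∀ (T : Finset ℤ) (z : ℤ), ∀ x1 ∈ iv K (cx K x).1, ∀ w,
    ∑ t ∈ T, ∑ x0 ∈ iv K t, nsq (R x0 0 z x1 *ᵥ w) ≤ 2 ^ K * (E * nsq w)
  E0 : 0 ≤ E
  V0 : 0 ≤ V
  fib : ∀ x1 ∈ iv K (cx K x).1, ∀ k ≤ K, ∀ y, al x1 k y →
    ∑ y' ∈ iv k (ix k y), nsq (v' x1 y') ≤ V * 2 ^ k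
  Th : ∀ x1 ∈ iv K (cx K x).1, Th1 l K (cx K x).2.1 u x1 ≤ Θ

theorem card_rt (M : Pt) : ((rt M).card : ℝ) = 3 := H58.card_rt M

section tot

variable {K : ℕ} {x : Pt} {s r P l : ℝ} {U : PL.H315.Tri} {g : ℤ → ℤ → ℝ}
  {u v v' : ℤ → ℤ → ι → ℝ} {Al : ℕ → Pt → Prop} {o : ℤ} {R : Slt ι} {κ E : ℝ}
  {sx : ℤ → ℕ → ℤ → ℤ → ℝ} {V Θ : ℝ} {al : ℤ → ℕ → ℤ → Prop}

theorem Ctx.hyp (c : Ctx K x s r P l U g u v v' Al o R κ E sx V Θ al) {x1 : ℤ}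
    (hx1 : x1 ∈ iv K (cx K x).1) (T : ℤ) :
    H64.HypN (Mc l K (cx K x).2.1 u x1) o x1 T (cx K x).2.2 K (sx x1) (cJ l K (cx K x).2.1)
      (uJ K (cx K x).2.1 u x1) (thH (Mc l K (cx K x).2.1 u x1)) (Th1 l K (cx K x).2.1 u x1)
      (Th1 l K (cx K x).2.1 u x1) E :=
  hypN_slot c.l0 c.ori c.s1 c.s0 c.hR c.E0 c.en hx1 T

theorem Ctx.avc (c : Ctx K x s r P l U g u v v' Al o R κ E sx V Θ al) (h x0 : ℤ) (k : ℕ)
    (z x1 : ℤ) : av R h x0 k z x1 =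
      Rs (Mc l K (cx K x).2.1 u x1) o x1 (sx x1) K h k x0 (ix k (z - h)) :=
  av_cut c.s0 c.hR h x0 k z x1

/-- **(S1), signed, every weight, summed.** -/
theorem Ctx.S1t (c : Ctx K x s r P l U g u v v' Al o R κ E sx V Θ al)
    {W : ℤ → ℕ → ℤ → ℤ → ℝ} {e : ℝ} (he : 0 ≤ e) (hW0 : ∀ x1 k x0 y, 0 ≤ W x1 k x0 y)
    (hW : ∀ x1, ∀ k ≤ K, ∀ j y, ∑ x0 ∈ iv k j, W x1 k x0 y ≤ e * 2 ^ k)
    (hal : ∀ x1 ∈ iv K (cx K x).1, ∀ y ∈ iv K (cx K x).2.2, ∀ k ≤ K, ¬ al x1 k y →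
      ∀ x0, W x1 k x0 y = 0) (L : ℕ) (sh : ℤ) {δ : ℝ} (hδ : 0 < δ) :
    ∑ t ∈ rt (cx K x), ∑ x1 ∈ iv K (cx K x).1, ∑ y ∈ iv K (cx K x).2.2, ∑ k ∈ range (K + 1),
      ∑ x0 ∈ iv K t, W x1 k x0 y *
        nsq ((Rs (Mc l K (cx K x).2.1 u x1) o x1 (sx x1) K sh k x0 (ix k (y - sh)) -
          Rm (Mc l K (cx K x).2.1 u x1) o x1 (sx x1) K k x0 y) *ᵥ v' x1 y) ≤
      5184 * e * (1 + (L : ℝ)) ^ 3 *
        (s * 8 ^ K * (δ + V / (2 * l) * (E / δ + (1 + Θ / δ) / 2 ^ L))) := by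
  have h1 : ∀ t ∈ rt (cx K x), ∑ x1 ∈ iv K (cx K x).1, ∑ y ∈ iv K (cx K x).2.2,
      ∑ k ∈ range (K + 1), ∑ x0 ∈ iv K t, W x1 k x0 y *
        nsq ((Rs (Mc l K (cx K x).2.1 u x1) o x1 (sx x1) K sh k x0 (ix k (y - sh)) -
          Rm (Mc l K (cx K x).2.1 u x1) o x1 (sx x1) K k x0 y) *ᵥ v' x1 y) ≤
      1728 * e * (1 + (L : ℝ)) ^ 3 *
        (s * 8 ^ K * (δ + V / (2 * l) * (E / δ + (1 + Θ / δ) / 2 ^ L))) := by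
    intro t _
    refine (sum_le_sum fun x1 hx1 => H64.S1s (c.hyp hx1 t) he (hW0 x1) (hW x1) c.V0
      (c.fib x1 hx1) (hal x1 hx1) L sh hδ).trans ?_
    rw [← mul_sum]
    exact mul_le_mul_of_nonneg_left (NB_sum c.cls c.l0 c.hv c.V0 c.E0 hδ c.Th L) (by positivity)
  refine (sum_le_sum h1).trans (le_of_eq ?_)
  rw [sum_const, nsmul_eq_mul, card_rt]
  ring

/-- **(S2), signed, every weight, summed.** -/
theorem Ctx.S2t (c : Ctx K x s r P l U g u v v' Al o R κ E sx V Θ al)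
    {W : ℤ → ℕ → ℤ → ℤ → ℝ} {e : ℝ} (he : 0 ≤ e) (hW0 : ∀ x1 k x0 y, 0 ≤ W x1 k x0 y)
    (hW : ∀ x1, ∀ k ≤ K, ∀ j y, ∑ x0 ∈ iv k j, W x1 k x0 y ≤ e * 2 ^ k)
    (hup : ∀ x1 ∈ iv K (cx K x).1, ∀ y ∈ iv K (cx K x).2.2, ∀ k < K, al x1 k y →
      al x1 (k + 1) y)
    (hal : ∀ x1 ∈ iv K (cx K x).1, ∀ y ∈ iv K (cx K x).2.2, ∀ k ≤ K, ¬ al x1 k y →
      ∀ x0, W x1 k x0 y = 0) (L : ℕ) (sh : ℤ) {δ : ℝ} (hδ : 0 < δ) :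
    ∑ t ∈ rt (cx K x), ∑ x1 ∈ iv K (cx K x).1, ∑ y ∈ iv K (cx K x).2.2, ∑ k ∈ range K,
      ∑ x0 ∈ iv K t, W x1 k x0 y *
        nsq ((Rs (Mc l K (cx K x).2.1 u x1) o x1 (sx x1) K sh k x0 (ix k (y - sh)) -
          Rs (Mc l K (cx K x).2.1 u x1) o x1 (sx x1) K sh (k + 1) x0
            (ix (k + 1) (y - sh))) *ᵥ v' x1 y) ≤
      41472 * e * (1 + (L : ℝ)) ^ 3 *
        (s * 8 ^ K * (δ + V / (2 * l) * (E / δ + (1 + Θ / δ) / 2 ^ L))) +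
      6 * e * (E * (s * 8 ^ K)) := by
  have h1 : ∀ t ∈ rt (cx K x), ∑ x1 ∈ iv K (cx K x).1, ∑ y ∈ iv K (cx K x).2.2,
      ∑ k ∈ range K, ∑ x0 ∈ iv K t, W x1 k x0 y *
        nsq ((Rs (Mc l K (cx K x).2.1 u x1) o x1 (sx x1) K sh k x0 (ix k (y - sh)) -
          Rs (Mc l K (cx K x).2.1 u x1) o x1 (sx x1) K sh (k + 1) x0
            (ix (k + 1) (y - sh))) *ᵥ v' x1 y) ≤
      13824 * e * (1 + (L : ℝ)) ^ 3 *
        (s * 8 ^ K * (δ + V / (2 * l) * (E / δ + (1 + Θ / δ) / 2 ^ L))) +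
      2 * e * (E * (s * 8 ^ K)) := by
    intro t _
    refine (sum_le_sum fun x1 hx1 => H64.S2s (c.hyp hx1 t) he (hW0 x1) (hW x1) c.V0
      (c.fib x1 hx1) (hup x1 hx1) (hal x1 hx1) L sh hδ).trans ?_
    rw [sum_add_distrib, ← mul_sum, ← mul_sum, ← mul_sum]
    refine add_le_add (mul_le_mul_of_nonneg_left (NB_sum c.cls c.l0 c.hv c.V0 c.E0 hδ c.Th L)
      (by positivity)) (mul_le_mul_of_nonneg_left ?_ (by positivity))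
    have hE := c.E0
    refine (mul_le_mul_of_nonneg_left (mass_C c.cls c.hv) (by positivity)).trans (le_of_eq ?_)
    have e8 : (8 : ℝ) ^ K = 2 ^ K * 4 ^ K := by rw [← mul_pow]; norm_num
    rw [e8]
    ring
  refine (sum_le_sum h1).trans (le_of_eq ?_)
  rw [sum_const, nsmul_eq_mul, card_rt]
  ring

/-- the blind sums over the label points -/
theorem Ctx.blind (c : Ctx K x s r P l U g u v v' Al o R κ E sx V Θ al) {e a b : ℝ} (he : 0 ≤ e)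
    (ha : 0 ≤ a) (hb : 0 ≤ b) :
    ∑ x1 ∈ iv K (cx K x).1, e * (a * (2 ^ K * ∑ y ∈ iv K (cx K x).2.2,
        Qf (cJ l K (cx K x).2.1) (uJ K (cx K x).2.1 u x1) (v' x1 y)) +
        b * (V * Th1 l K (cx K x).2.1 u x1 * 4 ^ K)) ≤
      e * (a * (P / (2 * l)) + b * (V / (2 * l))) * (s * 8 ^ K) := by
  have h1 := Q_sumC c.cls c.l0 c.P0 c.hv
  have h2 := Th_sumC c.cls c.l0
  have e1 : ∑ x1 ∈ iv K (cx K x).1, e * (a * (2 ^ K * ∑ y ∈ iv K (cx K x).2.2,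
        Qf (cJ l K (cx K x).2.1) (uJ K (cx K x).2.1 u x1) (v' x1 y)) +
        b * (V * Th1 l K (cx K x).2.1 u x1 * 4 ^ K)) =
      e * (a * 2 ^ K * (∑ x1 ∈ iv K (cx K x).1, ∑ y ∈ iv K (cx K x).2.2,
        Qf (cJ l K (cx K x).2.1) (uJ K (cx K x).2.1 u x1) (v' x1 y)) +
        b * V * 4 ^ K * ∑ x1 ∈ iv K (cx K x).1, Th1 l K (cx K x).2.1 u x1) := by
    rw [mul_sum, mul_sum, ← sum_add_distrib, mul_sum]
    refine sum_congr rfl fun x1 _ => ?_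
    ring
  rw [e1]
  have hV := c.V0
  refine (mul_le_mul_of_nonneg_left (add_le_add
    (mul_le_mul_of_nonneg_left h1 (by positivity))
    (mul_le_mul_of_nonneg_left h2 (by positivity))) he).trans (le_of_eq ?_)
  have e8 : (8 : ℝ) ^ K = 2 ^ K * 4 ^ K := by rw [← mul_pow]; norm_num
  rw [e8]
  have hl := c.l0.ne'
  field_simp

/-- **(S1), blind, every weight, summed.** -/
theorem Ctx.S1tb (c : Ctx K x s r P l U g u v v' Al o R κ E sx V Θ al)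
    {W : ℤ → ℕ → ℤ → ℤ → ℝ} {e : ℝ} (he : 0 ≤ e) (hW0 : ∀ x1 k x0 y, 0 ≤ W x1 k x0 y)
    (hW : ∀ x1, ∀ k ≤ K, ∀ j y, ∑ x0 ∈ iv k j, W x1 k x0 y ≤ e * 2 ^ k)
    (hal : ∀ x1 ∈ iv K (cx K x).1, ∀ y ∈ iv K (cx K x).2.2, ∀ k ≤ K, ¬ al x1 k y →
      ∀ x0, W x1 k x0 y = 0) (L : ℕ) (sh : ℤ) :
    ∑ t ∈ rt (cx K x), ∑ x1 ∈ iv K (cx K x).1, ∑ y ∈ iv K (cx K x).2.2, ∑ k ∈ range (K + 1),
      ∑ x0 ∈ iv K t, W x1 k x0 y *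
        nsq ((Rs (Mc l K (cx K x).2.1 u x1) o x1 (sx x1) K sh k x0 (ix k (y - sh)) -
          Rm (Mc l K (cx K x).2.1 u x1) o x1 (sx x1) K k x0 y) *ᵥ v' x1 y) ≤
      3 * (e * ((48 + 16 * (L : ℝ) ^ 3) * (P / (2 * l)) +
        128 * (((L : ℝ) + 2) ^ 2 + 2) / 2 ^ L * (V / (2 * l))) * (s * 8 ^ K)) := by
  have h1 : ∀ t ∈ rt (cx K x), ∑ x1 ∈ iv K (cx K x).1, ∑ y ∈ iv K (cx K x).2.2,
      ∑ k ∈ range (K + 1), ∑ x0 ∈ iv K t, W x1 k x0 y *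
        nsq ((Rs (Mc l K (cx K x).2.1 u x1) o x1 (sx x1) K sh k x0 (ix k (y - sh)) -
          Rm (Mc l K (cx K x).2.1 u x1) o x1 (sx x1) K k x0 y) *ᵥ v' x1 y) ≤
      e * ((48 + 16 * (L : ℝ) ^ 3) * (P / (2 * l)) +
        128 * (((L : ℝ) + 2) ^ 2 + 2) / 2 ^ L * (V / (2 * l))) * (s * 8 ^ K) := by
    intro t _
    exact (sum_le_sum fun x1 hx1 => S1b c.l0 c.ori (c.s1 x1) he (hW0 x1) (hW x1) c.V0
      (c.fib x1 hx1) (hal x1 hx1) L sh).trans (c.blind he (by positivity) (by positivity))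
  refine (sum_le_sum h1).trans (le_of_eq ?_)
  rw [sum_const, nsmul_eq_mul, card_rt]

/-- **(S2), blind, every weight, summed.** -/
theorem Ctx.S2tb (c : Ctx K x s r P l U g u v v' Al o R κ E sx V Θ al)
    {W : ℤ → ℕ → ℤ → ℤ → ℝ} {e : ℝ} (he : 0 ≤ e) (hW0 : ∀ x1 k x0 y, 0 ≤ W x1 k x0 y)
    (hW : ∀ x1, ∀ k ≤ K, ∀ j y, ∑ x0 ∈ iv k j, W x1 k x0 y ≤ e * 2 ^ k)
    (hup : ∀ x1 ∈ iv K (cx K x).1, ∀ y ∈ iv K (cx K x).2.2, ∀ k < K, al x1 k y →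
      al x1 (k + 1) y)
    (hal : ∀ x1 ∈ iv K (cx K x).1, ∀ y ∈ iv K (cx K x).2.2, ∀ k ≤ K, ¬ al x1 k y →
      ∀ x0, W x1 k x0 y = 0) (L : ℕ) (sh : ℤ) :
    ∑ t ∈ rt (cx K x), ∑ x1 ∈ iv K (cx K x).1, ∑ y ∈ iv K (cx K x).2.2, ∑ k ∈ range K,
      ∑ x0 ∈ iv K t, W x1 k x0 y *
        nsq ((Rs (Mc l K (cx K x).2.1 u x1) o x1 (sx x1) K sh k x0 (ix k (y - sh)) -
          Rs (Mc l K (cx K x).2.1 u x1) o x1 (sx x1) K sh (k + 1) x0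
            (ix (k + 1) (y - sh))) *ᵥ v' x1 y) ≤
      3 * (e * ((386 + 128 * (L : ℝ) ^ 3) * (P / (2 * l)) +
        1024 * (((L : ℝ) + 2) ^ 2 + 2) / 2 ^ L * (V / (2 * l))) * (s * 8 ^ K)) := by
  have h1 : ∀ t ∈ rt (cx K x), ∑ x1 ∈ iv K (cx K x).1, ∑ y ∈ iv K (cx K x).2.2,
      ∑ k ∈ range K, ∑ x0 ∈ iv K t, W x1 k x0 y *
        nsq ((Rs (Mc l K (cx K x).2.1 u x1) o x1 (sx x1) K sh k x0 (ix k (y - sh)) -
          Rs (Mc l K (cx K x).2.1 u x1) o x1 (sx x1) K sh (k + 1) x0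
            (ix (k + 1) (y - sh))) *ᵥ v' x1 y) ≤
      e * ((386 + 128 * (L : ℝ) ^ 3) * (P / (2 * l)) +
        1024 * (((L : ℝ) + 2) ^ 2 + 2) / 2 ^ L * (V / (2 * l))) * (s * 8 ^ K) := by
    intro t _
    exact (sum_le_sum fun x1 hx1 => H876.S2a (s := sx x1) (c.s1 x1) c.ori
      (hX1 c.l0 K u (cx K x).2.1 t x1 (cx K x).2.2) he (hW0 x1) (hW x1) (thH_nonneg _) (thH_le _)
      (hTh1 c.l0 K u (cx K x).2.1 t x1 (cx K x).2.2) c.V0 (c.fib x1 hx1) (hup x1 hx1)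
      (hal x1 hx1) L sh).trans (c.blind he (by positivity) (by positivity))
  refine (sum_le_sum h1).trans (le_of_eq ?_)
  rw [sum_const, nsmul_eq_mul, card_rt]

end tot

end

end Vale.Agent.P141.H841
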