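import Vale.Agent.P141.H841.Far
import Vale.Agent.P141.H210.MoveOff

/-!
# P141, line (A): the moving slot on a shifted grid, part (S3)

* `off_sum` : the moving lemma for the slot itself at displaced cells of `x₃`;
* `end_sum` : the energy of the slot in `x₀`;
* `dev_mov` : the deviation of the shifted slot applied to vectors close to the slot;
* `S3y` : the half differences of the shifted slot applied to the shifted slot.
-/

namespace Vale.Agent.P141.H841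

open Finset Matrix
open Vale.Agent.P141.PL (iv ix hs mem_iv ix_ix card_iv)
open Vale.Agent.P141.H922 (ck iv_iv)
open Vale.Agent.P141.H43 (avv nsq nsq_nonneg)
open Vale.Agent.P141.H420 (Tr)
open Vale.Agent.P141.H483 (mT)
open Vale.Agent.P141.H876 (wn En En_nonneg wt_cell wt_Nn near_root En_th)

noncomputable section

variable {ι : Type*} [Fintype ι]

theorem nsq3 (a b c : ι → ℝ) : nsq (a - b - c) ≤ 3 * nsq a + 3 * nsq b + 3 * nsq c := by
  have h1 := nsq_nonneg (a + b)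
  have h2 := nsq_nonneg (a + c)
  have h3 := nsq_nonneg (b - c)
  rw [H43.nsq_add] at h1 h2
  rw [H43.nsq_sub] at h3
  rw [H43.nsq_sub, H43.nsq_sub, sub_dotProduct]
  linarith

theorem ixle {j k : ℕ} (h : j ≤ k) {x y : ℤ} (e : ix j x = ix j y) : ix k x = ix k y := by
  have h1 : ∀ z : ℤ, ix k z = ix (k - j) (ix j z) := fun z => by
    rw [ix_ix, Nat.add_sub_cancel' h]
  rw [h1, h1, e]

theorem hsix {k : ℕ} {x y : ℤ} (e : ix k x = ix k y) : hs (k + 1) x = hs (k + 1) y := by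
  unfold PL.hs
  rw [Nat.add_sub_cancel, e]

variable {Mx : ℕ → ℤ → Matrix ι ι ℝ} {o x1 T : ℤ} {s : ℕ → ℤ → ℤ → ℝ} {n : ℕ}

omit [Fintype ι] in
theorem Rm_succ {j : ℕ} (hj : j < n) (x0 p : ℤ) :
    Rm Mx o x1 s n j x0 p = Lm Mx o x1 s (j + 1) x0 p + Rm Mx o x1 s n (j + 1) x0 p := by
  unfold Rm
  rw [sum_eq_sum_Ico_succ_bot hj]

omit [Fintype ι] in
theorem Rm_top (x0 p : ℤ) : Rm Mx o x1 s n n x0 p = 0 := by
  unfold Rm
  rw [Ico_self, sum_empty]

omit [Fintype ι] in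
theorem Rm_ix0 {j : ℕ} {x0 z0 : ℤ} (h : ix j x0 = ix j z0) (p : ℤ) :
    Rm Mx o x1 s n j x0 p = Rm Mx o x1 s n j z0 p := by
  unfold Rm
  refine sum_congr rfl fun i hi => ?_
  have hi' := (mem_Ico.1 hi).1
  have a0 := ixle hi' h
  have b0 := ixle (Nat.le_succ i) a0
  unfold Lm
  rw [b0, hsix a0]

/-- the difference of the slot at two times -/
theorem Rm_dif (hs1 : ∀ k a b, |s k a b| ≤ 1) {a b : ℕ} (hab : a ≤ b) (hb : b ≤ n) (x0 p : ℤ)
    (v : ι → ℝ) :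
    nsq (Rm Mx o x1 s n a x0 p *ᵥ v - Rm Mx o x1 s n b x0 p *ᵥ v) ≤
      ((b - a : ℕ) : ℝ) * ∑ j ∈ Ico a b, Nn Mx o x1 (j + 1) x0 p v := by
  have e : Rm Mx o x1 s n a x0 p *ᵥ v - Rm Mx o x1 s n b x0 p *ᵥ v =
      ∑ j ∈ Ico a b, Lm Mx o x1 s (j + 1) x0 p *ᵥ v := by
    unfold Rm
    rw [← sum_Ico_consecutive _ hab hb, add_mulVec, add_sub_cancel_right, Matrix.sum_mulVec]
  rw [e]
  have h1 := nsq_sum_le (Ico a b) (fun _ => (1 : ℝ)) (fun _ _ => one_pos)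
    (fun j => Lm Mx o x1 s (j + 1) x0 p *ᵥ v)
  simp only [inv_one, one_pow, one_mul, sum_const, nsmul_eq_mul, mul_one, Nat.card_Ico] at h1
  refine h1.trans (mul_le_mul_of_nonneg_left (sum_le_sum fun j _ => ?_) (Nat.cast_nonneg _))
  exact Lm_le hs1 _ _ _ _

/-- weighted sums of functions of the cells -/
theorem wt_fun {W : ℤ → ℝ} {e : ℝ} {k : ℕ} (hW0 : ∀ x, 0 ≤ W x)
    (hW : ∀ j, ∑ x ∈ iv k j, W x ≤ e * 2 ^ k) {i : ℕ} (hi : i ≤ n) {f : ℤ → ℝ}
    (hf0 : ∀ x, 0 ≤ f x) (hf : ∀ x z, ix i x = ix i z → f x = f z) :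
    ∑ x0 ∈ iv n T, W x0 * f x0 ≤ e * 2 ^ (k - i) * ∑ x0 ∈ iv n T, f x0 := by
  rw [← iv_iv hi, ← iv_iv hi, mul_sum]
  refine sum_le_sum fun m _ => ?_
  have e1 : ∀ x0 ∈ iv i m, f x0 = f (2 ^ i * m) := by
    intro x0 hx
    rw [mem_iv] at hx
    apply hf
    rw [hx]
    exact (ix_of (by linarith) (by have : (0 : ℤ) < 2 ^ i := by positivity
                                   linarith)).symm
  rw [sum_congr rfl fun x0 hx => by rw [e1 x0 hx], ← sum_mul,
    sum_congr rfl fun x0 hx => e1 x0 hx, sum_const, card_iv, nsmul_eq_mul]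
  refine (mul_le_mul_of_nonneg_right (wt_cell hW0 hW i m) (hf0 _)).trans (le_of_eq ?_)
  push_cast
  ring

/-- the martingale of the slot in `x₀`, cut to the root -/
def Vm (Mx : ℕ → ℤ → Matrix ι ι ℝ) (o x1 : ℤ) (s : ℕ → ℤ → ℤ → ℝ) (n : ℕ) (T y : ℤ) (v : ι → ℝ)
    (j : ℕ) (m : ℤ) : ι → ℝ :=
  if ix (n - j) m = T then Rm Mx o x1 s n j (2 ^ j * m) y *ᵥ v else 0

theorem ix_two' (j : ℕ) (m : ℤ) : ix j (2 ^ j * m) = m :=
  ix_of (by linarith) (by have : (0 : ℤ) < 2 ^ j := by positivity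
                          linarith)

theorem Vm_mart (y : ℤ) (v : ι → ℝ) : H483.Mart n (Vm Mx o x1 s n T y v) := by
  intro j hj m
  have c0 : ix (n - j) (2 * m) = ix (n - (j + 1)) m := by
    have e : n - j = 1 + (n - (j + 1)) := by omega
    rw [e, ← ix_ix 1 (n - (j + 1)) (2 * m)]
    congr 1
    unfold PL.ix
    omega
  have c1 : ix (n - j) (2 * m + 1) = ix (n - (j + 1)) m := by
    have e : n - j = 1 + (n - (j + 1)) := by omega
    rw [e, ← ix_ix 1 (n - (j + 1)) (2 * m + 1)]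
    congr 1
    unfold PL.ix
    omega
  unfold Vm
  rw [c0, c1]
  by_cases hT : ix (n - (j + 1)) m = T
  · rw [if_pos hT, if_pos hT, if_pos hT]
    have d0 : ix j (2 ^ j * (2 * m)) = 2 * m := ix_two' j _
    have d1 : ix j (2 ^ j * (2 * m + 1)) = 2 * m + 1 := ix_two' j _
    have f0 : ix (j + 1) (2 ^ j * (2 * m)) = m := by rw [ix_half, d0]; omega
    have f1 : ix (j + 1) (2 ^ j * (2 * m + 1)) = m := by rw [ix_half, d1]; omega
    have f2 : ix (j + 1) (2 ^ (j + 1) * m) = m := ix_two' _ _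
    have g0 : hs (j + 1) (2 ^ j * (2 * m)) = 1 := by
      unfold PL.hs
      rw [Nat.add_sub_cancel, d0, if_pos (by omega)]
    have g1 : hs (j + 1) (2 ^ j * (2 * m + 1)) = -1 := by
      unfold PL.hs
      rw [Nat.add_sub_cancel, d1, if_neg (by omega)]
    rw [Rm_succ hj, Rm_succ hj, Rm_ix0 (z0 := 2 ^ (j + 1) * m) (f0.trans f2.symm),
      Rm_ix0 (z0 := 2 ^ (j + 1) * m) (f1.trans f2.symm)]
    have e3 : Lm Mx o x1 s (j + 1) (2 ^ j * (2 * m)) y =
        -Lm Mx o x1 s (j + 1) (2 ^ j * (2 * m + 1)) y := by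
      unfold Lm
      rw [f0, f1, g0, g1, ← neg_smul]
      congr 1
      ring
    rw [e3]
    simp only [add_mulVec, neg_mulVec]
    module
  · rw [if_neg hT, if_neg hT, if_neg hT, add_zero, smul_zero]

/-- **The moving lemma for the slot at displaced cells of `x₃`.** -/
theorem off_sum [DecidableEq ι] {l : ℝ} {G K : ℕ → ℤ → Matrix ι ι ℝ} (h : Tr l n G K)
    (hM : ∀ k m a, Mx k m *ᵥ a = mT l K k m a) (ho : o = 1 ∨ o = -1) (y : ℤ) (v : ι → ℝ)
    {r : ℕ} (hr : r ≤ n) (p : ℕ → ℤ)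
    (hp : ∀ j, 1 ≤ j → j + r ≤ n → |ix j (p j) - ix j y| ≤ 2 * 2 ^ r) :
    ∑ j ∈ Icc 1 (n - r), ∑ x0 ∈ iv n T, Nn Mx o x1 j x0 (p j) (Rm Mx o x1 s n j x0 y *ᵥ v) ≤
      10000 * (1 + (r : ℝ)) ^ 2 * ∑ x0 ∈ iv n T, nsq (Rm Mx o x1 s n 0 x0 y *ᵥ v) := by
  set δ : ℕ → ℤ := fun j => if |ix j (p j) - ix j y| ≤ 2 * 2 ^ r then ix j (p j) - ix j y else 0
    with hδ
  have hδ1 : ∀ j, |δ j| ≤ 2 * 2 ^ r := by
    intro j
    simp only [hδ]
    split_ifs with h1
    · exact h1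
    · rw [abs_zero]
      positivity
  have hX : ∀ x, x ∉ iv n T → Vm Mx o x1 s n T y v 0 x = 0 := by
    intro x hx
    rw [mem_iv] at hx
    unfold Vm
    rw [Nat.sub_zero, if_neg hx]
  have key := H210.move_off h ho x1 y (Vm_mart (Mx := Mx) (o := o) (x1 := x1) (s := s) (T := T) y v)
    hX hr hδ1 (fun j => iv (n - j) T)
  have e0 : ∑ x ∈ iv n T, Vm Mx o x1 s n T y v 0 x ⬝ᵥ Vm Mx o x1 s n T y v 0 x =
      ∑ x0 ∈ iv n T, nsq (Rm Mx o x1 s n 0 x0 y *ᵥ v) := by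
    refine sum_congr rfl fun x hx => ?_
    rw [mem_iv] at hx
    unfold Vm
    rw [Nat.sub_zero, if_pos hx, pow_zero, one_mul]
    rfl
  rw [e0] at key
  refine le_trans (le_of_eq (sum_congr rfl fun j hj => ?_)) key
  rw [mem_Icc] at hj
  have hjn : j ≤ n := by omega
  rw [← iv_iv hjn, mul_sum]
  refine sum_congr rfl fun m hm => ?_
  have hm' := mem_iv.1 hm
  have e1 : ∀ x0 ∈ iv j m, Nn Mx o x1 j x0 (p j) (Rm Mx o x1 s n j x0 y *ᵥ v) =
      mT l K j (ck o x1 y j - δ j - m) (Vm Mx o x1 s n T y v j m) ⬝ᵥ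
        mT l K j (ck o x1 y j - δ j - m) (Vm Mx o x1 s n T y v j m) := by
    intro x0 hx
    rw [mem_iv] at hx
    have e2 : δ j = ix j (p j) - ix j y := by
      simp only [hδ]
      rw [if_pos (hp j hj.1 (by omega))]
    have e3 : ck o x1 (p j) j - ix j x0 = ck o x1 y j - δ j - m := by
      unfold H922.ck
      rw [e2, hx]
      ring
    have e4 : Rm Mx o x1 s n j x0 y = Rm Mx o x1 s n j (2 ^ j * m) y :=
      Rm_ix0 (hx.trans (ix_two' j m).symm) y
    unfold Nn Vm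
    rw [e3, e4, if_pos hm', hM]
    rfl
  rw [sum_congr rfl e1, sum_const, card_iv, nsmul_eq_mul]
  push_cast
  ring

/-- **The energy of the slot in `x₀`.** -/
theorem end_sum (hs1 : ∀ k a b, |s k a b| ≤ 1) (ho : o = 1 ∨ o = -1) (y : ℤ) (v : ι → ℝ) :
    ∑ x0 ∈ iv n T, nsq (Rm Mx o x1 s n 0 x0 y *ᵥ v) ≤
      ∑ i ∈ range n, En Mx n T x1 (ix n y) (i + 1) v := by
  have step : ∀ j < n, ∑ x0 ∈ iv n T, nsq (Rm Mx o x1 s n j x0 y *ᵥ v) ≤
      ∑ x0 ∈ iv n T, nsq (Rm Mx o x1 s n (j + 1) x0 y *ᵥ v) + En Mx n T x1 (ix n y) (j + 1) v := by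
    intro j hj
    have e1 : ∀ x0, nsq (Rm Mx o x1 s n j x0 y *ᵥ v) =
        nsq (Rm Mx o x1 s n (j + 1) x0 y *ᵥ v) + nsq (Lm Mx o x1 s (j + 1) x0 y *ᵥ v) +
        hs (j + 1) x0 * (2 * ((Rm Mx o x1 s n (j + 1) x0 y *ᵥ v) ⬝ᵥ
          ((s (j + 1) (ix (j + 1) x0) (ix (j + 1) y) * hs (j + 1) y) •
            (Mx (j + 1) (ck o x1 y (j + 1) - ix (j + 1) x0) *ᵥ v)))) := by
      intro x0
      rw [Rm_succ hj, add_comm (Lm _ _ _ _ _ _ _), add_mulVec, H43.nsq_add]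
      have e2 : Lm Mx o x1 s (j + 1) x0 y *ᵥ v = hs (j + 1) x0 •
          ((s (j + 1) (ix (j + 1) x0) (ix (j + 1) y) * hs (j + 1) y) •
            (Mx (j + 1) (ck o x1 y (j + 1) - ix (j + 1) x0) *ᵥ v)) := by
        unfold Lm
        rw [smul_mulVec, smul_smul]
        congr 1
        ring
      rw [e2, dotProduct_smul, smul_eq_mul]
      ring
    have e3 : ∑ x0 ∈ iv n T, hs (j + 1) x0 * (2 * ((Rm Mx o x1 s n (j + 1) x0 y *ᵥ v) ⬝ᵥ
          ((s (j + 1) (ix (j + 1) x0) (ix (j + 1) y) * hs (j + 1) y) •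
            (Mx (j + 1) (ck o x1 y (j + 1) - ix (j + 1) x0) *ᵥ v)))) = 0 := by
      rw [← iv_iv (Nat.succ_le_of_lt hj)]
      refine sum_eq_zero fun m _ => ?_
      have e4 : ∀ x0 ∈ iv (j + 1) m, hs (j + 1) x0 * (2 * ((Rm Mx o x1 s n (j + 1) x0 y *ᵥ v) ⬝ᵥ
          ((s (j + 1) (ix (j + 1) x0) (ix (j + 1) y) * hs (j + 1) y) •
            (Mx (j + 1) (ck o x1 y (j + 1) - ix (j + 1) x0) *ᵥ v)))) =
          hs (j + 1) x0 * (2 * ((Rm Mx o x1 s n (j + 1) (2 ^ (j + 1) * m) y *ᵥ v) ⬝ᵥ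
          ((s (j + 1) m (ix (j + 1) y) * hs (j + 1) y) •
            (Mx (j + 1) (ck o x1 y (j + 1) - m) *ᵥ v)))) := by
        intro x0 hx
        rw [mem_iv] at hx
        rw [Rm_ix0 (hx.trans (ix_two' (j + 1) m).symm), hx]
      rw [sum_congr rfl e4, ← sum_mul, H922.iv_succ_sum]
      have a1 : ∑ x ∈ iv j (2 * m), hs (j + 1) x = 2 ^ j := by
        have : ∀ x ∈ iv j (2 * m), hs (j + 1) x = 1 := by
          intro x hx
          rw [mem_iv] at hx
          unfold PL.hs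
          rw [Nat.add_sub_cancel, hx, if_pos (by omega)]
        rw [sum_congr rfl this, sum_const, card_iv, nsmul_eq_mul]
        push_cast
        ring
      have a2 : ∑ x ∈ iv j (2 * m + 1), hs (j + 1) x = -2 ^ j := by
        have : ∀ x ∈ iv j (2 * m + 1), hs (j + 1) x = -1 := by
          intro x hx
          rw [mem_iv] at hx
          unfold PL.hs
          rw [Nat.add_sub_cancel, hx, if_neg (by omega)]
        rw [sum_congr rfl this, sum_const, card_iv, nsmul_eq_mul]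
        push_cast
        ring
      rw [a1, a2]
      ring
    rw [sum_congr rfl fun x0 _ => e1 x0, sum_add_distrib, sum_add_distrib, e3, add_zero]
    refine add_le_add le_rfl ?_
    have h1 := wt_Nn (n := n) (Mx := Mx) (x1 := x1) (T := T) (M3 := ix n y) ho (W := fun _ => 1) (e := 1)
      (k := 0) (fun _ => zero_le_one) (fun j => by simp) (i := j + 1) (by omega) (p := y)
      (by omega) (by omega) v
    rw [Nat.zero_sub, pow_zero, one_mul, one_mul] at h1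
    refine le_trans (sum_le_sum fun x0 _ => ?_) h1
    rw [one_mul]
    exact Lm_le hs1 _ _ _ _
  have all : ∀ d ≤ n, ∑ x0 ∈ iv n T, nsq (Rm Mx o x1 s n (n - d) x0 y *ᵥ v) ≤
      ∑ i ∈ Ico (n - d) n, En Mx n T x1 (ix n y) (i + 1) v := by
    intro d
    induction d with
    | zero =>
      intro _
      rw [Nat.sub_zero, Ico_self, sum_empty]
      refine le_of_eq (sum_eq_zero fun x0 _ => ?_)
      rw [Rm_top, zero_mulVec, nsq_zero]
    | succ d ih =>
      intro hd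
      have h1 := ih (by omega)
      have e : n - d = n - (d + 1) + 1 := by omega
      have h2 := step (n - (d + 1)) (by omega)
      rw [← e] at h2
      rw [sum_eq_sum_Ico_succ_bot (by omega : n - (d + 1) < n), ← e]
      linarith
  have := all n le_rfl
  rwa [Nat.sub_self, ← range_eq_Ico] at this

/-- the positions of the ends of the shifted cell -/
theorem st_off (sh : ℤ) {j k : ℕ} (r : ℕ) (hk : k ≤ j + r) (y : ℤ) :
    |ix j (st sh k y) - ix j y| ≤ 2 * 2 ^ r ∧ |ix j (st sh k y + 2 ^ k) - ix j y| ≤ 2 * 2 ^ r := by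
  obtain ⟨t1, t2⟩ := st_bd sh k y
  have hle : (2 : ℤ) ^ k ≤ 2 ^ (j + r) := pow_le_pow_right₀ (by norm_num) hk
  have hp : (0 : ℤ) < 2 ^ j := by positivity
  have hq : (0 : ℤ) < 2 ^ r := by positivity
  have e : (2 : ℤ) ^ (j + r) = 2 ^ j * 2 ^ r := pow_add _ _ _
  rw [e] at hle
  have gen : ∀ z : ℤ, y - 2 ^ k ≤ z → z ≤ y + 2 ^ k → |ix j z - ix j y| ≤ 2 * 2 ^ r := by
    intro z h1 h2
    obtain ⟨a1, a2⟩ := ix_bd j z
    obtain ⟨b1, b2⟩ := ix_bd j y
    rw [abs_le]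
    constructor
    · by_contra h
      have h3 : ix j z + 2 ^ r + 1 ≤ ix j y := by linarith
      have h4 := mul_le_mul_of_nonneg_left h3 hp.le
      have h5 : (2 : ℤ) ^ j * (ix j z + 2 ^ r + 1) = 2 ^ j * ix j z + 2 ^ j * 2 ^ r + 2 ^ j := by ring
      linarith
    · by_contra h
      have h3 : ix j y + 2 ^ r + 1 ≤ ix j z := by linarith
      have h4 := mul_le_mul_of_nonneg_left h3 hp.le
      have h5 : (2 : ℤ) ^ j * (ix j y + 2 ^ r + 1) = 2 ^ j * ix j y + 2 ^ j * 2 ^ r + 2 ^ j := by ring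
      linarith
  have h0 : (0 : ℤ) < 2 ^ k := by positivity
  exact ⟨gen _ (by linarith) (by linarith), gen _ (by linarith) (by linarith)⟩

/-- the sum of the near terms with the slot itself -/
theorem near_mov [DecidableEq ι] {l : ℝ} {G K : ℕ → ℤ → Matrix ι ι ℝ} (h : Tr l n G K)
    (hM : ∀ k m a, Mx k m *ᵥ a = mT l K k m a) (ho : o = 1 ∨ o = -1) (sh y : ℤ) (v : ι → ℝ)
    (L : ℕ) :
    ∑ k ∈ range (n + 1), ∑ i ∈ range n, (if i + 1 ≤ k + L then om sh k i y * 2 ^ (k - (i + 1)) *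
      ∑ x0 ∈ iv n T, (Nn Mx o x1 (i + 1) x0 (st sh k y) (Rm Mx o x1 s n (i + 1) x0 y *ᵥ v) +
        Nn Mx o x1 (i + 1) x0 (st sh k y + 2 ^ k) (Rm Mx o x1 s n (i + 1) x0 y *ᵥ v)) else 0) ≤
      (600 + 8 * (L : ℝ) ^ 3) *
        (20000 * ∑ x0 ∈ iv n T, nsq (Rm Mx o x1 s n 0 x0 y *ᵥ v)) := by
  set E0 := ∑ x0 ∈ iv n T, nsq (Rm Mx o x1 s n 0 x0 y *ᵥ v) with hE0
  have hE : 0 ≤ E0 := sum_nonneg fun _ _ => nsq_nonneg _
  refine H690.near_diag n L sh y (F := fun k i => ∑ x0 ∈ iv n T,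
    (Nn Mx o x1 (i + 1) x0 (st sh k y) (Rm Mx o x1 s n (i + 1) x0 y *ᵥ v) +
      Nn Mx o x1 (i + 1) x0 (st sh k y + 2 ^ k) (Rm Mx o x1 s n (i + 1) x0 y *ᵥ v)))
    (fun k i => sum_nonneg fun _ _ => add_nonneg (Nn_nonneg _ _ _ _ _ _ _)
      (Nn_nonneg _ _ _ _ _ _ _)) (by positivity) (fun r hr => ?_) fun d hd1 _ => ?_
  · have e1 : ∑ i ∈ range (n - r), ∑ x0 ∈ iv n T,
        (Nn Mx o x1 (i + 1) x0 (st sh (i + 1 + r) y) (Rm Mx o x1 s n (i + 1) x0 y *ᵥ v) +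
        Nn Mx o x1 (i + 1) x0 (st sh (i + 1 + r) y + 2 ^ (i + 1 + r))
          (Rm Mx o x1 s n (i + 1) x0 y *ᵥ v)) =
        ∑ j ∈ Icc 1 (n - r), ∑ x0 ∈ iv n T,
          Nn Mx o x1 j x0 (st sh (j + r) y) (Rm Mx o x1 s n j x0 y *ᵥ v) +
        ∑ j ∈ Icc 1 (n - r), ∑ x0 ∈ iv n T,
          Nn Mx o x1 j x0 (st sh (j + r) y + 2 ^ (j + r)) (Rm Mx o x1 s n j x0 y *ᵥ v) := by
      simp only [sum_add_distrib]
      congr 1
      · rw [range_eq_Ico, sum_Ico_add' (fun j => ∑ x0 ∈ iv n T,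
          Nn Mx o x1 j x0 (st sh (j + r) y) (Rm Mx o x1 s n j x0 y *ᵥ v)) 0 (n - r) 1]
        rfl
      · rw [range_eq_Ico, sum_Ico_add' (fun j => ∑ x0 ∈ iv n T,
          Nn Mx o x1 j x0 (st sh (j + r) y + 2 ^ (j + r)) (Rm Mx o x1 s n j x0 y *ᵥ v)) 0 (n - r) 1]
        rfl
    rw [e1]
    have a1 := off_sum (s := s) (x1 := x1) (T := T) h hM ho y v hr.le (fun j => st sh (j + r) y)
      fun j _ _ => (st_off sh (j := j) r le_rfl y).1
    have a2 := off_sum (s := s) (x1 := x1) (T := T) h hM ho y v hr.le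
      (fun j => st sh (j + r) y + 2 ^ (j + r)) fun j _ _ => (st_off sh (j := j) r le_rfl y).2
    refine (add_le_add a1 a2).trans (le_of_eq ?_)
    rw [hE0]
    ring
  · have sub : ∀ f : ℕ → ℕ → ℝ, (∀ k j, 0 ≤ f k j) →
        ∑ k ∈ range (n + 1 - d), f k (k + d - 1 + 1) ≤ ∑ j ∈ Icc 1 (n - 0), f (j - d) j := by
      intro f hf
      have e2 : ∑ k ∈ range (n + 1 - d), f k (k + d - 1 + 1) =
          ∑ j ∈ (range (n + 1 - d)).image (fun k => k + d), f (j - d) j := by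
        rw [sum_image (by intro a _ b _ hab; simpa using hab)]
        refine sum_congr rfl fun k _ => ?_
        have e3 : k + d - 1 + 1 = k + d := by omega
        rw [e3, Nat.add_sub_cancel]
      rw [e2]
      refine sum_le_sum_of_subset_of_nonneg (fun j hj => ?_) fun j _ _ => hf _ _
      obtain ⟨k, hk, rfl⟩ := mem_image.1 hj
      rw [mem_range] at hk
      rw [mem_Icc]
      omega
    simp only [sum_add_distrib]
    have b1 := sub (fun k j => ∑ x0 ∈ iv n T,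
      Nn Mx o x1 j x0 (st sh k y) (Rm Mx o x1 s n j x0 y *ᵥ v))
      fun _ _ => sum_nonneg fun _ _ => Nn_nonneg _ _ _ _ _ _ _
    have b2 := sub (fun k j => ∑ x0 ∈ iv n T,
      Nn Mx o x1 j x0 (st sh k y + 2 ^ k) (Rm Mx o x1 s n j x0 y *ᵥ v))
      fun _ _ => sum_nonneg fun _ _ => Nn_nonneg _ _ _ _ _ _ _
    have a1 := off_sum (s := s) (x1 := x1) (T := T) h hM ho y v (Nat.zero_le n)
      (fun j => st sh (j - d) y) fun j _ _ => (st_off sh (j := j) 0 (by omega) y).1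
    have a2 := off_sum (s := s) (x1 := x1) (T := T) h hM ho y v (Nat.zero_le n)
      (fun j => st sh (j - d) y + 2 ^ (j - d)) fun j _ _ => (st_off sh (j := j) 0 (by omega) y).2
    simp only [Nat.cast_zero, add_zero, one_pow, mul_one] at a1 a2
    have c1 := b1.trans a1
    have c2 := b2.trans a2
    rw [← hE0] at c1 c2
    linarith

open scoped Classical in
/-- the far part at the living scales, one shift -/
def fr (n L : ℕ) (b : ℕ → ℝ) (al : ℕ → Prop) (sh y : ℤ) : ℝ :=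
  ∑ k ∈ range (n + 1), ∑ i ∈ range n, if al k ∧ k + L ≤ i then om sh k i y * b i else 0

theorem fr_nonneg (n L : ℕ) {b : ℕ → ℝ} (hb : ∀ i, 0 ≤ b i) (al : ℕ → Prop) (sh y : ℤ) :
    0 ≤ fr n L b al sh y := by
  refine sum_nonneg fun k _ => sum_nonneg fun i _ => ?_
  split_ifs
  · exact mul_nonneg (om_nonneg _ _ _ _) (hb i)
  · exact le_rfl

theorem fr_mono (n L : ℕ) {b : ℕ → ℝ} (hb : ∀ i, 0 ≤ b i) {al al' : ℕ → Prop}
    (h : ∀ k, al k → al' k) (sh y : ℤ) : fr n L b al sh y ≤ fr n L b al' sh y := by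
  refine sum_le_sum fun k _ => sum_le_sum fun i _ => ?_
  by_cases h1 : al k ∧ k + L ≤ i
  · rw [if_pos h1, if_pos ⟨h k h1.1, h1.2⟩]
  · rw [if_neg h1]
    split_ifs
    · exact mul_nonneg (om_nonneg _ _ _ _) (hb i)
    · exact le_rfl

/-- all scales -/
theorem fr_le_far (n L : ℕ) {b : ℕ → ℝ} (hb : ∀ i, 0 ≤ b i) (al : ℕ → Prop) (sh y : ℤ) :
    fr n L b al sh y ≤ far n L b y := by
  refine le_trans ?_ (far_om n L sh hb y)
  unfold fr
  refine sum_le_sum fun k _ => sum_le_sum fun i _ => ?_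
  by_cases h1 : al k ∧ k + L ≤ i
  · rw [if_pos h1, if_pos h1.2]
  · rw [if_neg h1]
    split_ifs
    · exact mul_nonneg (om_nonneg _ _ _ _) (hb i)
    · exact le_rfl

open scoped Classical in
/-- **The deviation of the shifted slot on vectors close to the slot.** -/
theorem dev_mov [DecidableEq ι] {l : ℝ} {G K : ℕ → ℤ → Matrix ι ι ℝ} (h : Tr l n G K)
    (hM : ∀ k m a, Mx k m *ᵥ a = mT l K k m a) (ho : o = 1 ∨ o = -1)
    (hs1 : ∀ k a b, |s k a b| ≤ 1) {W : ℕ → ℤ → ℝ} {e : ℝ} (he : 0 ≤ e)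
    (hW0 : ∀ k x0, 0 ≤ W k x0) (hW : ∀ k ≤ n, ∀ j, ∑ x0 ∈ iv k j, W k x0 ≤ e * 2 ^ k)
    {θ : ℕ → ℤ → ℝ} (hθ0 : ∀ k m, 0 ≤ θ k m)
    (hθ : ∀ k m a, nsq (Mx k m *ᵥ a) ≤ θ k m * nsq a) (sh y : ℤ) (v : ι → ℝ)
    (w : ℕ → ℤ → ι → ℝ) {κ : ℝ} (hκ0 : 0 ≤ κ) (hw : ∀ k x0, nsq (w k x0) ≤ κ) (L : ℕ)
    {al : ℕ → Prop} (hal : ∀ k, ¬ al k → ∀ x0, W k x0 = 0) :
    ∑ k ∈ range (n + 1), ∑ x0 ∈ iv n T, W k x0 *
        nsq ((Rs Mx o x1 s n sh k x0 (ix k (y - sh)) - Rm Mx o x1 s n k x0 y) *ᵥ w k x0) ≤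
      e * (3 * ((600 + 8 * (L : ℝ) ^ 3) * 20000 * ∑ i ∈ range n, En Mx n T x1 (ix n y) (i + 1) v) +
        6 * ((600 + 8 * (L : ℝ) ^ 5) * ∑ i ∈ range n, En Mx n T x1 (ix n y) (i + 1) v) +
        2 * (κ * fr n L (ep θ n T x1 (ix n y)) al sh y)) +
      6 * ((8 + 8 * (L : ℝ) ^ 3) * ∑ k ∈ range (n + 1), ∑ x0 ∈ iv n T, W k x0 *
        nsq (Rm Mx o x1 s n k x0 y *ᵥ v - w k x0)) := by
  set M3 := ix n y with hM3
  set V : ℕ → ℤ → ι → ℝ := fun k x0 => Rm Mx o x1 s n k x0 y *ᵥ v with hV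
  set A : ℕ → ℕ → ℤ → ℝ := fun k i x0 => Nn Mx o x1 (i + 1) x0 (st sh k y) (V (i + 1) x0) +
    Nn Mx o x1 (i + 1) x0 (st sh k y + 2 ^ k) (V (i + 1) x0) with hA
  have hA0 : ∀ k i x0, 0 ≤ A k i x0 := fun _ _ _ =>
    add_nonneg (Nn_nonneg _ _ _ _ _ _ _) (Nn_nonneg _ _ _ _ _ _ _)
  have hC : ∀ i < n, ∀ (m : ℤ) (a : ι → ℝ), nsq (Mx (i + 1) m *ᵥ a) ≤ nsq a := by
    intro i hi m a
    rw [hM]
    exact H483.mT_le h hi m a
  -- one layer, near
  have near1 : ∀ k i x0 p, i < n → Nn Mx o x1 (i + 1) x0 p (w k x0) ≤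
      3 * Nn Mx o x1 (i + 1) x0 p (V (i + 1) x0) + 3 * nsq (V (i + 1) x0 - V k x0) +
        3 * nsq (V k x0 - w k x0) := by
    intro k i x0 p hi
    have e1 : Mx (i + 1) (ck o x1 p (i + 1) - ix (i + 1) x0) *ᵥ w k x0 =
        Mx (i + 1) (ck o x1 p (i + 1) - ix (i + 1) x0) *ᵥ V (i + 1) x0 -
        Mx (i + 1) (ck o x1 p (i + 1) - ix (i + 1) x0) *ᵥ (V (i + 1) x0 - V k x0) -
        Mx (i + 1) (ck o x1 p (i + 1) - ix (i + 1) x0) *ᵥ (V k x0 - w k x0) := by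
      rw [← mulVec_sub, ← mulVec_sub]
      congr 1
      abel
    unfold Nn
    rw [e1]
    have h1 := nsq3 (Mx (i + 1) (ck o x1 p (i + 1) - ix (i + 1) x0) *ᵥ V (i + 1) x0)
      (Mx (i + 1) (ck o x1 p (i + 1) - ix (i + 1) x0) *ᵥ (V (i + 1) x0 - V k x0))
      (Mx (i + 1) (ck o x1 p (i + 1) - ix (i + 1) x0) *ᵥ (V k x0 - w k x0))
    have h2 := hC i hi (ck o x1 p (i + 1) - ix (i + 1) x0) (V (i + 1) x0 - V k x0)
    have h3 := hC i hi (ck o x1 p (i + 1) - ix (i + 1) x0) (V k x0 - w k x0)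
    linarith
  -- the far part, weights
  have hroot : ∀ k ≤ n, (M3 - 1 ≤ ix n (st sh k y) ∧ ix n (st sh k y) ≤ M3 + 1) ∧
      (M3 - 1 ≤ ix n (st sh k y + 2 ^ k) ∧ ix n (st sh k y + 2 ^ k) ≤ M3 + 1) := by
    intro k hk
    obtain ⟨t1, t2⟩ := st_bd sh k y
    have h0 : (0 : ℤ) < 2 ^ k := by positivity
    exact ⟨near_root hk (by linarith) (by linarith), near_root hk (by linarith) (by linarith)⟩
  have far1 : ∀ k ≤ n, ∀ i < n, k ≤ i → ∀ p, M3 - 1 ≤ ix n p → ix n p ≤ M3 + 1 →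
      ∑ x0 ∈ iv n T, W k x0 * Nn Mx o x1 (i + 1) x0 p (w k x0) ≤
        e * (κ * ep θ n T x1 M3 i) := by
    intro k hk i hi hki p hp1 hp2
    have h1 := wt_fun (n := n) (T := T) (hW0 k) (hW k hk) (i := i + 1) (by omega)
      (f := fun x0 => κ * θ (i + 1) (ck o x1 p (i + 1) - ix (i + 1) x0))
      (fun x0 => mul_nonneg hκ0 (hθ0 _ _)) (fun x z hxz => by simp only [hxz])
    have e2 : k - (i + 1) = 0 := by omega
    rw [e2, pow_zero, mul_one] at h1
    refine (sum_le_sum fun x0 _ => mul_le_mul_of_nonneg_left ?_ (hW0 k x0)).trans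
      (h1.trans (mul_le_mul_of_nonneg_left ?_ he))
    · unfold Nn
      refine (hθ _ _ _).trans ?_
      rw [mul_comm κ]
      exact mul_le_mul_of_nonneg_left (hw k x0) (hθ0 _ _)
    · rw [← mul_sum]
      refine mul_le_mul_of_nonneg_left ?_ hκ0
      unfold ep
      rw [← iv_iv (show i + 1 ≤ n by omega)]
      have e3 : ∀ m ∈ iv (n - (i + 1)) T, ∑ x0 ∈ iv (i + 1) m,
          θ (i + 1) (ck o x1 p (i + 1) - ix (i + 1) x0) =
          2 ^ (i + 1) * θ (i + 1) (ck o x1 p (i + 1) - m) := by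
        intro m _
        have : ∀ x0 ∈ iv (i + 1) m, θ (i + 1) (ck o x1 p (i + 1) - ix (i + 1) x0) =
            θ (i + 1) (ck o x1 p (i + 1) - m) := by
          intro x0 hx
          rw [mem_iv] at hx
          rw [hx]
        rw [sum_congr rfl this, sum_const, card_iv, nsmul_eq_mul]
        push_cast
        ring
      rw [sum_congr rfl e3, ← mul_sum]
      refine mul_le_mul_of_nonneg_left ?_ (by positivity)
      rw [H922.biU_sum]
      have e4 : ∑ m ∈ iv (n - (i + 1)) T, θ (i + 1) (ck o x1 p (i + 1) - m) =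
          ∑ q ∈ (iv (n - (i + 1)) T).image (fun m => ck o x1 p (i + 1) - m), θ (i + 1) q := by
        rw [sum_image]
        intro a _ b _ hab
        simpa using hab
      rw [e4]
      refine sum_le_sum_of_subset_of_nonneg (fun q hq => ?_) fun q _ _ => hθ0 _ _
      obtain ⟨m, hm, rfl⟩ := mem_image.1 hq
      rw [mem_biUnion]
      exact ⟨_, H876.tie_mem ho (by omega) hp1 hp2 hm, mem_iv.2 rfl⟩
  -- the difference of two times, weights
  have lay1 : ∀ k ≤ n, ∀ i < n, ∑ x0 ∈ iv n T, W k x0 * nsq (V (i + 1) x0 - V k x0) ≤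
      e * (if i < k then ((k - i - 1 : ℕ) : ℝ) * 2 ^ (k - i - 1) *
          ∑ j ∈ Ico (i + 1) k, En Mx n T x1 M3 (j + 1) v
        else ((i + 1 - k : ℕ) : ℝ) * ∑ j ∈ Ico k (i + 1), En Mx n T x1 M3 (j + 1) v) := by
    intro k hk i hi
    have wt : ∀ j < n, ∑ x0 ∈ iv n T, W k x0 * Nn Mx o x1 (j + 1) x0 y v ≤
        e * 2 ^ (k - (j + 1)) * En Mx n T x1 M3 (j + 1) v := by
      intro j hj
      exact wt_Nn (n := n) (Mx := Mx) (x1 := x1) (T := T) (M3 := M3) ho (hW0 k) (hW k hk)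
        (i := j + 1) (by omega) (p := y) (by omega) (by omega) v
    by_cases hik : i < k
    · rw [if_pos hik]
      have h1 : ∀ x0, nsq (V (i + 1) x0 - V k x0) ≤ ((k - (i + 1) : ℕ) : ℝ) *
          ∑ j ∈ Ico (i + 1) k, Nn Mx o x1 (j + 1) x0 y v := fun x0 =>
        Rm_dif hs1 (by omega) hk x0 y v
      refine (sum_le_sum fun x0 _ => mul_le_mul_of_nonneg_left (h1 x0) (hW0 k x0)).trans ?_
      have e1 : ∑ x0 ∈ iv n T, W k x0 * (((k - (i + 1) : ℕ) : ℝ) *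
          ∑ j ∈ Ico (i + 1) k, Nn Mx o x1 (j + 1) x0 y v) = ((k - (i + 1) : ℕ) : ℝ) *
          ∑ j ∈ Ico (i + 1) k, ∑ x0 ∈ iv n T, W k x0 * Nn Mx o x1 (j + 1) x0 y v := by
        rw [sum_comm, mul_sum]
        refine sum_congr rfl fun x0 _ => ?_
        rw [← mul_sum]
        ring
      rw [e1]
      have e2 : k - i - 1 = k - (i + 1) := by omega
      rw [e2]
      have h2 : ∑ j ∈ Ico (i + 1) k, ∑ x0 ∈ iv n T, W k x0 * Nn Mx o x1 (j + 1) x0 y v ≤
          ∑ j ∈ Ico (i + 1) k, e * 2 ^ (k - (i + 1)) * En Mx n T x1 M3 (j + 1) v := by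
        refine sum_le_sum fun j hj => ?_
        rw [mem_Ico] at hj
        refine (wt j (by omega)).trans (mul_le_mul_of_nonneg_right
          (mul_le_mul_of_nonneg_left ?_ he) (En_nonneg _ _))
        exact pow_le_pow_right₀ (by norm_num) (by omega)
      refine (mul_le_mul_of_nonneg_left h2 (Nat.cast_nonneg _)).trans (le_of_eq ?_)
      rw [← mul_sum]
      ring
    · rw [if_neg hik]
      have h1 : ∀ x0, nsq (V (i + 1) x0 - V k x0) ≤ ((i + 1 - k : ℕ) : ℝ) *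
          ∑ j ∈ Ico k (i + 1), Nn Mx o x1 (j + 1) x0 y v := fun x0 => by
        have h3 := Rm_dif (Mx := Mx) (o := o) (x1 := x1) hs1 (show k ≤ i + 1 by omega)
          (show i + 1 ≤ n by omega) x0 y v
        have e3 : V (i + 1) x0 - V k x0 = -(V k x0 - V (i + 1) x0) := by abel
        have e4 : nsq (-(V k x0 - V (i + 1) x0)) = nsq (V k x0 - V (i + 1) x0) := by
          unfold H43.nsq
          rw [neg_dotProduct_neg]
        rw [e3, e4]
        exact h3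
      refine (sum_le_sum fun x0 _ => mul_le_mul_of_nonneg_left (h1 x0) (hW0 k x0)).trans ?_
      have e1 : ∑ x0 ∈ iv n T, W k x0 * (((i + 1 - k : ℕ) : ℝ) *
          ∑ j ∈ Ico k (i + 1), Nn Mx o x1 (j + 1) x0 y v) = ((i + 1 - k : ℕ) : ℝ) *
          ∑ j ∈ Ico k (i + 1), ∑ x0 ∈ iv n T, W k x0 * Nn Mx o x1 (j + 1) x0 y v := by
        rw [sum_comm, mul_sum]
        refine sum_congr rfl fun x0 _ => ?_
        rw [← mul_sum]
        ring
      rw [e1]
      have h2 : ∑ j ∈ Ico k (i + 1), ∑ x0 ∈ iv n T, W k x0 * Nn Mx o x1 (j + 1) x0 y v ≤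
          ∑ j ∈ Ico k (i + 1), e * En Mx n T x1 M3 (j + 1) v := by
        refine sum_le_sum fun j hj => ?_
        rw [mem_Ico] at hj
        have h4 := wt j (by omega)
        have e5 : k - (j + 1) = 0 := by omega
        rwa [e5, pow_zero, mul_one] at h4
      refine (mul_le_mul_of_nonneg_left h2 (Nat.cast_nonneg _)).trans (le_of_eq ?_)
      rw [← mul_sum]
      ring
  -- the slot itself, weights
  have mov1 : ∀ k ≤ n, ∀ i < n, ∑ x0 ∈ iv n T, W k x0 * A k i x0 ≤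
      e * 2 ^ (k - (i + 1)) * ∑ x0 ∈ iv n T, A k i x0 := by
    intro k hk i hi
    refine wt_fun (n := n) (T := T) (hW0 k) (hW k hk) (i := i + 1) (by omega)
      (f := fun x0 => A k i x0) (fun x0 => hA0 k i x0) fun x z hxz => ?_
    simp only [hA, hV]
    unfold Nn
    rw [hxz, Rm_ix0 hxz]
  -- one scale
  have scale' : ∀ k ∈ range (n + 1), al k → ∑ x0 ∈ iv n T, W k x0 *
      nsq ((Rs Mx o x1 s n sh k x0 (ix k (y - sh)) - Rm Mx o x1 s n k x0 y) *ᵥ w k x0) ≤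
      3 * (e * ∑ i ∈ range n, (if i + 1 ≤ k + L then om sh k i y * 2 ^ (k - (i + 1)) *
        ∑ x0 ∈ iv n T, A k i x0 else 0)) +
      6 * (e * ∑ i ∈ range n, (if i + 1 ≤ k + L then om sh k i y *
        (if i < k then ((k - i - 1 : ℕ) : ℝ) * 2 ^ (k - i - 1) *
          ∑ j ∈ Ico (i + 1) k, En Mx n T x1 M3 (j + 1) v
        else ((i + 1 - k : ℕ) : ℝ) * ∑ j ∈ Ico k (i + 1), En Mx n T x1 M3 (j + 1) v) else 0)) +
      6 * ((∑ i ∈ range n, (if i + 1 ≤ k + L then om sh k i y else 0)) *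
        ∑ x0 ∈ iv n T, W k x0 * nsq (V k x0 - w k x0)) +
      2 * (e * (κ * ∑ i ∈ range n, (if k + L ≤ i then om sh k i y * ep θ n T x1 M3 i else 0))) := by
    intro k hk _
    rw [mem_range] at hk
    have hkn : k ≤ n := by omega
    have e1 : ∀ x0 ∈ iv n T, W k x0 *
        nsq ((Rs Mx o x1 s n sh k x0 (ix k (y - sh)) - Rm Mx o x1 s n k x0 y) *ᵥ w k x0) ≤
        ∑ i ∈ range n, om sh k i y * (W k x0 * Nn Mx o x1 (i + 1) x0 (st sh k y) (w k x0) +
          W k x0 * Nn Mx o x1 (i + 1) x0 (st sh k y + 2 ^ k) (w k x0)) := by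
      intro x0 _
      refine (mul_le_mul_of_nonneg_left (dev_le hs1 n sh hkn x0 y (w k x0))
        (hW0 k x0)).trans (le_of_eq ?_)
      rw [mul_sum]
      exact sum_congr rfl fun i _ => by ring
    refine (sum_le_sum e1).trans ?_
    rw [sum_comm]
    have e2 : ∀ i ∈ range n, ∑ x0 ∈ iv n T, om sh k i y *
        (W k x0 * Nn Mx o x1 (i + 1) x0 (st sh k y) (w k x0) +
          W k x0 * Nn Mx o x1 (i + 1) x0 (st sh k y + 2 ^ k) (w k x0)) ≤
        3 * (e * (if i + 1 ≤ k + L then om sh k i y * 2 ^ (k - (i + 1)) *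
          ∑ x0 ∈ iv n T, A k i x0 else 0)) +
        6 * (e * (if i + 1 ≤ k + L then om sh k i y *
          (if i < k then ((k - i - 1 : ℕ) : ℝ) * 2 ^ (k - i - 1) *
            ∑ j ∈ Ico (i + 1) k, En Mx n T x1 M3 (j + 1) v
          else ((i + 1 - k : ℕ) : ℝ) * ∑ j ∈ Ico k (i + 1), En Mx n T x1 M3 (j + 1) v) else 0)) +
        6 * ((if i + 1 ≤ k + L then om sh k i y else 0) *
          ∑ x0 ∈ iv n T, W k x0 * nsq (V k x0 - w k x0)) +
        2 * (e * (κ * (if k + L ≤ i then om sh k i y * ep θ n T x1 M3 i else 0))) := by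
      intro i hi
      rw [mem_range] at hi
      have om0 := om_nonneg sh k i y
      rw [← mul_sum, sum_add_distrib]
      by_cases hn : i + 1 ≤ k + L
      · rw [if_pos hn, if_pos hn, if_pos hn, if_neg (show ¬ k + L ≤ i by omega)]
        have g1 : ∑ x0 ∈ iv n T, W k x0 * Nn Mx o x1 (i + 1) x0 (st sh k y) (w k x0) +
            ∑ x0 ∈ iv n T, W k x0 * Nn Mx o x1 (i + 1) x0 (st sh k y + 2 ^ k) (w k x0) ≤
            3 * ∑ x0 ∈ iv n T, W k x0 * A k i x0 +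
            6 * ∑ x0 ∈ iv n T, W k x0 * nsq (V (i + 1) x0 - V k x0) +
            6 * ∑ x0 ∈ iv n T, W k x0 * nsq (V k x0 - w k x0) := by
          rw [mul_sum, mul_sum, mul_sum, ← sum_add_distrib, ← sum_add_distrib, ← sum_add_distrib]
          refine sum_le_sum fun x0 _ => ?_
          have n1 := mul_le_mul_of_nonneg_left (near1 k i x0 (st sh k y) hi) (hW0 k x0)
          have n2 := mul_le_mul_of_nonneg_left (near1 k i x0 (st sh k y + 2 ^ k) hi) (hW0 k x0)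
          simp only [hA]
          linarith
        have g2 := mov1 k hkn i hi
        have g3 := lay1 k hkn i hi
        have g4 : 3 * ∑ x0 ∈ iv n T, W k x0 * A k i x0 +
            6 * ∑ x0 ∈ iv n T, W k x0 * nsq (V (i + 1) x0 - V k x0) +
            6 * ∑ x0 ∈ iv n T, W k x0 * nsq (V k x0 - w k x0) ≤
            3 * (e * 2 ^ (k - (i + 1)) * ∑ x0 ∈ iv n T, A k i x0) +
            6 * (e * (if i < k then ((k - i - 1 : ℕ) : ℝ) * 2 ^ (k - i - 1) *
              ∑ j ∈ Ico (i + 1) k, En Mx n T x1 M3 (j + 1) v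
              else ((i + 1 - k : ℕ) : ℝ) * ∑ j ∈ Ico k (i + 1), En Mx n T x1 M3 (j + 1) v)) +
            6 * ∑ x0 ∈ iv n T, W k x0 * nsq (V k x0 - w k x0) := by
          linarith
        refine (mul_le_mul_of_nonneg_left (g1.trans g4) om0).trans (le_of_eq ?_)
        ring
      · rw [if_neg hn, if_neg hn, if_neg hn, if_pos (show k + L ≤ i by omega)]
        obtain ⟨r1, r2⟩ := hroot k hkn
        have f1 := far1 k hkn i hi (by omega) (st sh k y) r1.1 r1.2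
        have f2 := far1 k hkn i hi (by omega) (st sh k y + 2 ^ k) r2.1 r2.2
        refine (mul_le_mul_of_nonneg_left (add_le_add f1 f2) om0).trans (le_of_eq ?_)
        ring
    refine (sum_le_sum e2).trans (le_of_eq ?_)
    rw [sum_add_distrib, sum_add_distrib, sum_add_distrib]
    simp only [← mul_sum, ← sum_mul]
  have scale : ∀ k ∈ range (n + 1), ∑ x0 ∈ iv n T, W k x0 *
      nsq ((Rs Mx o x1 s n sh k x0 (ix k (y - sh)) - Rm Mx o x1 s n k x0 y) *ᵥ w k x0) ≤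
      3 * (e * ∑ i ∈ range n, (if i + 1 ≤ k + L then om sh k i y * 2 ^ (k - (i + 1)) *
        ∑ x0 ∈ iv n T, A k i x0 else 0)) +
      6 * (e * ∑ i ∈ range n, (if i + 1 ≤ k + L then om sh k i y *
        (if i < k then ((k - i - 1 : ℕ) : ℝ) * 2 ^ (k - i - 1) *
          ∑ j ∈ Ico (i + 1) k, En Mx n T x1 M3 (j + 1) v
        else ((i + 1 - k : ℕ) : ℝ) * ∑ j ∈ Ico k (i + 1), En Mx n T x1 M3 (j + 1) v) else 0)) +
      6 * ((∑ i ∈ range n, (if i + 1 ≤ k + L then om sh k i y else 0)) *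
        ∑ x0 ∈ iv n T, W k x0 * nsq (V k x0 - w k x0)) +
      2 * (e * (κ * ∑ i ∈ range n,
        (if al k ∧ k + L ≤ i then om sh k i y * ep θ n T x1 M3 i else 0))) := by
    intro k hk
    by_cases hak : al k
    · have := scale' k hk hak
      simp only [hak, true_and]
      exact this
    · have z1 : ∑ x0 ∈ iv n T, W k x0 *
          nsq ((Rs Mx o x1 s n sh k x0 (ix k (y - sh)) - Rm Mx o x1 s n k x0 y) *ᵥ w k x0) = 0 :=
        sum_eq_zero fun x0 _ => by rw [hal k hak x0, zero_mul]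
      have z2 : ∑ x0 ∈ iv n T, W k x0 * nsq (V k x0 - w k x0) = 0 :=
        sum_eq_zero fun x0 _ => by rw [hal k hak x0, zero_mul]
      have z3 : ∑ i ∈ range n, (if al k ∧ k + L ≤ i then om sh k i y * ep θ n T x1 M3 i
          else 0) = 0 := sum_eq_zero fun i _ => by rw [if_neg fun h' => hak h'.1]
      have z4 : 0 ≤ ∑ i ∈ range n, (if i + 1 ≤ k + L then om sh k i y * 2 ^ (k - (i + 1)) *
          ∑ x0 ∈ iv n T, A k i x0 else 0) := by
        refine sum_nonneg fun i _ => ?_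
        split_ifs
        · exact mul_nonneg (mul_nonneg (om_nonneg _ _ _ _) (by positivity))
            (sum_nonneg fun _ _ => hA0 _ _ _)
        · exact le_rfl
      have z5 : 0 ≤ ∑ i ∈ range n, (if i + 1 ≤ k + L then om sh k i y *
          (if i < k then ((k - i - 1 : ℕ) : ℝ) * 2 ^ (k - i - 1) *
            ∑ j ∈ Ico (i + 1) k, En Mx n T x1 M3 (j + 1) v
          else ((i + 1 - k : ℕ) : ℝ) *
            ∑ j ∈ Ico k (i + 1), En Mx n T x1 M3 (j + 1) v) else 0) := by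
        refine sum_nonneg fun i _ => ?_
        split_ifs
        · exact mul_nonneg (om_nonneg _ _ _ _) (mul_nonneg (by positivity)
            (sum_nonneg fun _ _ => En_nonneg _ _))
        · exact mul_nonneg (om_nonneg _ _ _ _) (mul_nonneg (by positivity)
            (sum_nonneg fun _ _ => En_nonneg _ _))
        · exact le_rfl
      rw [z1, z2, z3]
      have z6 := mul_nonneg he z4
      have z7 := mul_nonneg he z5
      linarith
  -- the sum over the scales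
  refine (sum_le_sum scale).trans ?_
  rw [sum_add_distrib, sum_add_distrib, sum_add_distrib]
  simp only [← mul_sum]
  have s1 := near_mov (s := s) (x1 := x1) (T := T) h hM ho sh y v L
  have s2 := H690.near_lay n L sh y (E := fun j => En Mx n T x1 M3 (j + 1) v)
    fun j => En_nonneg _ _
  have s3 : ∑ k ∈ range (n + 1), (∑ i ∈ range n, (if i + 1 ≤ k + L then om sh k i y else 0)) *
      ∑ x0 ∈ iv n T, W k x0 * nsq (V k x0 - w k x0) ≤
      (8 + 8 * (L : ℝ) ^ 3) * ∑ k ∈ range (n + 1), ∑ x0 ∈ iv n T,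
        W k x0 * nsq (V k x0 - w k x0) := by
    rw [mul_sum]
    refine sum_le_sum fun k hk => mul_le_mul_of_nonneg_right ?_
      (sum_nonneg fun x0 _ => mul_nonneg (hW0 _ _) (nsq_nonneg _))
    rw [mem_range] at hk
    exact H690.near_om n L sh y (by omega)
  have s5 := end_sum (n := n) (T := T) (Mx := Mx) (x1 := x1) hs1 ho y v
  have s6 : (600 + 8 * (L : ℝ) ^ 3) *
      (20000 * ∑ x0 ∈ iv n T, nsq (Rm Mx o x1 s n 0 x0 y *ᵥ v)) ≤
      (600 + 8 * (L : ℝ) ^ 3) * 20000 * ∑ i ∈ range n, En Mx n T x1 M3 (i + 1) v := by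
    rw [mul_assoc]
    exact mul_le_mul_of_nonneg_left (mul_le_mul_of_nonneg_left s5 (by norm_num)) (by positivity)
  have t1 := mul_le_mul_of_nonneg_left (s1.trans s6) he
  have t2 := mul_le_mul_of_nonneg_left s2 he
  simp only [hA, hV] at t1 s3 ⊢
  have rhs : e * (3 * ((600 + 8 * (L : ℝ) ^ 3) * 20000 *
        ∑ i ∈ range n, En Mx n T x1 M3 (i + 1) v) +
        6 * ((600 + 8 * (L : ℝ) ^ 5) * ∑ i ∈ range n, En Mx n T x1 M3 (i + 1) v) +
        2 * (κ * fr n L (ep θ n T x1 M3) al sh y)) =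
      3 * (e * ((600 + 8 * (L : ℝ) ^ 3) * 20000 *
        ∑ i ∈ range n, En Mx n T x1 M3 (i + 1) v)) +
        6 * (e * ((600 + 8 * (L : ℝ) ^ 5) * ∑ i ∈ range n, En Mx n T x1 M3 (i + 1) v)) +
        2 * (e * (κ * fr n L (ep θ n T x1 M3) al sh y)) := by ring
  rw [rhs]
  unfold fr
  linarith

end

end Vale.Agent.P141.H841
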