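import Vale.Agent.P141.H876.WinS
import Vale.Agent.P141.H690.ShSum

/-!
# P141, line (A): the far multiplicity of a point

* `Nrb k i y` : `y` is within `2 ^ k` of the border of its cell of scale `i`;
* `ep` : the energy bound of the layer `i + 1` from the norms of the matrices;
* `far` : the far multiplicity of `y`, `far_om` : it bounds the far part of every shift.
-/

namespace Vale.Agent.P141.H841

open Finset Matrix
open Vale.Agent.P141.PL (iv ix mem_iv)
open Vale.Agent.P141.H876 (wn)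

noncomputable section

open scoped Classical

/-- `y` is within `2 ^ k` of the border of its cell of scale `i` -/
def Nrb (k i : ℕ) (y : ℤ) : Prop :=
  y < 2 ^ i * ix i y + 2 ^ k ∨ 2 ^ i * ix i y + 2 ^ i - 2 ^ k ≤ y

/-- the energy of the layer `i + 1` over the window, by the norms of the matrices -/
def ep (θ : ℕ → ℤ → ℝ) (n : ℕ) (T x1 M3 : ℤ) (i : ℕ) : ℝ :=
  2 ^ (i + 1) * ∑ R ∈ wn n T x1 M3, ∑ m ∈ iv (n - (i + 1)) R, θ (i + 1) m

theorem ep_nonneg {θ : ℕ → ℤ → ℝ} (hθ : ∀ k m, 0 ≤ θ k m) (n : ℕ) (T x1 M3 : ℤ) (i : ℕ) :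
    0 ≤ ep θ n T x1 M3 i :=
  mul_nonneg (by positivity) (sum_nonneg fun _ _ => sum_nonneg fun _ _ => hθ _ _)

/-- the far multiplicity of the point `y`, layers weighted by `b` -/
def far (n L : ℕ) (b : ℕ → ℝ) (y : ℤ) : ℝ :=
  ∑ k ∈ range (n + 1), ∑ i ∈ range n,
    if k + L ≤ i ∧ Nrb k i y then 8 * ((i + 1 - k : ℕ) : ℝ) ^ 2 * b i else 0

theorem far_nonneg (n L : ℕ) {b : ℕ → ℝ} (hb : ∀ i, 0 ≤ b i) (y : ℤ) : 0 ≤ far n L b y := by
  refine sum_nonneg fun k _ => sum_nonneg fun i _ => ?_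
  split_ifs
  · exact mul_nonneg (by positivity) (hb i)
  · exact le_rfl

theorem far_om (n L : ℕ) (sh : ℤ) {b : ℕ → ℝ} (hb : ∀ i, 0 ≤ b i) (y : ℤ) :
    ∑ k ∈ range (n + 1), ∑ i ∈ range n, (if k + L ≤ i then om sh k i y * b i else 0) ≤
      far n L b y := by
  unfold far
  refine sum_le_sum fun k _ => sum_le_sum fun i _ => ?_
  by_cases h : k + L ≤ i
  · rw [if_pos h, H690.om_stg (by omega)]
    by_cases hc : ix i (st sh k y) = ix i (st sh k y + 2 ^ k)
    · unfold H690.stg
      rw [if_pos hc, mul_zero, zero_mul]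
      split_ifs
      · exact mul_nonneg (by positivity) (hb i)
      · exact le_rfl
    · have h2 : Nrb k i y := H690.stg_near hc
      unfold H690.stg
      rw [if_neg hc, if_pos ⟨h, h2⟩, mul_one]
  · rw [if_neg h, if_neg fun h' => h h'.1]

/-- the number of the points near the borders -/
theorem nrb_sum (k : ℕ) {i n : ℕ} (hin : i ≤ n) (M : ℤ) :
    ∑ y ∈ iv n M, (if Nrb k i y then (1 : ℝ) else 0) ≤ 2 * 2 ^ (n - i) * 2 ^ k := by
  rw [← H922.iv_iv hin]
  have one : ∀ c : ℤ, ∑ y ∈ iv i c, (if Nrb k i y then (1 : ℝ) else 0) ≤ 2 * 2 ^ k := by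
    intro c
    set A := Ico (2 ^ i * c) (2 ^ i * c + 2 ^ k) with hA
    set B := Ico (2 ^ i * c + 2 ^ i - 2 ^ k) (2 ^ i * c + 2 ^ i) with hB
    have cA : (A.card : ℝ) = 2 ^ k := by
      rw [hA, Int.card_Ico]
      have : (2 ^ i * c + 2 ^ k - 2 ^ i * c : ℤ) = ((2 ^ k : ℕ) : ℤ) := by push_cast; ring
      rw [this, Int.toNat_natCast]
      push_cast
      rfl
    have cB : (B.card : ℝ) = 2 ^ k := by
      rw [hB, Int.card_Ico]
      have : (2 ^ i * c + 2 ^ i - (2 ^ i * c + 2 ^ i - 2 ^ k) : ℤ) = ((2 ^ k : ℕ) : ℤ) := by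
        push_cast; ring
      rw [this, Int.toNat_natCast]
      push_cast
      rfl
    have hsub : (iv i c).filter (fun y => Nrb k i y) ⊆ A ∪ B := by
      intro y hy
      rw [mem_filter] at hy
      obtain ⟨b1, b2⟩ := ix_bd i y
      have hyc := mem_iv.1 hy.1
      rw [hyc] at b1 b2
      have h2 := hy.2
      unfold Nrb at h2
      rw [hyc] at h2
      rw [mem_union, hA, hB, mem_Ico, mem_Ico]
      rcases h2 with h2 | h2
      · exact Or.inl ⟨b1, h2⟩
      · exact Or.inr ⟨h2, b2⟩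
    rw [sum_boole]
    have h3 : (((iv i c).filter (fun y => Nrb k i y)).card : ℝ) ≤ ((A ∪ B).card : ℝ) := by
      exact_mod_cast card_le_card hsub
    have h4 : ((A ∪ B).card : ℝ) ≤ (A.card : ℝ) + (B.card : ℝ) := by
      exact_mod_cast card_union_le A B
    linarith
  refine (sum_le_sum fun c _ => one c).trans (le_of_eq ?_)
  rw [sum_const, PL.card_iv, nsmul_eq_mul]
  push_cast
  ring

/-- **the sum of the far multiplicities over a root** -/
theorem far_sum (n L : ℕ) (M : ℤ) {b : ℕ → ℝ} (hb : ∀ i, 0 ≤ b i) :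
    ∑ y ∈ iv n M, far n L b y ≤
      64 * 2 ^ n * (((L : ℝ) + 2) ^ 2 + 2) / 2 ^ L * ∑ i ∈ range n, b i := by
  unfold far
  rw [sum_comm]
  have e0 : ∑ k ∈ range (n + 1), ∑ y ∈ iv n M, ∑ i ∈ range n,
      (if k + L ≤ i ∧ Nrb k i y then 8 * ((i + 1 - k : ℕ) : ℝ) ^ 2 * b i else 0) =
      ∑ i ∈ range n, ∑ k ∈ range (n + 1), ∑ y ∈ iv n M,
        (if k + L ≤ i ∧ Nrb k i y then 8 * ((i + 1 - k : ℕ) : ℝ) ^ 2 * b i else 0) := by
    rw [sum_comm]
    rw [sum_comm (s := range n) (t := range (n + 1))]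
    rw [sum_comm (s := iv n M) (t := range (n + 1))]
    exact sum_congr rfl fun k _ => sum_comm
  rw [e0, mul_sum]
  refine sum_le_sum fun i hi => ?_
  rw [mem_range] at hi
  calc ∑ k ∈ range (n + 1), ∑ y ∈ iv n M,
        (if k + L ≤ i ∧ Nrb k i y then 8 * ((i + 1 - k : ℕ) : ℝ) ^ 2 * b i else 0)
      ≤ ∑ k ∈ range (n + 1), (if k + L ≤ i then
          16 * 2 ^ n * b i * ((((i - k : ℕ) : ℝ) + 1) ^ 2 / 2 ^ (i - k)) else 0) := by
        refine sum_le_sum fun k _ => ?_
        by_cases h : k + L ≤ i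
        · simp only [h, true_and, if_true]
          have h1 := nrb_sum k hi.le M
          calc ∑ y ∈ iv n M, (if Nrb k i y then 8 * ((i + 1 - k : ℕ) : ℝ) ^ 2 * b i else 0)
              = 8 * ((i + 1 - k : ℕ) : ℝ) ^ 2 * b i *
                  ∑ y ∈ iv n M, (if Nrb k i y then (1 : ℝ) else 0) := by
                rw [mul_sum]
                refine sum_congr rfl fun y _ => ?_
                split_ifs <;> ring
            _ ≤ 8 * ((i + 1 - k : ℕ) : ℝ) ^ 2 * b i * (2 * 2 ^ (n - i) * 2 ^ k) :=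
                mul_le_mul_of_nonneg_left h1 (mul_nonneg (by positivity) (hb i))
            _ = _ := by
                have e2 : i + 1 - k = i - k + 1 := by omega
                have e3 : (2 : ℝ) ^ n = 2 ^ (n - i) * 2 ^ k * 2 ^ (i - k) := by
                  rw [← pow_add, ← pow_add]
                  congr 1
                  omega
                rw [e2, e3]
                push_cast
                field_simp
                ring
        · simp only [h, false_and, if_false, sum_const_zero, le_refl]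
    _ = ∑ k ∈ (range (n + 1)).filter (fun k => k + L ≤ i),
          16 * 2 ^ n * b i * ((((i - k : ℕ) : ℝ) + 1) ^ 2 / 2 ^ (i - k)) := (sum_filter _ _).symm
    _ ≤ ∑ m ∈ Ico L (i + 1), 16 * 2 ^ n * b i * (((m : ℝ) + 1) ^ 2 / 2 ^ m) := by
        rw [← sum_image (s := (range (n + 1)).filter (fun k => k + L ≤ i))
          (g := fun k : ℕ => i - k)
          (f := fun m : ℕ => 16 * 2 ^ n * b i * ((((m : ℕ) : ℝ) + 1) ^ 2 / 2 ^ m))]
        · refine sum_le_sum_of_subset_of_nonneg ?_ fun m _ _ =>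
            mul_nonneg (mul_nonneg (by positivity) (hb i)) (by positivity)
          intro m hm
          rw [mem_image] at hm
          obtain ⟨k, hk, rfl⟩ := hm
          rw [mem_filter, mem_range] at hk
          rw [mem_Ico]
          omega
        · intro x hx z hz hxz
          simp only [coe_filter, mem_range, Set.mem_ofPred_eq] at hx hz
          simp only at hxz
          omega
    _ ≤ 16 * 2 ^ n * b i * (2 * (((L : ℝ) + 2) ^ 2 + 2) / 2 ^ L) := by
        rw [← mul_sum]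
        exact mul_le_mul_of_nonneg_left (H690.ser2_Ico L (i + 1))
          (mul_nonneg (by positivity) (hb i))
    _ ≤ 64 * 2 ^ n * (((L : ℝ) + 2) ^ 2 + 2) / 2 ^ L * b i := by
        have h0 : 0 ≤ 2 ^ n * (((L : ℝ) + 2) ^ 2 + 2) / 2 ^ L * b i :=
          mul_nonneg (by positivity) (hb i)
        have e4 : 16 * 2 ^ n * b i * (2 * (((L : ℝ) + 2) ^ 2 + 2) / 2 ^ L) =
            32 * (2 ^ n * (((L : ℝ) + 2) ^ 2 + 2) / 2 ^ L * b i) := by ring
        have e5 : 64 * 2 ^ n * (((L : ℝ) + 2) ^ 2 + 2) / 2 ^ L * b i =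
            64 * (2 ^ n * (((L : ℝ) + 2) ^ 2 + 2) / 2 ^ L * b i) := by ring
        rw [e4, e5]
        linarith

end

end Vale.Agent.P141.H841
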