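import Vale.Agent.P141.H841.ShiftR
import Vale.Agent.P141.H876.ShiftA

/-!
# P141, line (A): the moving slot on a shifted grid, per point, living scales only

* `S1y` : the deviation of the shifted slot;
* `S2y` : the half differences of the shifted slot;
* `S3y` : the half differences of the shifted slot applied to the shifted slot;
* `S1q`, `S2q`, `S3q` : the same with any bound `Q` of the energies of all the layers.
-/

namespace Vale.Agent.P141.H841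

open Finset Matrix
open Vale.Agent.P141.PL (iv ix hs mem_iv ix_ix card_iv)
open Vale.Agent.P141.H922 (ck iv_iv)
open Vale.Agent.P141.H43 (avv nsq nsq_nonneg)
open Vale.Agent.P141.H420 (Tr)
open Vale.Agent.P141.H483 (mT)
open Vale.Agent.P141.H876 (wn En En_nonneg wt_cell wt_Nn near_root En_th)

noncomputable section

variable {ι : Type*} [Fintype ι]

variable {Mx : ℕ → ℤ → Matrix ι ι ℝ} {o x1 T : ℤ} {s : ℕ → ℤ → ℤ → ℝ} {n : ℕ}

open scoped Classical in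
/-- **(S1) per point.** -/
theorem S1y (hs1 : ∀ k a b, |s k a b| ≤ 1) (ho : o = 1 ∨ o = -1) {W : ℕ → ℤ → ℝ} {e : ℝ}
    (he : 0 ≤ e) (hW0 : ∀ k x0, 0 ≤ W k x0)
    (hW : ∀ k ≤ n, ∀ j, ∑ x0 ∈ iv k j, W k x0 ≤ e * 2 ^ k)
    {θ : ℕ → ℤ → ℝ} (hθ : ∀ k m a, nsq (Mx k m *ᵥ a) ≤ θ k m * nsq a) (sh y : ℤ) (v : ι → ℝ)
    (L : ℕ) {al : ℕ → Prop} (hal : ∀ k, ¬ al k → ∀ x0, W k x0 = 0) :
    ∑ k ∈ range (n + 1), ∑ x0 ∈ iv n T, W k x0 *
        nsq ((Rs Mx o x1 s n sh k x0 (ix k (y - sh)) - Rm Mx o x1 s n k x0 y) *ᵥ v) ≤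
      e * ((48 + 16 * (L : ℝ) ^ 3) * ∑ i ∈ range n, En Mx n T x1 (ix n y) (i + 1) v +
        2 * (fr n L (ep θ n T x1 (ix n y)) al sh y * nsq v)) := by
  set M3 := ix n y with hM3
  have scale : ∀ k ∈ range (n + 1), ∑ x0 ∈ iv n T, W k x0 *
      nsq ((Rs Mx o x1 s n sh k x0 (ix k (y - sh)) - Rm Mx o x1 s n k x0 y) *ᵥ v) ≤
      2 * e * (∑ i ∈ range n, (if i + 1 ≤ k + L then
          om sh k i y * 2 ^ (k - (i + 1)) * En Mx n T x1 M3 (i + 1) v else 0) +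
        (∑ i ∈ range n, (if al k ∧ k + L ≤ i then om sh k i y * ep θ n T x1 M3 i else 0)) *
          nsq v) := by
    intro k hk
    rw [mem_range] at hk
    by_cases hak : al k
    · refine (H876.dev_sum (M3 := M3) hs1 ho (by omega) (hW0 k) (hW k (by omega)) sh
        (mem_iv.2 hM3.symm) v).trans ?_
      refine mul_le_mul_of_nonneg_left ?_ (by positivity)
      rw [sum_mul, ← sum_add_distrib]
      refine sum_le_sum fun i _ => ?_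
      by_cases h : i + 1 ≤ k + L
      · rw [if_pos h, if_neg (by omega), zero_mul, add_zero]
      · rw [if_neg h, if_pos ⟨hak, by omega⟩, zero_add]
        have e2 : k - (i + 1) = 0 := by omega
        rw [e2, pow_zero, mul_one, mul_assoc]
        exact mul_le_mul_of_nonneg_left (En_th hθ (i + 1) v) (om_nonneg sh k i y)
    · have z1 : ∑ x0 ∈ iv n T, W k x0 *
          nsq ((Rs Mx o x1 s n sh k x0 (ix k (y - sh)) - Rm Mx o x1 s n k x0 y) *ᵥ v) = 0 :=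
        sum_eq_zero fun x0 _ => by rw [hal k hak x0, zero_mul]
      have z3 : ∑ i ∈ range n, (if al k ∧ k + L ≤ i then om sh k i y * ep θ n T x1 M3 i
          else 0) = 0 := sum_eq_zero fun i _ => by rw [if_neg fun h' => hak h'.1]
      rw [z1, z3, zero_mul, add_zero]
      refine mul_nonneg (by positivity) (sum_nonneg fun i _ => ?_)
      split_ifs
      · exact mul_nonneg (mul_nonneg (om_nonneg _ _ _ _) (by positivity)) (En_nonneg _ _)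
      · exact le_rfl
  refine (sum_le_sum scale).trans ?_
  rw [← mul_sum, sum_add_distrib, ← sum_mul]
  have f1 := H690.near_E n L sh y (E := fun i => En Mx n T x1 M3 (i + 1) v)
    fun i => En_nonneg _ _
  have f2 : (∑ k ∈ range (n + 1), ∑ i ∈ range n,
      (if al k ∧ k + L ≤ i then om sh k i y * ep θ n T x1 M3 i else 0)) =
      fr n L (ep θ n T x1 M3) al sh y := rfl
  rw [f2]
  refine (mul_le_mul_of_nonneg_left (add_le_add f1 le_rfl)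
    (by positivity : 0 ≤ 2 * e)).trans (le_of_eq ?_)
  ring

/-- the weights moved by one scale -/
def sW (W : ℕ → ℤ → ℝ) (k : ℕ) (x0 : ℤ) : ℝ := if k = 0 then 0 else W (k - 1) x0

theorem sW_nonneg {W : ℕ → ℤ → ℝ} (hW0 : ∀ k x0, 0 ≤ W k x0) (k : ℕ) (x0 : ℤ) :
    0 ≤ sW W k x0 := by
  unfold sW
  split_ifs
  · exact le_rfl
  · exact hW0 _ _

theorem sW_succ (W : ℕ → ℤ → ℝ) (k : ℕ) (x0 : ℤ) : sW W (k + 1) x0 = W k x0 := by
  unfold sW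
  rw [if_neg (Nat.succ_ne_zero k), Nat.add_sub_cancel]

theorem sW_sum {W : ℕ → ℤ → ℝ} {e : ℝ} (he : 0 ≤ e) (hW0 : ∀ k x0, 0 ≤ W k x0)
    (hW : ∀ k ≤ n, ∀ j, ∑ x0 ∈ iv k j, W k x0 ≤ e * 2 ^ k) :
    ∀ k ≤ n, ∀ j, ∑ x0 ∈ iv k j, sW W k x0 ≤ e * 2 ^ k := by
  intro k hk j
  rcases k with _ | k
  · unfold sW
    simp only [if_true, sum_const_zero]
    positivity
  · simp only [sW_succ]
    have h := wt_cell (hW0 k) (hW k (by omega)) (k + 1) j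
    have e2 : k - (k + 1) = 0 := by omega
    rw [e2, pow_zero, mul_one] at h
    exact h

theorem sW_al {W : ℕ → ℤ → ℝ} {al : ℕ → Prop} (hal : ∀ k, ¬ al k → ∀ x0, W k x0 = 0) :
    ∀ k, ¬ (k ≠ 0 ∧ al (k - 1)) → ∀ x0, sW W k x0 = 0 := by
  intro k hk x0
  unfold sW
  by_cases h0 : k = 0
  · rw [if_pos h0]
  · rw [if_neg h0]
    exact hal (k - 1) (fun h => hk ⟨h0, h⟩) x0

/-- (S1) with the weights moved by one scale -/
theorem S1s (hs1 : ∀ k a b, |s k a b| ≤ 1) (ho : o = 1 ∨ o = -1) {W : ℕ → ℤ → ℝ} {e : ℝ}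
    (he : 0 ≤ e) (hW0 : ∀ k x0, 0 ≤ W k x0)
    (hW : ∀ k ≤ n, ∀ j, ∑ x0 ∈ iv k j, W k x0 ≤ e * 2 ^ k)
    {θ : ℕ → ℤ → ℝ} (hθ0 : ∀ k m, 0 ≤ θ k m)
    (hθ : ∀ k m a, nsq (Mx k m *ᵥ a) ≤ θ k m * nsq a) (sh y : ℤ) (v : ι → ℝ)
    (L : ℕ) {al : ℕ → Prop} (hal : ∀ k, ¬ al k → ∀ x0, W k x0 = 0)
    (hmono : ∀ k, al k → al (k + 1)) :
    ∑ k ∈ range (n + 1), ∑ x0 ∈ iv n T, sW W k x0 *
        nsq ((Rs Mx o x1 s n sh k x0 (ix k (y - sh)) - Rm Mx o x1 s n k x0 y) *ᵥ v) ≤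
      e * ((48 + 16 * (L : ℝ) ^ 3) * ∑ i ∈ range n, En Mx n T x1 (ix n y) (i + 1) v +
        2 * (fr n L (ep θ n T x1 (ix n y)) al sh y * nsq v)) := by
  refine (S1y hs1 ho he (sW_nonneg hW0) (sW_sum he hW0 hW) hθ sh y v L (sW_al hal)).trans ?_
  have h1 := fr_mono n L (ep_nonneg hθ0 n T x1 (ix n y))
    (al := fun k => k ≠ 0 ∧ al (k - 1)) (al' := al) (fun k hk => by
      have := hmono (k - 1) hk.2
      rwa [Nat.sub_add_cancel (Nat.pos_of_ne_zero hk.1)] at this) sh y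
  have h2 := mul_le_mul_of_nonneg_right h1 (nsq_nonneg v)
  refine mul_le_mul_of_nonneg_left ?_ he
  linarith

theorem sum_sW {W : ℕ → ℤ → ℝ} (hW0 : ∀ k x0, 0 ≤ W k x0) {D : ℕ → ℤ → ℝ}
    (hD : ∀ k x0, 0 ≤ D k x0) (I : Finset ℤ) :
    ∑ k ∈ range n, ∑ x0 ∈ I, W k x0 * D (k + 1) x0 ≤
      ∑ k ∈ range (n + 1), ∑ x0 ∈ I, sW W k x0 * D k x0 := by
  rw [sum_range_succ']
  have h1 : 0 ≤ ∑ x0 ∈ I, sW W 0 x0 * D 0 x0 :=
    sum_nonneg fun x _ => mul_nonneg (sW_nonneg hW0 _ _) (hD _ _)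
  simp only [sW_succ]
  linarith

theorem sum_W {W : ℕ → ℤ → ℝ} (hW0 : ∀ k x0, 0 ≤ W k x0) {D : ℕ → ℤ → ℝ}
    (hD : ∀ k x0, 0 ≤ D k x0) (I : Finset ℤ) :
    ∑ k ∈ range n, ∑ x0 ∈ I, W k x0 * D k x0 ≤
      ∑ k ∈ range (n + 1), ∑ x0 ∈ I, W k x0 * D k x0 := by
  rw [sum_range_succ]
  have : 0 ≤ ∑ x0 ∈ I, W n x0 * D n x0 :=
    sum_nonneg fun x _ => mul_nonneg (hW0 _ _) (hD _ _)
  linarith

/-- the sum of the standard layers of `v` -/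
theorem sum_lay (ho : o = 1 ∨ o = -1) {W : ℕ → ℤ → ℝ} {e : ℝ}
    (hW0 : ∀ k x0, 0 ≤ W k x0)
    (hW : ∀ k ≤ n, ∀ j, ∑ x0 ∈ iv k j, W k x0 ≤ e * 2 ^ k) (y : ℤ) (v : ι → ℝ) :
    ∑ k ∈ range n, ∑ x0 ∈ iv n T, W k x0 * Nn Mx o x1 (k + 1) x0 y v ≤
      e * ∑ i ∈ range n, En Mx n T x1 (ix n y) (i + 1) v := by
  rw [mul_sum]
  refine sum_le_sum fun k hk => ?_
  rw [mem_range] at hk
  have h := wt_Nn (Mx := Mx) (x1 := x1) (T := T) (M3 := ix n y) ho (hW0 k)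
    (hW k hk.le) (i := k + 1) hk (p := y) (by omega) (by omega) v
  have e2 : k - (k + 1) = 0 := by omega
  rw [e2, pow_zero, mul_one] at h
  exact h

/-- **(S2) per point.** -/
theorem S2y (hs1 : ∀ k a b, |s k a b| ≤ 1) (ho : o = 1 ∨ o = -1) {W : ℕ → ℤ → ℝ} {e : ℝ}
    (he : 0 ≤ e) (hW0 : ∀ k x0, 0 ≤ W k x0)
    (hW : ∀ k ≤ n, ∀ j, ∑ x0 ∈ iv k j, W k x0 ≤ e * 2 ^ k)
    {θ : ℕ → ℤ → ℝ} (hθ0 : ∀ k m, 0 ≤ θ k m)
    (hθ : ∀ k m a, nsq (Mx k m *ᵥ a) ≤ θ k m * nsq a) (sh y : ℤ) (v : ι → ℝ)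
    (L : ℕ) {al : ℕ → Prop} (hal : ∀ k, ¬ al k → ∀ x0, W k x0 = 0)
    (hmono : ∀ k, al k → al (k + 1)) :
    ∑ k ∈ range n, ∑ x0 ∈ iv n T, W k x0 *
        nsq ((Rs Mx o x1 s n sh k x0 (ix k (y - sh)) -
          Rs Mx o x1 s n sh (k + 1) x0 (ix (k + 1) (y - sh))) *ᵥ v) ≤
      e * ((386 + 128 * (L : ℝ) ^ 3) * ∑ i ∈ range n, En Mx n T x1 (ix n y) (i + 1) v +
        16 * (fr n L (ep θ n T x1 (ix n y)) al sh y * nsq v)) := by
  set D : ℕ → ℤ → ℝ := fun k x0 =>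
    nsq ((Rs Mx o x1 s n sh k x0 (ix k (y - sh)) - Rm Mx o x1 s n k x0 y) *ᵥ v) with hD
  have hD0 : ∀ k x0, 0 ≤ D k x0 := fun _ _ => nsq_nonneg _
  have p1 : ∀ k < n, ∀ x0, nsq ((Rs Mx o x1 s n sh k x0 (ix k (y - sh)) -
      Rs Mx o x1 s n sh (k + 1) x0 (ix (k + 1) (y - sh))) *ᵥ v) ≤
      4 * D k x0 + 4 * D (k + 1) x0 + 2 * Nn Mx o x1 (k + 1) x0 y v := by
    intro k hk x0
    have e1 : (Rs Mx o x1 s n sh k x0 (ix k (y - sh)) -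
        Rs Mx o x1 s n sh (k + 1) x0 (ix (k + 1) (y - sh))) *ᵥ v =
        ((Rs Mx o x1 s n sh k x0 (ix k (y - sh)) - Rm Mx o x1 s n k x0 y) *ᵥ v -
        (Rs Mx o x1 s n sh (k + 1) x0 (ix (k + 1) (y - sh)) - Rm Mx o x1 s n (k + 1) x0 y) *ᵥ v) +
        Lm Mx o x1 s (k + 1) x0 y *ᵥ v := by
      rw [Rm_succ hk]
      simp only [sub_mulVec, add_mulVec]
      abel
    rw [e1]
    have h1 := nsq_add_le ((Rs Mx o x1 s n sh k x0 (ix k (y - sh)) - Rm Mx o x1 s n k x0 y) *ᵥ v -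
        (Rs Mx o x1 s n sh (k + 1) x0 (ix (k + 1) (y - sh)) - Rm Mx o x1 s n (k + 1) x0 y) *ᵥ v)
        (Lm Mx o x1 s (k + 1) x0 y *ᵥ v)
    have h2 := nsq_sub_le ((Rs Mx o x1 s n sh k x0 (ix k (y - sh)) - Rm Mx o x1 s n k x0 y) *ᵥ v)
        ((Rs Mx o x1 s n sh (k + 1) x0 (ix (k + 1) (y - sh)) - Rm Mx o x1 s n (k + 1) x0 y) *ᵥ v)
    have h3 := Lm_le (Mx := Mx) (o := o) (x1 := x1) hs1 (k + 1) x0 y v
    simp only [hD]
    linarith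
  have q1 := (sum_W (n := n) hW0 hD0 (iv n T)).trans
    (S1y hs1 ho he hW0 hW hθ sh y v L hal)
  have q2 := (sum_sW (n := n) hW0 hD0 (iv n T)).trans
    (S1s hs1 ho he hW0 hW hθ0 hθ sh y v L hal hmono)
  have q3 := sum_lay (Mx := Mx) (x1 := x1) (T := T) ho hW0 hW y v
  refine (sum_le_sum fun k hk => sum_le_sum fun x0 _ =>
    mul_le_mul_of_nonneg_left (p1 k (mem_range.1 hk) x0) (hW0 k x0)).trans ?_
  have e5 : ∑ k ∈ range n, ∑ x0 ∈ iv n T, W k x0 *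
      (4 * D k x0 + 4 * D (k + 1) x0 + 2 * Nn Mx o x1 (k + 1) x0 y v) =
      4 * (∑ k ∈ range n, ∑ x0 ∈ iv n T, W k x0 * D k x0) +
      4 * (∑ k ∈ range n, ∑ x0 ∈ iv n T, W k x0 * D (k + 1) x0) +
      2 * ∑ k ∈ range n, ∑ x0 ∈ iv n T, W k x0 * Nn Mx o x1 (k + 1) x0 y v := by
    simp only [mul_sum, ← sum_add_distrib]
    refine sum_congr rfl fun k _ => sum_congr rfl fun x0 _ => ?_
    ring
  rw [e5]
  refine (add_le_add (add_le_add (mul_le_mul_of_nonneg_left q1 (by norm_num : (0 : ℝ) ≤ 4))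
    (mul_le_mul_of_nonneg_left q2 (by norm_num : (0 : ℝ) ≤ 4)))
    (mul_le_mul_of_nonneg_left q3 (by norm_num : (0 : ℝ) ≤ 2))).trans (le_of_eq ?_)
  ring

/-- the cap of the shifted slot from the cap of the end slot -/
theorem Rs_cap {κ : ℝ} {x0 : ℤ} {v : ι → ℝ} {c : ℝ}
    (hκ : ∀ p, nsq (Rm Mx o x1 s n 0 x0 p *ᵥ v) ≤ κ * c) (sh : ℤ) (k : ℕ) (y : ℤ) :
    nsq (Rs Mx o x1 s n sh k x0 (ix k (y - sh)) *ᵥ v) ≤ κ * c := by
  unfold Rs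
  rw [avv_st sh k y (fun p => Rm Mx o x1 s n 0 x0 p), smul_mulVec, Matrix.sum_mulVec]
  exact nsq_avg_le k _ _ fun p _ => hκ p

theorem nsq3' (a b c : ι → ℝ) : nsq (a - b + c) ≤ 3 * nsq a + 3 * nsq b + 3 * nsq c := by
  have h := nsq3 a b (-c)
  have e : nsq (-c) = nsq c := by
    unfold H43.nsq
    rw [neg_dotProduct_neg]
  rw [e, sub_neg_eq_add] at h
  exact h

theorem nsq_comm (a b : ι → ℝ) : nsq (a - b) = nsq (b - a) := by
  have e : a - b = -(b - a) := by abel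
  rw [e]
  unfold H43.nsq
  rw [neg_dotProduct_neg]

/-- **(S3) per point.** -/
theorem S3y [DecidableEq ι] {l : ℝ} {G K : ℕ → ℤ → Matrix ι ι ℝ} (h : Tr l n G K)
    (hM : ∀ k m a, Mx k m *ᵥ a = mT l K k m a) (ho : o = 1 ∨ o = -1)
    (hs1 : ∀ k a b, |s k a b| ≤ 1) {W : ℕ → ℤ → ℝ} {e : ℝ} (he : 0 ≤ e)
    (hW0 : ∀ k x0, 0 ≤ W k x0) (hW : ∀ k ≤ n, ∀ j, ∑ x0 ∈ iv k j, W k x0 ≤ e * 2 ^ k)
    {θ : ℕ → ℤ → ℝ} (hθ0 : ∀ k m, 0 ≤ θ k m)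
    (hθ : ∀ k m a, nsq (Mx k m *ᵥ a) ≤ θ k m * nsq a) (sh y : ℤ) (v : ι → ℝ)
    {κ : ℝ} (hκ0 : 0 ≤ κ) (hκ : ∀ x0 p, nsq (Rm Mx o x1 s n 0 x0 p *ᵥ v) ≤ κ * nsq v) (L : ℕ)
    {al : ℕ → Prop} (hal : ∀ k, ¬ al k → ∀ x0, W k x0 = 0) (hmono : ∀ k, al k → al (k + 1)) :
    ∑ k ∈ range n, ∑ x0 ∈ iv n T, W k x0 *
        nsq ((Rs Mx o x1 s n sh k x0 (ix k (y - sh)) -
          Rs Mx o x1 s n sh (k + 1) x0 (ix (k + 1) (y - sh))) *ᵥ
            (Rs Mx o x1 s n sh (k + 1) x0 (ix (k + 1) (y - sh)) *ᵥ v)) ≤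
      e * (3 * 10 ^ 8 * (1 + (L : ℝ)) ^ 6 *
          ∑ i ∈ range n, En Mx n T x1 (ix n y) (i + 1) v +
        1000 * (1 + (L : ℝ)) ^ 3 * (1 + κ) *
          (fr n L (ep θ n T x1 (ix n y)) al sh y * nsq v)) := by
  set M3 := ix n y with hM3
  set E := ∑ i ∈ range n, En Mx n T x1 M3 (i + 1) v with hE
  have hE0 : 0 ≤ E := sum_nonneg fun _ _ => En_nonneg _ _
  set F := fr n L (ep θ n T x1 M3) al sh y with hF
  have hF0 : 0 ≤ F := fr_nonneg n L (ep_nonneg hθ0 n T x1 M3) al sh y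
  set u : ℕ → ℤ → ι → ℝ := fun k x0 => Rs Mx o x1 s n sh k x0 (ix k (y - sh)) *ᵥ v with hu
  set V : ℕ → ℤ → ι → ℝ := fun k x0 => Rm Mx o x1 s n k x0 y *ᵥ v with hV
  have hcap : ∀ k x0, nsq (u k x0) ≤ κ * nsq v := fun k x0 =>
    Rs_cap (hκ x0) sh k y
  have hκv : 0 ≤ κ * nsq v := mul_nonneg hκ0 (nsq_nonneg v)
  -- (S1) with the moved weights
  have b1 := S1s hs1 ho he hW0 hW hθ0 hθ sh y v L hal hmono (T := T) (x1 := x1)
  rw [← hM3, ← hE, ← hF] at b1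
  set B := e * ((48 + 16 * (L : ℝ) ^ 3) * E + 2 * (F * nsq v)) with hB
  have b2 : ∑ k ∈ range (n + 1), ∑ x0 ∈ iv n T, sW W k x0 * nsq (V k x0 - u k x0) ≤ B := by
    refine le_trans (le_of_eq ?_) b1
    refine sum_congr rfl fun k _ => sum_congr rfl fun x0 _ => ?_
    rw [nsq_comm, sub_mulVec]
  have b3 : ∑ k ∈ range n, ∑ x0 ∈ iv n T, W k x0 * nsq (V (k + 1) x0 - u (k + 1) x0) ≤ B :=
    (sum_sW (n := n) hW0 (fun k x0 => nsq_nonneg (V k x0 - u k x0)) (iv n T)).trans b2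
  -- (b)
  have pb := dev_mov h hM ho hs1 he (sW_nonneg hW0) (sW_sum he hW0 hW) hθ0 hθ sh y v u hκv
    hcap L (sW_al hal) (T := T) (x1 := x1)
  have fm := fr_mono n L (ep_nonneg hθ0 n T x1 M3)
    (al := fun k => k ≠ 0 ∧ al (k - 1)) (al' := al) (fun k hk => by
      have := hmono (k - 1) hk.2
      rwa [Nat.sub_add_cancel (Nat.pos_of_ne_zero hk.1)] at this) sh y
  rw [← hM3, ← hE] at pb
  have pb' : ∑ k ∈ range n, ∑ x0 ∈ iv n T, W k x0 *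
      nsq ((Rs Mx o x1 s n sh (k + 1) x0 (ix (k + 1) (y - sh)) - Rm Mx o x1 s n (k + 1) x0 y) *ᵥ
        u (k + 1) x0) ≤
      e * (3 * ((600 + 8 * (L : ℝ) ^ 3) * 20000 * E) + 6 * ((600 + 8 * (L : ℝ) ^ 5) * E) +
        2 * (κ * nsq v * F)) + 6 * ((8 + 8 * (L : ℝ) ^ 3) * B) := by
    refine (sum_sW (n := n) hW0 (D := fun k x0 =>
      nsq ((Rs Mx o x1 s n sh k x0 (ix k (y - sh)) - Rm Mx o x1 s n k x0 y) *ᵥ u k x0))
      (fun k x0 => nsq_nonneg _) (iv n T)).trans (pb.trans ?_)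
    have f1 := mul_le_mul_of_nonneg_left (mul_le_mul_of_nonneg_left fm hκv) he
    have f2 : (8 + 8 * (L : ℝ) ^ 3) * ∑ k ∈ range (n + 1), ∑ x0 ∈ iv n T,
        sW W k x0 * nsq (Rm Mx o x1 s n k x0 y *ᵥ v - u k x0) ≤ (8 + 8 * (L : ℝ) ^ 3) * B :=
      mul_le_mul_of_nonneg_left b2 (by positivity)
    rw [← hF] at f1
    linarith
  -- (a)
  set w : ℕ → ℤ → ι → ℝ := fun k x0 => if k < n then u (k + 1) x0 else 0 with hw
  have wcap : ∀ k x0, nsq (w k x0) ≤ κ * nsq v := by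
    intro k x0
    simp only [hw]
    split_ifs
    · exact hcap _ _
    · rw [nsq_zero]
      exact hκv
  have pa := dev_mov h hM ho hs1 he hW0 hW hθ0 hθ sh y v w hκv wcap L hal (T := T) (x1 := x1)
  rw [← hM3, ← hE, ← hF] at pa
  have lay := sum_lay (Mx := Mx) (x1 := x1) (T := T) ho hW0 hW y v
  rw [← hM3, ← hE] at lay
  have ea : ∑ k ∈ range (n + 1), ∑ x0 ∈ iv n T, W k x0 *
      nsq (Rm Mx o x1 s n k x0 y *ᵥ v - w k x0) ≤ 2 * B + 2 * (e * E) := by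
    rw [sum_range_succ]
    have z : ∑ x0 ∈ iv n T, W n x0 * nsq (Rm Mx o x1 s n n x0 y *ᵥ v - w n x0) = 0 := by
      refine sum_eq_zero fun x0 _ => ?_
      simp only [hw, lt_irrefl, if_false]
      rw [Rm_top, zero_mulVec, sub_zero, nsq_zero, mul_zero]
    rw [z, add_zero]
    have g : ∀ k ∈ range n, ∀ x0 ∈ iv n T, W k x0 *
        nsq (Rm Mx o x1 s n k x0 y *ᵥ v - w k x0) ≤
        2 * (W k x0 * nsq (V (k + 1) x0 - u (k + 1) x0)) +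
        2 * (W k x0 * Nn Mx o x1 (k + 1) x0 y v) := by
      intro k hk x0 _
      rw [mem_range] at hk
      have g1 : Rm Mx o x1 s n k x0 y *ᵥ v - w k x0 =
          (V (k + 1) x0 - u (k + 1) x0) + Lm Mx o x1 s (k + 1) x0 y *ᵥ v := by
        simp only [hw, if_pos hk, hV]
        rw [Rm_succ hk, add_mulVec]
        abel
      rw [g1]
      have g2 := nsq_add_le (V (k + 1) x0 - u (k + 1) x0) (Lm Mx o x1 s (k + 1) x0 y *ᵥ v)
      have g3 := Lm_le (Mx := Mx) (o := o) (x1 := x1) hs1 (k + 1) x0 y v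
      have g4 : nsq ((V (k + 1) x0 - u (k + 1) x0) + Lm Mx o x1 s (k + 1) x0 y *ᵥ v) ≤
          2 * nsq (V (k + 1) x0 - u (k + 1) x0) + 2 * Nn Mx o x1 (k + 1) x0 y v := by linarith
      refine (mul_le_mul_of_nonneg_left g4 (hW0 k x0)).trans (le_of_eq ?_)
      ring
    refine (sum_le_sum fun k hk => sum_le_sum fun x0 hx => g k hk x0 hx).trans ?_
    simp only [sum_add_distrib, ← mul_sum]
    linarith
  have pa' : ∑ k ∈ range n, ∑ x0 ∈ iv n T, W k x0 *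
      nsq ((Rs Mx o x1 s n sh k x0 (ix k (y - sh)) - Rm Mx o x1 s n k x0 y) *ᵥ
        u (k + 1) x0) ≤
      e * (3 * ((600 + 8 * (L : ℝ) ^ 3) * 20000 * E) + 6 * ((600 + 8 * (L : ℝ) ^ 5) * E) +
        2 * (κ * nsq v * F)) + 6 * ((8 + 8 * (L : ℝ) ^ 3) * (2 * B + 2 * (e * E))) := by
    have e1 : ∑ k ∈ range n, ∑ x0 ∈ iv n T, W k x0 *
        nsq ((Rs Mx o x1 s n sh k x0 (ix k (y - sh)) - Rm Mx o x1 s n k x0 y) *ᵥ
          u (k + 1) x0) = ∑ k ∈ range n, ∑ x0 ∈ iv n T, W k x0 *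
        nsq ((Rs Mx o x1 s n sh k x0 (ix k (y - sh)) - Rm Mx o x1 s n k x0 y) *ᵥ w k x0) := by
      refine sum_congr rfl fun k hk => sum_congr rfl fun x0 _ => ?_
      rw [mem_range] at hk
      simp only [hw, if_pos hk]
    rw [e1]
    refine (sum_W (n := n) hW0 (D := fun k x0 =>
      nsq ((Rs Mx o x1 s n sh k x0 (ix k (y - sh)) - Rm Mx o x1 s n k x0 y) *ᵥ w k x0))
      (fun k x0 => nsq_nonneg _) (iv n T)).trans (pa.trans ?_)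
    have f2 := mul_le_mul_of_nonneg_left ea (by positivity : 0 ≤ 8 + 8 * (L : ℝ) ^ 3)
    linarith
  -- (c)
  have hC : ∀ k < n, ∀ (m : ℤ) (a : ι → ℝ), nsq (Mx (k + 1) m *ᵥ a) ≤ nsq a := by
    intro i hi m a
    rw [hM]
    exact H483.mT_le h hi m a
  have pc : ∑ k ∈ range n, ∑ x0 ∈ iv n T, W k x0 *
      nsq (Lm Mx o x1 s (k + 1) x0 y *ᵥ u (k + 1) x0) ≤ 20000 * (e * E) + 2 * B := by
    have g : ∀ k ∈ range n, ∑ x0 ∈ iv n T, W k x0 *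
        nsq (Lm Mx o x1 s (k + 1) x0 y *ᵥ u (k + 1) x0) ≤
        2 * (e * ∑ x0 ∈ iv n T, Nn Mx o x1 (k + 1) x0 y (V (k + 1) x0)) +
        2 * ∑ x0 ∈ iv n T, W k x0 * nsq (V (k + 1) x0 - u (k + 1) x0) := by
      intro k hk
      rw [mem_range] at hk
      have g1 : ∀ x0 ∈ iv n T, W k x0 * nsq (Lm Mx o x1 s (k + 1) x0 y *ᵥ u (k + 1) x0) ≤
          2 * (W k x0 * Nn Mx o x1 (k + 1) x0 y (V (k + 1) x0)) +
          2 * (W k x0 * nsq (V (k + 1) x0 - u (k + 1) x0)) := by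
        intro x0 _
        have c1 := Lm_le (Mx := Mx) (o := o) (x1 := x1) hs1 (k + 1) x0 y (u (k + 1) x0)
        have c2 : Nn Mx o x1 (k + 1) x0 y (u (k + 1) x0) ≤
            2 * Nn Mx o x1 (k + 1) x0 y (V (k + 1) x0) +
            2 * nsq (V (k + 1) x0 - u (k + 1) x0) := by
          have e1 : Mx (k + 1) (ck o x1 y (k + 1) - ix (k + 1) x0) *ᵥ u (k + 1) x0 =
              Mx (k + 1) (ck o x1 y (k + 1) - ix (k + 1) x0) *ᵥ V (k + 1) x0 -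
              Mx (k + 1) (ck o x1 y (k + 1) - ix (k + 1) x0) *ᵥ
                (V (k + 1) x0 - u (k + 1) x0) := by
            rw [← mulVec_sub]
            congr 1
            abel
          unfold Nn
          rw [e1]
          have h1 := nsq_sub_le (Mx (k + 1) (ck o x1 y (k + 1) - ix (k + 1) x0) *ᵥ V (k + 1) x0)
            (Mx (k + 1) (ck o x1 y (k + 1) - ix (k + 1) x0) *ᵥ (V (k + 1) x0 - u (k + 1) x0))
          have h2 := hC k hk (ck o x1 y (k + 1) - ix (k + 1) x0) (V (k + 1) x0 - u (k + 1) x0)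
          linarith
        refine (mul_le_mul_of_nonneg_left (c1.trans c2) (hW0 k x0)).trans (le_of_eq ?_)
        ring
      refine (sum_le_sum g1).trans ?_
      rw [sum_add_distrib, ← mul_sum, ← mul_sum]
      have g2 := wt_fun (n := n) (T := T) (hW0 k) (hW k hk.le) (i := k + 1) hk
        (f := fun x0 => Nn Mx o x1 (k + 1) x0 y (V (k + 1) x0))
        (fun x0 => Nn_nonneg _ _ _ _ _ _ _) (fun x z hxz => by
          simp only [hV]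
          unfold Nn
          rw [hxz, Rm_ix0 hxz])
      have e2 : k - (k + 1) = 0 := by omega
      rw [e2, pow_zero, mul_one] at g2
      linarith
    refine (sum_le_sum g).trans ?_
    rw [sum_add_distrib, ← mul_sum, ← mul_sum, ← mul_sum]
    have o1 := off_sum (s := s) (x1 := x1) (T := T) h hM ho y v (Nat.zero_le n)
      (fun _ => y) fun j _ _ => by rw [sub_self, abs_zero]; norm_num
    have o2 : ∑ k ∈ range n, ∑ x0 ∈ iv n T, Nn Mx o x1 (k + 1) x0 y (V (k + 1) x0) =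
        ∑ j ∈ Icc 1 (n - 0), ∑ x0 ∈ iv n T,
          Nn Mx o x1 j x0 y (Rm Mx o x1 s n j x0 y *ᵥ v) := by
      rw [range_eq_Ico, sum_Ico_add' (fun j => ∑ x0 ∈ iv n T,
          Nn Mx o x1 j x0 y (Rm Mx o x1 s n j x0 y *ᵥ v)) 0 n 1]
      rfl
    rw [o2]
    have s5 := end_sum (n := n) (T := T) (Mx := Mx) (x1 := x1) hs1 ho y v
    rw [← hM3, ← hE] at s5
    simp only [Nat.cast_zero, add_zero, one_pow, mul_one] at o1
    have o3 : ∑ j ∈ Icc 1 (n - 0), ∑ x0 ∈ iv n T,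
          Nn Mx o x1 j x0 y (Rm Mx o x1 s n j x0 y *ᵥ v) ≤ 10000 * E := by linarith
    have o4 := mul_le_mul_of_nonneg_left o3 he
    linarith
  -- together
  have tot : ∑ k ∈ range n, ∑ x0 ∈ iv n T, W k x0 *
        nsq ((Rs Mx o x1 s n sh k x0 (ix k (y - sh)) -
          Rs Mx o x1 s n sh (k + 1) x0 (ix (k + 1) (y - sh))) *ᵥ u (k + 1) x0) ≤
      3 * ∑ k ∈ range n, ∑ x0 ∈ iv n T, W k x0 *
        nsq ((Rs Mx o x1 s n sh k x0 (ix k (y - sh)) - Rm Mx o x1 s n k x0 y) *ᵥ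
          u (k + 1) x0) +
      3 * ∑ k ∈ range n, ∑ x0 ∈ iv n T, W k x0 *
        nsq ((Rs Mx o x1 s n sh (k + 1) x0 (ix (k + 1) (y - sh)) -
          Rm Mx o x1 s n (k + 1) x0 y) *ᵥ u (k + 1) x0) +
      3 * ∑ k ∈ range n, ∑ x0 ∈ iv n T, W k x0 *
        nsq (Lm Mx o x1 s (k + 1) x0 y *ᵥ u (k + 1) x0) := by
    rw [mul_sum, mul_sum, mul_sum, ← sum_add_distrib, ← sum_add_distrib]
    refine sum_le_sum fun k hk => ?_
    rw [mul_sum, mul_sum, mul_sum, ← sum_add_distrib, ← sum_add_distrib]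
    refine sum_le_sum fun x0 _ => ?_
    rw [mem_range] at hk
    have e1 : (Rs Mx o x1 s n sh k x0 (ix k (y - sh)) -
        Rs Mx o x1 s n sh (k + 1) x0 (ix (k + 1) (y - sh))) *ᵥ u (k + 1) x0 =
        (Rs Mx o x1 s n sh k x0 (ix k (y - sh)) - Rm Mx o x1 s n k x0 y) *ᵥ u (k + 1) x0 -
        (Rs Mx o x1 s n sh (k + 1) x0 (ix (k + 1) (y - sh)) -
          Rm Mx o x1 s n (k + 1) x0 y) *ᵥ u (k + 1) x0 +
        Lm Mx o x1 s (k + 1) x0 y *ᵥ u (k + 1) x0 := by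
      rw [Rm_succ hk]
      simp only [sub_mulVec, add_mulVec]
      abel
    rw [e1]
    refine (mul_le_mul_of_nonneg_left (nsq3' _ _ _) (hW0 k x0)).trans (le_of_eq ?_)
    ring
  refine tot.trans ?_
  have sum1 : 3 * (e * (3 * ((600 + 8 * (L : ℝ) ^ 3) * 20000 * E) +
        6 * ((600 + 8 * (L : ℝ) ^ 5) * E) + 2 * (κ * nsq v * F)) +
        6 * ((8 + 8 * (L : ℝ) ^ 3) * (2 * B + 2 * (e * E)))) +
      3 * (e * (3 * ((600 + 8 * (L : ℝ) ^ 3) * 20000 * E) +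
        6 * ((600 + 8 * (L : ℝ) ^ 5) * E) + 2 * (κ * nsq v * F)) +
        6 * ((8 + 8 * (L : ℝ) ^ 3) * B)) +
      3 * (20000 * (e * E) + 2 * B) ≤
      e * (3 * 10 ^ 8 * (1 + (L : ℝ)) ^ 6 * E +
        1000 * (1 + (L : ℝ)) ^ 3 * (1 + κ) * (F * nsq v)) := by
    have hL : (0 : ℝ) ≤ L := Nat.cast_nonneg L
    have hN := nsq_nonneg v
    have hx : 0 ≤ e * E := mul_nonneg he hE0
    have hy1 : 0 ≤ e * (F * nsq v) := mul_nonneg he (mul_nonneg hF0 hN)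
    have hz1 : 0 ≤ κ * (e * (F * nsq v)) := mul_nonneg hκ0 hy1
    have c1 : 3 * 10 ^ 8 * (1 + (L : ℝ)) ^ 6 - (6 * (3 * ((600 + 8 * (L : ℝ) ^ 3) * 20000)) +
        6 * (6 * (600 + 8 * (L : ℝ) ^ 5)) + 18 * (8 + 8 * (L : ℝ) ^ 3) *
        (3 * (48 + 16 * (L : ℝ) ^ 3) + 2) + 60000 + 6 * (48 + 16 * (L : ℝ) ^ 3)) =
        83897088 + 1800000000 * (L : ℝ) + 4500000000 * (L : ℝ) ^ 2 +
        5997091968 * (L : ℝ) ^ 3 + 4500000000 * (L : ℝ) ^ 4 + 1799999712 * (L : ℝ) ^ 5 +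
        299993088 * (L : ℝ) ^ 6 := by
      ring
    have c2 : 1000 * (1 + (L : ℝ)) ^ 3 - (54 * 2 * (8 + 8 * (L : ℝ) ^ 3) + 12) =
        124 + 3000 * (L : ℝ) + 3000 * (L : ℝ) ^ 2 + 136 * (L : ℝ) ^ 3 := by ring
    have c3 : 1000 * (1 + (L : ℝ)) ^ 3 - 12 =
        988 + 3000 * (L : ℝ) + 3000 * (L : ℝ) ^ 2 + 1000 * (L : ℝ) ^ 3 := by ring
    have d1 : 0 ≤ (3 * 10 ^ 8 * (1 + (L : ℝ)) ^ 6 -
        (6 * (3 * ((600 + 8 * (L : ℝ) ^ 3) * 20000)) +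
        6 * (6 * (600 + 8 * (L : ℝ) ^ 5)) + 18 * (8 + 8 * (L : ℝ) ^ 3) *
        (3 * (48 + 16 * (L : ℝ) ^ 3) + 2) + 60000 + 6 * (48 + 16 * (L : ℝ) ^ 3))) * (e * E) := by
      rw [c1]
      positivity
    have d2 : 0 ≤ (1000 * (1 + (L : ℝ)) ^ 3 - (54 * 2 * (8 + 8 * (L : ℝ) ^ 3) + 12)) *
        (e * (F * nsq v)) := by
      rw [c2]
      positivity
    have d3 : 0 ≤ (1000 * (1 + (L : ℝ)) ^ 3 - 12) * (κ * (e * (F * nsq v))) := by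
      rw [c3]
      positivity
    rw [hB]
    refine le_of_sub_nonneg (le_of_le_of_eq (add_nonneg (add_nonneg d1 d2) d3) ?_)
    ring
  refine le_trans ?_ sum1
  linarith

end

end Vale.Agent.P141.H841
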