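import Vale.Agent.P141.H841.S3
import Vale.Agent.P141.H876.ShiftY

/-!
# P141, line (A): the half differences of the shifted slot applied to the shifted slot, summed

Letters of `H876.ShiftY`.

* `S3p` : one point, live scales, `farA`;
* `S3a` : summed over the root cell, for a function with small live fibres.
-/

namespace Vale.Agent.P141.H841

open Finset Matrix
open Vale.Agent.P141.PL (iv ix hs mem_iv)
open Vale.Agent.P141.H43 (nsq nsq_nonneg)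
open Vale.Agent.P141.H420 (Tr)
open Vale.Agent.P141.H483 (mT)
open Vale.Agent.P141.H876 (En En_nonneg far_all)
open Vale.Agent.P141.H444.FD (farA farA_nonneg)

noncomputable section

open scoped Classical

variable {ι : Type*} [Fintype ι]

variable {Mx : ℕ → ℤ → Matrix ι ι ℝ} {o x1 T M3 : ℤ} {s : ℕ → ℤ → ℤ → ℝ} {n : ℕ}

theorem fr_farA (n L : ℕ) (sh : ℤ) {b : ℕ → ℝ} (hb : ∀ i, 0 ≤ b i) (al : ℕ → ℤ → Prop) (y : ℤ)
    {al' : ℕ → Prop} (h : ∀ k ≤ n, al' k → al k y) :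
    fr n L b al' sh y ≤ farA n L b al y := by
  refine le_trans ?_ (H876.om_farA n L sh hb al y)
  unfold fr
  refine sum_le_sum fun k hk => sum_le_sum fun i _ => ?_
  rw [mem_range] at hk
  by_cases h1 : al' k ∧ k + L ≤ i
  · rw [if_pos h1, if_pos ⟨h1.2, h k (by omega) h1.1⟩]
  · rw [if_neg h1]
    split_ifs
    · exact mul_nonneg (om_nonneg _ _ _ _) (hb i)
    · exact le_rfl

/-- **(S3), one point, live scales.** -/
theorem S3p {l : ℝ} {G K : ℕ → ℤ → Matrix ι ι ℝ} (h : Tr l n G K)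
    (hM : ∀ k m a, Mx k m *ᵥ a = mT l K k m a) (ho : o = 1 ∨ o = -1)
    (hs1 : ∀ k a b, |s k a b| ≤ 1) {w : ι → ℝ} {q : ℝ}
    (hX : ∑ i ∈ range n, En Mx n T x1 M3 (i + 1) w ≤ q)
    {W : ℕ → ℤ → ℝ} {e : ℝ} (he : 0 ≤ e) (hW0 : ∀ k x0, 0 ≤ W k x0)
    (hW : ∀ k < n, ∀ j, ∑ x0 ∈ iv k j, W k x0 ≤ e * 2 ^ k)
    {θ : ℕ → ℤ → ℝ} (hθ0 : ∀ k m, 0 ≤ θ k m)
    (hθ : ∀ k m a, nsq (Mx k m *ᵥ a) ≤ θ k m * nsq a)
    {κ : ℝ} (hκ0 : 0 ≤ κ) (hκ : ∀ x0 p, nsq (Rm Mx o x1 s n 0 x0 p *ᵥ w) ≤ κ * nsq w)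
    (al : ℕ → ℤ → Prop) (L : ℕ) (sh : ℤ)
    {y : ℤ} (hy : y ∈ iv n M3) (hup : ∀ k < n, al k y → al (k + 1) y)
    (hal : ∀ k < n, ¬ al k y → ∀ x0, W k x0 = 0) :
    ∑ k ∈ range n, ∑ x0 ∈ iv n T, W k x0 *
        nsq ((Rs Mx o x1 s n sh k x0 (ix k (y - sh)) -
          Rs Mx o x1 s n sh (k + 1) x0 (ix (k + 1) (y - sh))) *ᵥ
            (Rs Mx o x1 s n sh (k + 1) x0 (ix (k + 1) (y - sh)) *ᵥ w)) ≤
      e * (3 * 10 ^ 8 * (1 + (L : ℝ)) ^ 6 * q +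
        1000 * (1 + (L : ℝ)) ^ 3 * (1 + κ) * (farA n L (ep θ n T x1 M3) al y * nsq w)) := by
  have hym := mem_iv.1 hy
  set W' : ℕ → ℤ → ℝ := fun k x0 => if k < n then W k x0 else 0 with hW'
  have hW0' : ∀ k x0, 0 ≤ W' k x0 := by
    intro k x0
    simp only [hW']
    split_ifs
    · exact hW0 _ _
    · exact le_rfl
  have hWs' : ∀ k ≤ n, ∀ j, ∑ x0 ∈ iv k j, W' k x0 ≤ e * 2 ^ k := by
    intro k _ j
    by_cases hk : k < n
    · simp only [hW', if_pos hk]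
      exact hW k hk j
    · simp only [hW', if_neg hk, sum_const_zero]
      positivity
  have hal' : ∀ k, ¬ al (min k n) y → ∀ x0, W' k x0 = 0 := by
    intro k hk x0
    by_cases hkn : k < n
    · simp only [hW', if_pos hkn]
      rw [min_eq_left hkn.le] at hk
      exact hal k hkn hk x0
    · simp only [hW', if_neg hkn]
  have hmono : ∀ k, al (min k n) y → al (min (k + 1) n) y := by
    intro k hk
    by_cases hkn : k < n
    · rw [min_eq_left (by omega : k + 1 ≤ n)]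
      rw [min_eq_left hkn.le] at hk
      exact hup k hkn hk
    · rw [min_eq_right (by omega : n ≤ k + 1)]
      rwa [min_eq_right (by omega : n ≤ k)] at hk
  have key := S3y (T := T) (x1 := x1) h hM ho hs1 he hW0' hWs' hθ0 hθ sh y w hκ0 hκ L
    (al := fun k => al (min k n) y) hal' hmono
  rw [hym] at key
  have e1 : ∑ k ∈ range n, ∑ x0 ∈ iv n T, W k x0 *
        nsq ((Rs Mx o x1 s n sh k x0 (ix k (y - sh)) -
          Rs Mx o x1 s n sh (k + 1) x0 (ix (k + 1) (y - sh))) *ᵥ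
            (Rs Mx o x1 s n sh (k + 1) x0 (ix (k + 1) (y - sh)) *ᵥ w)) =
      ∑ k ∈ range n, ∑ x0 ∈ iv n T, W' k x0 *
        nsq ((Rs Mx o x1 s n sh k x0 (ix k (y - sh)) -
          Rs Mx o x1 s n sh (k + 1) x0 (ix (k + 1) (y - sh))) *ᵥ
            (Rs Mx o x1 s n sh (k + 1) x0 (ix (k + 1) (y - sh)) *ᵥ w)) := by
    refine sum_congr rfl fun k hk => sum_congr rfl fun x0 _ => ?_
    rw [mem_range] at hk
    simp only [hW', if_pos hk]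
  rw [e1]
  refine key.trans (mul_le_mul_of_nonneg_left (add_le_add ?_ ?_) he)
  · exact mul_le_mul_of_nonneg_left hX (by positivity)
  · refine mul_le_mul_of_nonneg_left (mul_le_mul_of_nonneg_right ?_ (nsq_nonneg w))
      (mul_nonneg (by positivity) (by linarith))
    refine fr_farA n L sh (ep_nonneg hθ0 n T x1 M3) al y fun k hk hk2 => ?_
    rwa [min_eq_left hk] at hk2

/-- **(S3), summed, small live fibres.** -/
theorem S3a {l : ℝ} {G K : ℕ → ℤ → Matrix ι ι ℝ} (h : Tr l n G K)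
    (hM : ∀ k m a, Mx k m *ᵥ a = mT l K k m a) (ho : o = 1 ∨ o = -1)
    (hs1 : ∀ k a b, |s k a b| ≤ 1) {Q : (ι → ℝ) → ℝ}
    (hX : ∀ a, ∑ i ∈ range n, En Mx n T x1 M3 (i + 1) a ≤ 2 ^ n * Q a)
    {W : ℕ → ℤ → ℤ → ℝ} {e : ℝ} (he : 0 ≤ e) (hW0 : ∀ k x0 y, 0 ≤ W k x0 y)
    (hW : ∀ k < n, ∀ j y, ∑ x0 ∈ iv k j, W k x0 y ≤ e * 2 ^ k)
    {θ : ℕ → ℤ → ℝ} (hθ0 : ∀ k m, 0 ≤ θ k m)
    (hθ : ∀ k m a, nsq (Mx k m *ᵥ a) ≤ θ k m * nsq a) {Θ : ℝ}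
    (hΘ : ∑ i ∈ range n, ep θ n T x1 M3 i ≤ Θ * 2 ^ n) {al : ℕ → ℤ → Prop} {v : ℤ → ι → ℝ} {V : ℝ}
    (hV0 : 0 ≤ V) (hV : ∀ k ≤ n, ∀ y, al k y → ∑ y' ∈ iv k (ix k y), nsq (v y') ≤ V * 2 ^ k)
    {κ : ℝ} (hκ0 : 0 ≤ κ)
    (hκ : ∀ y ∈ iv n M3, ∀ x0 p, nsq (Rm Mx o x1 s n 0 x0 p *ᵥ v y) ≤ κ * nsq (v y))
    (hup : ∀ y ∈ iv n M3, ∀ k < n, al k y → al (k + 1) y)
    (hal : ∀ y ∈ iv n M3, ∀ k < n, ¬ al k y → ∀ x0, W k x0 y = 0) (L : ℕ) (sh : ℤ) :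
    ∑ y ∈ iv n M3, ∑ k ∈ range n, ∑ x0 ∈ iv n T, W k x0 y *
        nsq ((Rs Mx o x1 s n sh k x0 (ix k (y - sh)) -
          Rs Mx o x1 s n sh (k + 1) x0 (ix (k + 1) (y - sh))) *ᵥ
            (Rs Mx o x1 s n sh (k + 1) x0 (ix (k + 1) (y - sh)) *ᵥ v y)) ≤
      e * (3 * 10 ^ 8 * (1 + (L : ℝ)) ^ 6 * (2 ^ n * ∑ y ∈ iv n M3, Q (v y)) +
        64000 * (1 + (L : ℝ)) ^ 3 * (1 + κ) *
          ((((L : ℝ) + 2) ^ 2 + 2) / 2 ^ L * (V * Θ * 4 ^ n))) := by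
  refine (sum_le_sum fun y hy => S3p h hM ho hs1 (hX (v y)) he (fun k x => hW0 k x y)
    (fun k hk j => hW k hk j y) hθ0 hθ hκ0 (hκ y hy) al L sh hy (hup y hy) (hal y hy)).trans ?_
  rw [← mul_sum, sum_add_distrib, ← mul_sum, ← mul_sum, ← mul_sum]
  have h1 := far_all (M3 := M3) (x1 := x1) (T := T) hθ0 hΘ hV0 hV L
  refine (mul_le_mul_of_nonneg_left (add_le_add le_rfl (mul_le_mul_of_nonneg_left h1
    (mul_nonneg (by positivity) (by linarith :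
      (0 : ℝ) ≤ 1 + κ)))) he).trans (le_of_eq ?_)
  ring

end

end Vale.Agent.P141.H841
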